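import Mathlib.Probability.Independence.ZeroOne
import Vale.Agent.P147.MathlibUsed
import Vale.Agent.P147.Defs
attribute [-instance] ProperSMul.toContinuousSMul IsTopologicalTorsor.toContinuousSMul IdemSemiring.toCanonicallyOrderedAdd IdemSemiring.toMulLeftMono IdemSemiring.toMulRightMono AddQuantale.instAddLeftMono AddQuantale.instAddRightMono Quantale.instMulLeftMono Quantale.instMulRightMono FiniteDimensional.rclike_to_real IsScalarTower.complexToReal FiniteDimensional.complexToReal

set_option linter.all false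

section

section

set_option linter.all false

section

open scoped ENNReal

namespace Vale.Agent.P147

/-- A graded monoid with the nesting property: two factorizations of the same element into
graded pieces are nested. -/
structure Grading (M : Type*) [Monoid M] where
  G : ℕ → Set M
  G_zero : G 0 = {1}
  mul_mem : ∀ {j k : ℕ} {a b : M}, a ∈ G j → b ∈ G k → a * b ∈ G (j + k)
  nest : ∀ {j k j' k' : ℕ} {a b a' b' : M}, a ∈ G j → b ∈ G k → a' ∈ G j' → b' ∈ G k' →
    a * b = a' * b' → j + k = j' + k' → j ≤ j' → ∃ c ∈ G (j' - j), a' = a * c ∧ b = c * b'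

namespace Grading

variable {M : Type*} [Monoid M] (𝒢 : Grading M)

/-- Irreducible elements of grade `k`. -/
def I (k : ℕ) : Set M :=
  {x | x ∈ 𝒢.G k ∧ 0 < k ∧ ∀ j, 0 < j → j < k → ∀ a ∈ 𝒢.G j, ∀ b ∈ 𝒢.G (k - j), x ≠ a * b}

lemma I_zero : 𝒢.I 0 = ∅ := by
  ext x
  simp only [I, lt_self_iff_false, not_lt_zero, zero_tsub, ne_eq, IsEmpty.forall_iff, implies_true, and_true, and_false, Set.ofPred_false, Set.mem_empty_iff_false]

lemma one_mem : (1 : M) ∈ 𝒢.G 0 := by rw [𝒢.G_zero]; rfl

/-- The factorization map. -/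
def facMap (k : ℕ) : (Σ j : Finset.Icc 1 k, (𝒢.I j) × (𝒢.G (k - j))) → 𝒢.G k :=
  fun p => ⟨p.2.1.1 * p.2.2.1, by
    have h := 𝒢.mul_mem p.2.1.2.1 p.2.2.2
    have hj := p.1.2
    rw [Finset.mem_Icc] at hj
    rwa [Nat.add_sub_cancel' hj.2] at h⟩

lemma facMap_bijective {k : ℕ} (hk : 0 < k) : Function.Bijective (𝒢.facMap k) := by
  constructor
  · have key : ∀ (p q : Σ j : Finset.Icc 1 k, (𝒢.I j) × (𝒢.G (k - j))),
        (p.1 : ℕ) ≤ q.1 → 𝒢.facMap k p = 𝒢.facMap k q → p = q := by
      rintro ⟨⟨j, hj⟩, ⟨a, ha⟩, ⟨b, hb⟩⟩ ⟨⟨j', hj'⟩, ⟨a', ha'⟩, ⟨b', hb'⟩⟩ hle h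
      simp only at hle ha ha' hb hb'
      have hj1 := Finset.mem_Icc.1 hj
      have hj2 := Finset.mem_Icc.1 hj'
      have h' : a * b = a' * b' := congrArg Subtype.val h
      obtain ⟨c, hc, hac, hbc⟩ := 𝒢.nest ha.1 hb ha'.1 hb' h' (by omega) hle
      rcases Nat.eq_or_lt_of_le hle with heq | hlt
      · subst heq
        rw [Nat.sub_self, 𝒢.G_zero, Set.mem_singleton_iff] at hc
        subst hc
        simp only [mul_one] at hac
        simp only [one_mul] at hbc
        subst hac hbc
        rfl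
      · exact absurd hac (ha'.2.2 j (by omega) hlt a ha.1 c hc)
    intro p q h
    rcases le_total (p.1 : ℕ) q.1 with hle | hle
    · exact key p q hle h
    · exact (key q p hle h.symm).symm
  · rintro ⟨x, hx⟩
    have hex : ∃ j, 0 < j ∧ j ≤ k ∧ ∃ a ∈ 𝒢.G j, ∃ b ∈ 𝒢.G (k - j), x = a * b :=
      ⟨k, hk, le_rfl, x, hx, 1, by rw [Nat.sub_self]; exact 𝒢.one_mem, by simp⟩
    have hir : ∃ j, 0 < j ∧ j ≤ k ∧ ∃ a ∈ 𝒢.I j, ∃ b ∈ 𝒢.G (k - j), x = a * b := by
      classical
      obtain ⟨h1, h2, a, ha, b, hb, hab⟩ := Nat.find_spec hex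
      have hmin := fun i hi => Nat.find_min hex (m := i) hi
      refine ⟨Nat.find hex, h1, h2, a, ⟨ha, h1, ?_⟩, b, hb, hab⟩
      intro i hi0 hij c hc e he hce
      refine hmin i hij ⟨hi0, by omega, c, hc, e * b, ?_, ?_⟩
      · have h := 𝒢.mul_mem he hb
        have e1 : Nat.find hex - i + (k - Nat.find hex) = k - i := by omega
        rwa [e1] at h
      · rw [hab, hce, mul_assoc]
    obtain ⟨j, h1, h2, a, ha, b, hb, hab⟩ := hir
    exact ⟨⟨⟨j, Finset.mem_Icc.2 ⟨h1, h2⟩⟩, ⟨a, ha⟩, ⟨b, hb⟩⟩, Subtype.ext hab.symm⟩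

/-- The fundamental identity: factor out the first irreducible piece. -/
lemma tsum_eq {k : ℕ} (hk : 0 < k) (φ : M → ℝ≥0∞) :
    ∑' x : 𝒢.G k, φ x =
      ∑ j ∈ Finset.Icc 1 k, ∑' a : 𝒢.I j, ∑' b : 𝒢.G (k - j), φ (a * b) := by
  let e := Equiv.ofBijective _ (𝒢.facMap_bijective hk)
  rw [← e.tsum_eq (fun x : 𝒢.G k => φ x), ENNReal.tsum_sigma', tsum_fintype]
  rw [← Finset.sum_coe_sort (Finset.Icc 1 k)
    (fun j => ∑' a : 𝒢.I j, ∑' b : 𝒢.G (k - j), φ (a * b))]
  refine Finset.sum_congr rfl fun j _ => ?_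
  rw [ENNReal.tsum_prod']
  rfl

/-- A weight that is multiplicative on graded pieces. -/
structure Mult (W : M → ℝ≥0∞) : Prop where
  one : W 1 = 1
  mul : ∀ {j k : ℕ} {a b : M}, a ∈ 𝒢.G j → b ∈ 𝒢.G k → W (a * b) = W a * W b

/-- Total weight of grade `k`. -/
noncomputable def U (W : M → ℝ≥0∞) (k : ℕ) : ℝ≥0∞ := ∑' x : 𝒢.G k, W x

/-- Total weight of the irreducible elements of grade `k`. -/
noncomputable def f (W : M → ℝ≥0∞) (k : ℕ) : ℝ≥0∞ := ∑' x : 𝒢.I k, W x

variable {𝒢} {W : M → ℝ≥0∞}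

lemma U_zero (hW : 𝒢.Mult W) : 𝒢.U W 0 = 1 := by
  rw [U, 𝒢.G_zero]
  rw [tsum_singleton (1 : M) W, hW.one]

@[simp] lemma f_zero : 𝒢.f W 0 = 0 := by
  rw [f, 𝒢.I_zero]; simp

lemma tsum_mul_eq (hW : 𝒢.Mult W) {k : ℕ} (hk : 0 < k) (φ : M → ℝ≥0∞) :
    ∑' x : 𝒢.G k, W x * φ x =
      ∑ j ∈ Finset.Icc 1 k, ∑' a : 𝒢.I j, W a * ∑' b : 𝒢.G (k - j), W b * φ (a * b) := by
  rw [𝒢.tsum_eq hk (fun x => W x * φ x)]
  refine Finset.sum_congr rfl fun j _ => tsum_congr fun a => ?_
  rw [← ENNReal.tsum_mul_left]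
  refine tsum_congr fun b => ?_
  rw [hW.mul a.2.1 b.2, mul_assoc]

lemma renewal (hW : 𝒢.Mult W) {k : ℕ} (hk : 0 < k) :
    𝒢.U W k = ∑ j ∈ Finset.Icc 1 k, 𝒢.f W j * 𝒢.U W (k - j) := by
  have h := tsum_mul_eq hW hk (fun _ => 1)
  simp only [mul_one] at h
  rw [U, h]
  refine Finset.sum_congr rfl fun j _ => ?_
  rw [ENNReal.tsum_mul_right]
  rfl

lemma f_le_U (j : ℕ) : 𝒢.f W j ≤ 𝒢.U W j := by
  rw [f, U]
  exact ENNReal.tsum_mono_subtype W (fun x hx => hx.1)

/-- Partial sums of the renewal equation. -/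
lemma sum_U_le (hW : 𝒢.Mult W) (n : ℕ) :
    ∑ k ∈ Finset.range (n + 1), 𝒢.U W k ≤
      1 + (∑' j, 𝒢.f W j) * ∑ k ∈ Finset.range (n + 1), 𝒢.U W k := by
  conv_lhs => rw [Finset.sum_range_succ', U_zero hW, add_comm]
  gcongr
  calc ∑ k ∈ Finset.range n, 𝒢.U W (k + 1)
      = ∑ k ∈ Finset.range n, ∑ j ∈ Finset.Icc 1 (k + 1), 𝒢.f W j * 𝒢.U W (k + 1 - j) :=
        Finset.sum_congr rfl fun k _ => renewal hW (Nat.succ_pos k)
    _ = ∑ k ∈ Finset.range n, ∑ j ∈ Finset.Icc 1 n,
          (if j ≤ k + 1 then 𝒢.f W j * 𝒢.U W (k + 1 - j) else 0) := by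
        refine Finset.sum_congr rfl fun k hk => ?_
        rw [← Finset.sum_filter]
        refine Finset.sum_congr ?_ fun _ _ => rfl
        ext j
        simp only [Finset.mem_Icc, Finset.mem_filter, Finset.mem_range] at hk ⊢
        omega
    _ = ∑ j ∈ Finset.Icc 1 n, ∑ k ∈ Finset.range n,
          (if j ≤ k + 1 then 𝒢.f W j * 𝒢.U W (k + 1 - j) else 0) := Finset.sum_comm
    _ ≤ ∑ j ∈ Finset.Icc 1 n, 𝒢.f W j * ∑ k ∈ Finset.range (n + 1), 𝒢.U W k := by
        refine Finset.sum_le_sum fun j _ => ?_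
        rw [← Finset.sum_filter, ← Finset.mul_sum]
        gcongr
        rw [← Finset.sum_image (g := fun k => k + 1 - j) (f := fun k => 𝒢.U W k)]
        · refine Finset.sum_le_sum_of_subset ?_
          intro i hi
          simp only [Finset.mem_image, Finset.mem_filter, Finset.mem_range] at hi ⊢
          omega
        · intro a ha b hb hab
          simp only [Finset.coe_filter, Finset.mem_range, Set.mem_ofPred_eq] at ha hb hab
          omega
    _ ≤ (∑' j, 𝒢.f W j) * ∑ k ∈ Finset.range (n + 1), 𝒢.U W k := by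
        rw [← Finset.sum_mul]
        gcongr
        exact ENNReal.sum_le_tsum _

end Grading

end Vale.Agent.P147
end

section

open scoped ENNReal

namespace Vale.Agent.P147

namespace Grading

variable {M : Type*} [Monoid M] {𝒢 : Grading M} {W : M → ℝ≥0∞}

lemma renewal_ge (hW : 𝒢.Mult W) {k J : ℕ} (hk : J ≤ k) (hk0 : 0 < k) {c : ℝ≥0∞}
    (hc : ∀ i, k - J ≤ i → i < k → c ≤ 𝒢.U W i) :
    (∑ j ∈ Finset.range (J + 1), 𝒢.f W j) * c ≤ 𝒢.U W k := by
  rw [renewal hW hk0, Finset.sum_mul]
  calc ∑ j ∈ Finset.range (J + 1), 𝒢.f W j * c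
      = ∑ j ∈ Finset.Icc 1 J, 𝒢.f W j * c := by
        symm
        refine Finset.sum_subset ?_ ?_
        · intro j hj
          simp only [Finset.mem_Icc, Finset.mem_range] at hj ⊢
          omega
        · intro j hj hj2
          have : j = 0 := by
            simp only [Finset.mem_Icc, Finset.mem_range, not_and, not_le] at hj hj2
            by_contra h0
            have := hj2 (by omega)
            omega
          subst this
          simp
    _ ≤ ∑ j ∈ Finset.Icc 1 J, 𝒢.f W j * 𝒢.U W (k - j) := by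
        refine Finset.sum_le_sum fun j hj => ?_
        rw [Finset.mem_Icc] at hj
        gcongr
        exact hc _ (by omega) (by omega)
    _ ≤ ∑ j ∈ Finset.Icc 1 k, 𝒢.f W j * 𝒢.U W (k - j) := by
        refine Finset.sum_le_sum_of_subset ?_
        exact Finset.Icc_subset_Icc_right hk

lemma exists_lt_pow {ρ q : ℝ≥0∞} (hρ : 1 < ρ) (hq : q ≠ 0) : ∃ n : ℕ, 1 < q * ρ ^ n := by
  obtain ⟨δ, hδ, rfl⟩ : ∃ δ, 0 < δ ∧ ρ = 1 + δ := by
    refine ⟨ρ - 1, tsub_pos_of_lt hρ, ?_⟩
    rw [add_tsub_cancel_of_le hρ.le]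
  have hb : ∀ n : ℕ, (n : ℝ≥0∞) * δ ≤ (1 + δ) ^ n := by
    intro n
    have h := one_add_mul_le_pow_of_sq_nonneg (R := ℝ≥0∞) (a := δ) (by simp) (by simp) (by simp) n
    exact le_trans le_add_self h
  obtain ⟨n, hn⟩ := ENNReal.exists_nat_mul_gt (a := δ * q) (b := 1)
    (mul_ne_zero hδ.ne' hq) (by simp)
  refine ⟨n, hn.trans_le ?_⟩
  calc (n : ℝ≥0∞) * (δ * q) = q * (n * δ) := by ring
    _ ≤ q * (1 + δ) ^ n := by gcongr; exact hb n

/-- The irreducible weights have total mass at most one. -/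
lemma tsum_f_le_one (hW : 𝒢.Mult W) (hU : ∀ k, 𝒢.U W k ≤ 1) {q : ℝ≥0∞} (hq : q ≠ 0) {k₀ : ℕ}
    (hlow : ∀ k, k₀ ≤ k → q ≤ 𝒢.U W k) : ∑' j, 𝒢.f W j ≤ 1 := by
  by_contra hcon
  rw [not_le, ENNReal.tsum_eq_iSup_nat, lt_iSup_iff] at hcon
  obtain ⟨J, hJ⟩ := hcon
  set ρ := ∑ j ∈ Finset.range (J + 1), 𝒢.f W j with hρ
  have hρ1 : 1 < ρ := hJ.trans_le (Finset.sum_le_sum_of_subset (by
    intro i hi; simp only [Finset.mem_range] at hi ⊢; omega))
  have claim : ∀ n k, k₀ + n * (J + 1) ≤ k → q * ρ ^ n ≤ 𝒢.U W k := by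
    intro n
    induction n with
    | zero => intro k hk; simpa only [pow_zero, mul_one] using hlow k (by omega)
    | succ n ih =>
      intro k hk
      have hk' : k₀ + n * (J + 1) + (J + 1) ≤ k := by
        have : (n + 1) * (J + 1) = n * (J + 1) + (J + 1) := by ring
        omega
      have := renewal_ge hW (J := J) (k := k) (by omega) (by omega) (c := q * ρ ^ n)
        (fun i h1 _ => ih i (by omega))
      calc q * ρ ^ (n + 1) = ρ * (q * ρ ^ n) := by ring
        _ ≤ 𝒢.U W k := this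
  obtain ⟨n, hn⟩ := exists_lt_pow hρ1 hq
  exact absurd (hn.trans_le ((claim n _ le_rfl).trans (hU _))) (lt_irrefl _)

/-- The irreducible weights have total mass at least one. -/
lemma one_le_tsum_f (hW : 𝒢.Mult W) (hU : ∀ k, 𝒢.U W k ≤ 1) {q : ℝ≥0∞} (hq : q ≠ 0) {k₀ : ℕ}
    (hlow : ∀ k, k₀ ≤ k → q ≤ 𝒢.U W k) : 1 ≤ ∑' j, 𝒢.f W j := by
  by_contra hcon
  rw [not_le] at hcon
  set F := ∑' j, 𝒢.f W j with hF
  obtain ⟨δ, hδ, hδF⟩ : ∃ δ, 0 < δ ∧ F + δ = 1 :=
    ⟨1 - F, tsub_pos_of_lt hcon, add_tsub_cancel_of_le hcon.le⟩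
  have hfin : ∀ n, ∑ k ∈ Finset.range (n + 1), 𝒢.U W k ≠ ∞ := by
    intro n
    refine (lt_of_le_of_lt (Finset.sum_le_sum fun k _ => hU k) ?_).ne
    simp only [Finset.sum_const, Finset.card_range, nsmul_eq_mul, mul_one]
    exact ENNReal.natCast_lt_top _
  have hb : ∀ n, δ * ∑ k ∈ Finset.range (n + 1), 𝒢.U W k ≤ 1 := by
    intro n
    have h := sum_U_le hW n
    set T := ∑ k ∈ Finset.range (n + 1), 𝒢.U W k with hT
    have hFT : F * T ≠ ∞ := ENNReal.mul_ne_top (hcon.trans ENNReal.one_lt_top).ne (hfin n)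
    have h2 : F * T + δ * T ≤ F * T + 1 := by
      rw [← add_mul, hδF, one_mul, add_comm (F * T) 1]
      exact h
    exact (ENNReal.add_le_add_iff_left hFT).1 h2
  obtain ⟨n, hn⟩ := ENNReal.exists_nat_mul_gt (a := δ * q) (b := 1)
    (mul_ne_zero hδ.ne' hq) (by simp)
  have h1 := hb (k₀ + n)
  have h2 : (n : ℝ≥0∞) * q ≤ ∑ k ∈ Finset.range (k₀ + n + 1), 𝒢.U W k := by
    calc (n : ℝ≥0∞) * q = ∑ k ∈ Finset.Ico k₀ (k₀ + n), q := by simp only [Finset.sum_const, Nat.card_Ico, add_tsub_cancel_left, nsmul_eq_mul]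
      _ ≤ ∑ k ∈ Finset.Ico k₀ (k₀ + n), 𝒢.U W k := Finset.sum_le_sum fun k hk =>
          hlow k (Finset.mem_Ico.1 hk).1
      _ ≤ _ := Finset.sum_le_sum_of_subset (by
          intro i hi; simp only [Finset.mem_Ico, Finset.mem_range] at hi ⊢; omega)
  have h3 : (n : ℝ≥0∞) * (δ * q) ≤ 1 := by
    calc (n : ℝ≥0∞) * (δ * q) = δ * (n * q) := by ring
      _ ≤ δ * ∑ k ∈ Finset.range (k₀ + n + 1), 𝒢.U W k := by (clear * - h2; gcongr)
      _ ≤ 1 := h1
  exact absurd (hn.trans_le h3) (lt_irrefl _)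

lemma tsum_f_eq_one (hW : 𝒢.Mult W) (hU : ∀ k, 𝒢.U W k ≤ 1) {q : ℝ≥0∞} (hq : q ≠ 0) {k₀ : ℕ}
    (hlow : ∀ k, k₀ ≤ k → q ≤ 𝒢.U W k) : ∑' j, 𝒢.f W j = 1 :=
  le_antisymm (tsum_f_le_one hW hU hq hlow) (one_le_tsum_f hW hU hq hlow)

/-! ### Thinness -/

/-- A statistic that is additive on graded pieces. -/
structure Add (𝒢 : Grading M) (N : M → ℕ) : Prop where
  one : N 1 = 0
  mul : ∀ {j k : ℕ} {a b : M}, a ∈ 𝒢.G j → b ∈ 𝒢.G k → N (a * b) = N a + N b

lemma Mult.damp (hW : 𝒢.Mult W) {N : M → ℕ} (hN : 𝒢.Add N) (t : ℝ≥0∞) :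
    𝒢.Mult (fun x => W x * t ^ N x) where
  one := by simp [hW.one, hN.one]
  mul := by
    intro j k a b ha hb
    simp only [hW.mul ha hb, hN.mul ha hb, pow_add]
    ring

/-- Elementary bound for the discrete Laplace transform. -/
lemma real_bound (ε : ℝ) (hε0 : 0 ≤ ε) (hε1 : ε < 1) (N : ℕ) (hN : ε * N ≤ 1) :
    ε * N / 2 ≤ 1 - (1 - ε) ^ N := by
  have h1 : (1 - ε) ^ N * (1 + N * ε) ≤ 1 := by
    calc (1 - ε) ^ N * (1 + N * ε) ≤ (1 - ε) ^ N * (1 + ε) ^ N := by
          have := one_add_mul_le_pow (a := ε) (by linarith only [hε0]) N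
          have h0 : 0 ≤ (1 - ε) ^ N := by
            apply pow_nonneg; linarith only [hε1]
          exact mul_le_mul_of_nonneg_left this h0
      _ = (1 - ε ^ 2) ^ N := by rw [← mul_pow]; ring
      _ ≤ 1 := by
          apply pow_le_one₀
          · nlinarith only [hε1, hε0]
          · nlinarith only []
  have hx : 0 ≤ (N : ℝ) * ε := by positivity
  have h2 : (1 - ε) ^ N ≤ 1 / (1 + N * ε) := by
    rw [le_div_iff₀ (by linarith only [hx])]; exact h1
  have h3 : 1 / (1 + N * ε) ≤ 1 - ε * N / 2 := by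
    rw [div_le_iff₀ (by linarith only [hx])]
    have : ε * N = N * ε := by ring
    rw [this] at hN ⊢
    nlinarith only [hN, hx]
  linarith only [h2, h3]

/-- Abelian step: the damped weights miss mass at most `1 / T`. -/
lemma damp_defect (hW : 𝒢.Mult W) {N : M → ℕ} (hN : 𝒢.Add N) (hF : ∑' j, 𝒢.f W j = 1)
    (hU : ∀ k, 𝒢.U W k ≤ 1) {t : ℝ≥0∞} (ht : t ≤ 1) (n : ℕ) :
    (∑' j, ∑' x : 𝒢.I j, W x * (1 - t ^ N x)) *
      ∑ k ∈ Finset.range (n + 1), 𝒢.U (fun x => W x * t ^ N x) k ≤ 1 := by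
  set W' : M → ℝ≥0∞ := fun x => W x * t ^ N x with hW'
  set Δ := ∑' j, ∑' x : 𝒢.I j, W x * (1 - t ^ N x) with hΔ
  set T := ∑ k ∈ Finset.range (n + 1), 𝒢.U W' k with hT
  have ht1 : ∀ k : ℕ, t ^ k ≤ 1 := fun k => pow_le_one₀ (by simp) ht
  have hUle : ∀ k, 𝒢.U W' k ≤ 1 := fun k => by
    refine le_trans (ENNReal.tsum_le_tsum fun x => ?_) (hU k)
    calc W x * t ^ N x ≤ W x * 1 := by gcongr; exact ht1 _
      _ = W x := mul_one _
  have hTfin : T ≠ ∞ := by
    refine (lt_of_le_of_lt (Finset.sum_le_sum fun k _ => hUle k) ?_).ne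
    simp only [Finset.sum_const, Finset.card_range, nsmul_eq_mul, mul_one]
    exact ENNReal.natCast_lt_top _
  have hsplit : ∑' j, 𝒢.f W' j + Δ = 1 := by
    rw [← hF, hΔ, ← ENNReal.tsum_add]
    refine tsum_congr fun j => ?_
    rw [f, f, ← ENNReal.tsum_add]
    refine tsum_congr fun x => ?_
    rw [← mul_add, add_tsub_cancel_of_le (ht1 _), mul_one]
  have h := sum_U_le (hW.damp hN t) n
  rw [← hW', ← hT] at h
  set φ := ∑' j, 𝒢.f W' j with hφ
  have hφ1 : φ ≤ 1 := by rw [← hsplit]; exact le_self_add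
  have hφT : φ * T ≠ ∞ := ENNReal.mul_ne_top (ne_top_of_le_ne_top ENNReal.one_ne_top hφ1) hTfin
  have h2 : φ * T + Δ * T ≤ φ * T + 1 := by
    rw [← add_mul, hsplit, one_mul, add_comm (φ * T) 1]
    exact h
  exact (ENNReal.add_le_add_iff_left hφT).1 h2

/-- Thinness: the mean of an additive statistic over the irreducible elements is finite if the
statistic grows at most linearly with non negligible weight. -/
theorem thin (hW : 𝒢.Mult W) {N : M → ℕ} (hN : 𝒢.Add N) (hF : ∑' j, 𝒢.f W j = 1)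
    (hU : ∀ k, 𝒢.U W k ≤ 1) {c₀ : ℝ≥0∞} (hc : c₀ ≠ 0) {L C s₀ : ℕ} (hC : 0 < C)
    (hI : ∀ s, s₀ ≤ s → c₀ ≤ ∑ o ∈ Finset.range L,
      ∑' x : 𝒢.G (s + o), W x * (if N x ≤ C * s then 1 else 0)) :
    ∑' j, ∑' x : 𝒢.I j, W x * N x ≠ ∞ := by
  have main : ∀ s : Finset (Σ j, 𝒢.I j), (∑ p ∈ s, W p.2 * N p.2) *
      (ENNReal.ofReal (1 / (8 * C)) * (c₀ / 2)) ≤ L := by
    intro S
    -- choose `m`
    obtain ⟨m, hm0, hms, hmS⟩ : ∃ m : ℕ, 0 < m ∧ s₀ ≤ m ∧ ∀ p ∈ S, N p.2 ≤ m := by
      refine ⟨s₀ + 1 + S.sup (fun p => N p.2), by omega, by omega, fun p hp => ?_⟩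
      have : N p.2 ≤ S.sup (fun p : (Σ j, 𝒢.I j) => N p.2) :=
        Finset.le_sup (f := fun p : (Σ j, 𝒢.I j) => N p.2) hp
      omega
    have hCr : (0 : ℝ) < C := by exact_mod_cast hC
    have hCr1 : (1 : ℝ) ≤ C := by exact_mod_cast hC
    have hmr : (0 : ℝ) < m := by exact_mod_cast hm0
    have hmr1 : (1 : ℝ) ≤ m := by exact_mod_cast hm0
    set ε : ℝ := 1 / (4 * C * m) with hε
    have hε0 : 0 < ε := by (clear * - hC hm0; positivity)
    have hCm : (1 : ℝ) ≤ C * m := by nlinarith only [hCr1, hmr1]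
    have hε4 : ε * (C * m) = 1 / 4 := by
      rw [hε]; field_simp
    have hε1 : ε ≤ 1 / 4 := by nlinarith only [hε4, hCm]
    set t : ℝ≥0∞ := ENNReal.ofReal (1 - ε) with ht
    have ht1 : t ≤ 1 := ENNReal.ofReal_le_one.2 (by linarith only [hε0])
    have htpow : ∀ k : ℕ, t ^ k = ENNReal.ofReal ((1 - ε) ^ k) := fun k => by
      rw [ht, ENNReal.ofReal_pow (by linarith only [hε1])]
    set T := ∑ k ∈ Finset.range (s₀ + m + L + 1), 𝒢.U (fun x => W x * t ^ N x) k with hT
    have h1 := damp_defect hW hN hF hU ht1 (s₀ + m + L)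
    rw [← hT] at h1
    set Δ := ∑' j, ∑' x : 𝒢.I j, W x * (1 - t ^ N x) with hΔ
    -- lower bound for `T`
    have h2 : (m : ℝ≥0∞) * (c₀ / 2) ≤ L * T := by
      have h3 : ∀ s ∈ Finset.Ico s₀ (s₀ + m), c₀ / 2 ≤
          ∑ o ∈ Finset.range L, 𝒢.U (fun x => W x * t ^ N x) (s + o) := by
        intro s hs
        rw [Finset.mem_Ico] at hs
        rw [div_eq_mul_inv, mul_comm]
        calc (2 : ℝ≥0∞)⁻¹ * c₀ ≤ 2⁻¹ * ∑ o ∈ Finset.range L,
              ∑' x : 𝒢.G (s + o), W x * (if N x ≤ C * s then 1 else 0) := by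
              gcongr; exact hI s hs.1
          _ = ∑ o ∈ Finset.range L,
              ∑' x : 𝒢.G (s + o), W x * (2⁻¹ * (if N x ≤ C * s then 1 else 0)) := by
              rw [Finset.mul_sum]
              refine Finset.sum_congr rfl fun o _ => ?_
              rw [← ENNReal.tsum_mul_left]
              refine tsum_congr fun x => ?_
              ring
          _ ≤ _ := by
              refine Finset.sum_le_sum fun o _ => ENNReal.tsum_le_tsum fun x => ?_
              change W x * (2⁻¹ * (if N x ≤ C * s then 1 else 0)) ≤ W x * t ^ N (x : M)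
              gcongr
              split_ifs with hx
              · rw [mul_one, htpow]
                have hx' : (N x : ℝ) ≤ C * s := by exact_mod_cast hx
                have hs' : (s : ℝ) ≤ 2 * m := by
                  have : s ≤ 2 * m := by omega
                  exact_mod_cast this
                have hb := one_add_mul_le_pow (a := -ε) (by linarith only [hε1]) (N x)
                have hb2 : (1 / 2 : ℝ) ≤ (1 - ε) ^ N (x : M) := by
                  have e1 : (1 + -ε) = 1 - ε := by ring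
                  rw [e1] at hb
                  have e2 : (N (x : M) : ℝ) * ε ≤ 1 / 2 := by
                    calc (N (x : M) : ℝ) * ε ≤ (C * (2 * m)) * ε := by
                          gcongr
                          nlinarith only [hx', hs']
                      _ = 2 * (ε * (C * m)) := by ring
                      _ = 1 / 2 := by rw [hε4]; norm_num
                  nlinarith only [hb, e2]
                calc (2 : ℝ≥0∞)⁻¹ = ENNReal.ofReal (1 / 2) := by
                      rw [one_div, ENNReal.ofReal_inv_of_pos (by norm_num)]; simp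
                  _ ≤ _ := ENNReal.ofReal_le_ofReal hb2
              · simp only [mul_zero, zero_le]
      calc (m : ℝ≥0∞) * (c₀ / 2) = ∑ s ∈ Finset.Ico s₀ (s₀ + m), c₀ / 2 := by simp only [Finset.sum_const, Nat.card_Ico, add_tsub_cancel_left, nsmul_eq_mul]
        _ ≤ ∑ s ∈ Finset.Ico s₀ (s₀ + m), ∑ o ∈ Finset.range L,
            𝒢.U (fun x => W x * t ^ N x) (s + o) := Finset.sum_le_sum h3
        _ = ∑ o ∈ Finset.range L, ∑ s ∈ Finset.Ico s₀ (s₀ + m),
            𝒢.U (fun x => W x * t ^ N x) (s + o) := Finset.sum_comm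
        _ ≤ ∑ o ∈ Finset.range L, T := by
            refine Finset.sum_le_sum fun o ho => ?_
            rw [← Finset.sum_image (g := fun s => s + o)
              (f := fun k => 𝒢.U (fun x => W x * t ^ N x) k) (by
                intro a _ b _ hab; simp only at hab; omega)]
            refine Finset.sum_le_sum_of_subset ?_
            intro i hi
            simp only [Finset.mem_image, Finset.mem_Ico, Finset.mem_range] at hi ho ⊢
            omega
        _ = L * T := by simp only [Finset.sum_const, Finset.card_range, nsmul_eq_mul]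
    -- lower bound for the defect
    have h4 : (∑ p ∈ S, W p.2 * N p.2) * ENNReal.ofReal (ε / 2) ≤ Δ := by
      have e1 : Δ = ∑' p : (Σ j, 𝒢.I j), W p.2 * (1 - t ^ N p.2) := by
        rw [ENNReal.tsum_sigma']
      rw [e1]
      refine le_trans ?_ (ENNReal.sum_le_tsum S)
      rw [Finset.sum_mul]
      refine Finset.sum_le_sum fun p hp => ?_
      rw [mul_assoc]
      gcongr
      rw [htpow]
      have hN1 : (N (p.2 : M) : ℝ) ≤ m := by exact_mod_cast hmS p hp
      have hb := real_bound ε hε0.le (by linarith only [hε1]) (N (p.2 : M)) (by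
        calc ε * N (p.2 : M) ≤ ε * (C * m) := by
              gcongr
              nlinarith only [hN1, hCr1]
          _ ≤ 1 := by rw [hε4]; norm_num)
      have e3 : (1 : ℝ≥0∞) - ENNReal.ofReal ((1 - ε) ^ N (p.2 : M)) =
          ENNReal.ofReal (1 - (1 - ε) ^ N (p.2 : M)) := by
        rw [ENNReal.ofReal_sub _ (by apply pow_nonneg; linarith only [hε1]), ENNReal.ofReal_one]
      rw [e3]
      calc (N (p.2 : M) : ℝ≥0∞) * ENNReal.ofReal (ε / 2)
          = ENNReal.ofReal (ε * N (p.2 : M) / 2) := by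
            rw [← ENNReal.ofReal_natCast, ← ENNReal.ofReal_mul (by (clear * -; positivity))]
            congr 1; ring
        _ ≤ _ := ENNReal.ofReal_le_ofReal hb
    -- conclusion
    have e5 : ENNReal.ofReal (1 / (8 * C)) = ENNReal.ofReal (ε / 2) * m := by
      rw [← ENNReal.ofReal_natCast, ← ENNReal.ofReal_mul (by (clear * - hC hm0; positivity))]
      congr 1
      rw [hε]; field_simp; norm_num
    calc (∑ p ∈ S, W p.2 * N p.2) * (ENNReal.ofReal (1 / (8 * C)) * (c₀ / 2))
        = ((∑ p ∈ S, W p.2 * N p.2) * ENNReal.ofReal (ε / 2)) * (m * (c₀ / 2)) := by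
          rw [e5]; ring
      _ ≤ Δ * (L * T) := by (clear * - h4 h2; gcongr)
      _ = L * (Δ * T) := by ring
      _ ≤ L * 1 := by (clear * - h1; gcongr)
      _ = L := mul_one _
  have hsum : (∑' j, ∑' x : 𝒢.I j, W x * N x) *
      (ENNReal.ofReal (1 / (8 * C)) * (c₀ / 2)) ≤ L := by
    rw [← ENNReal.tsum_sigma' (fun p : (Σ j, 𝒢.I j) => W p.2 * N p.2),
      ← ENNReal.tsum_mul_right, ENNReal.tsum_eq_iSup_sum]
    refine iSup_le fun S => ?_
    rw [← Finset.sum_mul]
    exact main S
  intro htop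
  rw [htop, ENNReal.top_mul] at hsum
  · simp at hsum
  · refine mul_ne_zero ?_ ?_
    · have hCr : (0 : ℝ) < C := by exact_mod_cast hC
      simp only [ne_eq, ENNReal.ofReal_eq_zero, not_le]
      (clear * - hC; positivity)
    · simpa only [ne_eq, ENNReal.div_eq_zero_iff, ENNReal.ofNat_ne_top, or_false] using hc

end Grading

end Vale.Agent.P147
end

section

open scoped ENNReal

namespace Vale.Agent.P147

namespace Grading

variable {M : Type*} [Monoid M] {𝒢 : Grading M} {W : M → ℝ≥0∞}

/-- A level statistic: `n x i` depends on the level `i` of the element `x`. -/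
def Lev (𝒢 : Grading M) (n : M → ℕ → ℝ≥0∞) : Prop :=
  ∀ {j k : ℕ} {a b : M}, a ∈ 𝒢.G j → b ∈ 𝒢.G k → ∀ i, i < j + k →
    n (a * b) i = if i < j then n a i else n b (i - j)

/-- Mean of a level statistic at level `i` over grade `R`. -/
noncomputable def V (𝒢 : Grading M) (W : M → ℝ≥0∞) (n : M → ℕ → ℝ≥0∞) (R i : ℕ) : ℝ≥0∞ :=
  ∑' x : 𝒢.G R, W x * n x i

/-- Mean of a level statistic at level `i` over the irreducible elements of grade `j`. -/
noncomputable def rho (𝒢 : Grading M) (W : M → ℝ≥0∞) (n : M → ℕ → ℝ≥0∞) (j r : ℕ) : ℝ≥0∞ :=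
  ∑' x : 𝒢.I j, W x * n x r

/-- Auxiliary sum. -/
noncomputable def gg (𝒢 : Grading M) (W : M → ℝ≥0∞) (n : M → ℕ → ℝ≥0∞) (R r : ℕ) : ℝ≥0∞ :=
  ∑ j ∈ Finset.Ioc r R, 𝒢.rho W n j r * 𝒢.U W (R - j)

lemma V_rec (hW : 𝒢.Mult W) {n : M → ℕ → ℝ≥0∞} (hn : 𝒢.Lev n) {R i : ℕ} (hi : i < R) :
    𝒢.V W n R i = 𝒢.gg W n R i + ∑ j ∈ Finset.Icc 1 i, 𝒢.f W j * 𝒢.V W n (R - j) (i - j) := by
  rw [V, tsum_mul_eq hW (by omega) (fun x => n x i)]
  have hsplit : Finset.Icc 1 R = Finset.Icc 1 i ∪ Finset.Ioc i R := by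
    ext j; simp only [Finset.mem_Icc, Finset.mem_union, Finset.mem_Ioc]; omega
  have hdisj : Disjoint (Finset.Icc 1 i) (Finset.Ioc i R) := by
    rw [Finset.disjoint_left]; intro j; simp only [Finset.mem_Icc, Finset.mem_Ioc]; omega
  rw [hsplit, Finset.sum_union hdisj, add_comm]
  congr 1
  · rw [gg]
    refine Finset.sum_congr rfl fun j hj => ?_
    rw [Finset.mem_Ioc] at hj
    rw [rho, ← ENNReal.tsum_mul_right]
    refine tsum_congr fun a => ?_
    rw [mul_assoc]
    congr 1
    rw [U, ← ENNReal.tsum_mul_left]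
    refine tsum_congr fun b => ?_
    rw [hn a.2.1 b.2 i (by omega), if_pos hj.1, mul_comm]
  · refine Finset.sum_congr rfl fun j hj => ?_
    rw [Finset.mem_Icc] at hj
    rw [f, ← ENNReal.tsum_mul_right]
    refine tsum_congr fun a => ?_
    congr 1
    rw [V]
    refine tsum_congr fun b => ?_
    rw [hn a.2.1 b.2 i (by omega), if_neg (by omega)]

lemma V_formula (hW : 𝒢.Mult W) {n : M → ℕ → ℝ≥0∞} (hn : 𝒢.Lev n) (i : ℕ) :
    ∀ R, i < R → 𝒢.V W n R i =
      ∑ s ∈ Finset.range (i + 1), 𝒢.U W s * 𝒢.gg W n (R - s) (i - s) := by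
  induction i using Nat.strong_induction_on with
  | _ i ih =>
    intro R hi
    rw [V_rec hW hn hi, Finset.sum_range_succ', U_zero hW, one_mul, Nat.sub_zero, Nat.sub_zero,
      add_comm]
    congr 1
    calc ∑ j ∈ Finset.Icc 1 i, 𝒢.f W j * 𝒢.V W n (R - j) (i - j)
        = ∑ j ∈ Finset.Icc 1 i, ∑ s ∈ Finset.range (i - j + 1),
            𝒢.f W j * 𝒢.U W s * 𝒢.gg W n (R - (s + j)) (i - (s + j)) := by
          refine Finset.sum_congr rfl fun j hj => ?_
          rw [Finset.mem_Icc] at hj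
          rw [ih (i - j) (by omega) (R - j) (by omega), Finset.mul_sum]
          refine Finset.sum_congr rfl fun s hs => ?_
          rw [Nat.sub_sub, Nat.sub_sub, add_comm j s, mul_assoc]
      _ = ∑ k ∈ Finset.range i, ∑ j ∈ Finset.Icc 1 (k + 1),
            𝒢.f W j * 𝒢.U W (k + 1 - j) * 𝒢.gg W n (R - (k + 1)) (i - (k + 1)) := by
          rw [Finset.sum_sigma', Finset.sum_sigma']
          refine Finset.sum_bij' (fun p _ => ⟨p.2 + p.1 - 1, p.1⟩)
            (fun q _ => ⟨q.2, q.1 + 1 - q.2⟩) ?_ ?_ ?_ ?_ ?_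
          · rintro ⟨j, s⟩ h
            simp only [Finset.mem_sigma, Finset.mem_Icc, Finset.mem_range] at h ⊢
            omega
          · rintro ⟨k, j⟩ h
            simp only [Finset.mem_sigma, Finset.mem_Icc, Finset.mem_range] at h ⊢
            omega
          · rintro ⟨j, s⟩ h
            simp only [Finset.mem_sigma, Finset.mem_Icc, Finset.mem_range] at h ⊢
            have : s + j - 1 + 1 - j = s := by omega
            rw [this]
          · rintro ⟨k, j⟩ h
            simp only [Finset.mem_sigma, Finset.mem_Icc, Finset.mem_range] at h ⊢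
            have : k + 1 - j + j - 1 = k := by omega
            rw [this]
          · rintro ⟨j, s⟩ h
            simp only [Finset.mem_sigma, Finset.mem_Icc, Finset.mem_range] at h ⊢
            have e1 : s + j - 1 + 1 = s + j := by omega
            rw [e1]
            have e2 : s + j - j = s := by omega
            rw [e2]
      _ = ∑ k ∈ Finset.range i, 𝒢.U W (k + 1) * 𝒢.gg W n (R - (k + 1)) (i - (k + 1)) := by
          refine Finset.sum_congr rfl fun k _ => ?_
          rw [← Finset.sum_mul, ← renewal hW (Nat.succ_pos k)]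

/-- Upper bound for the mean of a level statistic. -/
lemma V_le (hW : 𝒢.Mult W) (hU : ∀ k, 𝒢.U W k ≤ 1) {n : M → ℕ → ℝ≥0∞} (hn : 𝒢.Lev n)
    {R i : ℕ} (hi : i < R) :
    𝒢.V W n R i ≤ ∑' j, ∑' x : 𝒢.I j, W x * ∑ r ∈ Finset.range j, n x r := by
  rw [V_formula hW hn i R hi]
  calc ∑ s ∈ Finset.range (i + 1), 𝒢.U W s * 𝒢.gg W n (R - s) (i - s)
      ≤ ∑ s ∈ Finset.range (i + 1), ∑' j, if i - s < j then 𝒢.rho W n j (i - s) else 0 := by
        refine Finset.sum_le_sum fun s _ => ?_
        calc 𝒢.U W s * 𝒢.gg W n (R - s) (i - s) ≤ 1 * 𝒢.gg W n (R - s) (i - s) := by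
              gcongr; exact hU s
          _ = 𝒢.gg W n (R - s) (i - s) := one_mul _
          _ ≤ ∑ j ∈ Finset.Ioc (i - s) (R - s), if i - s < j then 𝒢.rho W n j (i - s) else 0 := by
              rw [gg]
              refine Finset.sum_le_sum fun j hj => ?_
              rw [Finset.mem_Ioc] at hj
              rw [if_pos hj.1]
              calc _ ≤ 𝒢.rho W n j (i - s) * 1 := by gcongr; exact hU _
                _ = _ := mul_one _
          _ ≤ _ := ENNReal.sum_le_tsum _
    _ = ∑ r ∈ Finset.range (i + 1), ∑' j, if r < j then 𝒢.rho W n j r else 0 := by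
        rw [← Finset.sum_range_reflect (fun r => ∑' j, if r < j then 𝒢.rho W n j r else 0)]
        refine Finset.sum_congr rfl fun s _ => ?_
        have : i + 1 - 1 - s = i - s := by omega
        rw [this]
    _ = ∑' j, ∑ r ∈ Finset.range (i + 1), if r < j then 𝒢.rho W n j r else 0 := by
        rw [Summable.tsum_finsetSum fun _ _ => ENNReal.summable]
    _ ≤ _ := by
        refine ENNReal.tsum_le_tsum fun j => ?_
        calc ∑ r ∈ Finset.range (i + 1), (if r < j then 𝒢.rho W n j r else 0)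
            = ∑ r ∈ (Finset.range (i + 1)).filter (· < j), 𝒢.rho W n j r := by
              rw [Finset.sum_filter]
          _ ≤ ∑ r ∈ Finset.range j, 𝒢.rho W n j r := by
              refine Finset.sum_le_sum_of_subset ?_
              intro r hr
              simp only [Finset.mem_filter, Finset.mem_range] at hr ⊢
              exact hr.2
          _ = ∑' x : 𝒢.I j, W x * ∑ r ∈ Finset.range j, n x r := by
              simp only [rho, Finset.mul_sum]
              rw [Summable.tsum_finsetSum fun _ _ => ENNReal.summable]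

/-- Lower bound for the mean of a level statistic, used to bound irreducible means. -/
lemma le_V (hW : 𝒢.Mult W) {q : ℝ≥0∞} {k₀ : ℕ} (hlow : ∀ k, k₀ ≤ k → q ≤ 𝒢.U W k)
    {n : M → ℕ → ℝ≥0∞} (hn : 𝒢.Lev n) (J : ℕ) :
    (∑ j ∈ Finset.range (J + 1), ∑' x : 𝒢.I j, W x * ∑ r ∈ Finset.range j, n x r) * (q * q) ≤
      𝒢.V W n (2 * J + 2 * k₀ + 1) (J + k₀) := by
  rw [V_formula hW hn (J + k₀) _ (by omega)]
  calc (∑ j ∈ Finset.range (J + 1), ∑' x : 𝒢.I j, W x * ∑ r ∈ Finset.range j, n x r) * (q * q)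
      = ∑ j ∈ Finset.range (J + 1), ∑ r ∈ Finset.range j, 𝒢.rho W n j r * (q * q) := by
        rw [Finset.sum_mul]
        refine Finset.sum_congr rfl fun j _ => ?_
        rw [← Finset.sum_mul]
        congr 1
        simp only [rho, Finset.mul_sum]
        rw [Summable.tsum_finsetSum fun _ _ => ENNReal.summable]
    _ = ∑ r ∈ Finset.range J, ∑ j ∈ Finset.Ioc r J, 𝒢.rho W n j r * (q * q) := by
        rw [Finset.sum_sigma', Finset.sum_sigma']
        refine Finset.sum_bij' (fun p _ => ⟨p.2, p.1⟩) (fun q _ => ⟨q.2, q.1⟩) ?_ ?_ ?_ ?_ ?_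
        · rintro ⟨j, r⟩ h
          simp only [Finset.mem_sigma, Finset.mem_Ioc, Finset.mem_range] at h ⊢
          omega
        · rintro ⟨j, r⟩ h
          simp only [Finset.mem_sigma, Finset.mem_Ioc, Finset.mem_range] at h ⊢
          omega
        · rintro ⟨j, r⟩ h; rfl
        · rintro ⟨j, r⟩ h; rfl
        · rintro ⟨j, r⟩ h; rfl
    _ ≤ ∑ r ∈ Finset.range J, 𝒢.U W (J + k₀ - r) *
          𝒢.gg W n (2 * J + 2 * k₀ + 1 - (J + k₀ - r)) (J + k₀ - (J + k₀ - r)) := by
        refine Finset.sum_le_sum fun r hr => ?_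
        rw [Finset.mem_range] at hr
        have e1 : J + k₀ - (J + k₀ - r) = r := by omega
        rw [e1]
        calc ∑ j ∈ Finset.Ioc r J, 𝒢.rho W n j r * (q * q)
            = q * ∑ j ∈ Finset.Ioc r J, 𝒢.rho W n j r * q := by
              rw [Finset.mul_sum]
              refine Finset.sum_congr rfl fun j _ => ?_
              ring
          _ ≤ 𝒢.U W (J + k₀ - r) * 𝒢.gg W n (2 * J + 2 * k₀ + 1 - (J + k₀ - r)) r := by
              gcongr
              · exact hlow _ (by omega)
              · rw [gg]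
                calc ∑ j ∈ Finset.Ioc r J, 𝒢.rho W n j r * q
                    ≤ ∑ j ∈ Finset.Ioc r J, 𝒢.rho W n j r *
                        𝒢.U W (2 * J + 2 * k₀ + 1 - (J + k₀ - r) - j) := by
                      refine Finset.sum_le_sum fun j hj => ?_
                      rw [Finset.mem_Ioc] at hj
                      gcongr
                      exact hlow _ (by omega)
                  _ ≤ _ := Finset.sum_le_sum_of_subset (by
                      intro j hj
                      simp only [Finset.mem_Ioc] at hj ⊢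
                      omega)
    _ ≤ _ := by
        rw [← Finset.sum_image (s := Finset.range J) (g := fun r => J + k₀ - r)
          (f := fun s => 𝒢.U W s * 𝒢.gg W n (2 * J + 2 * k₀ + 1 - s) (J + k₀ - s))]
        · refine Finset.sum_le_sum_of_subset ?_
          intro s hs
          simp only [Finset.mem_image, Finset.mem_range] at hs ⊢
          omega
        · intro a ha b hb hab
          simp only [Finset.coe_range, Set.mem_Iio] at ha hb hab
          omega

/-- If the mean of a level statistic is bounded uniformly, then its irreducible total mean is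
finite. -/
theorem tsum_lev_le (hW : 𝒢.Mult W) {q : ℝ≥0∞} {k₀ : ℕ} (hlow : ∀ k, k₀ ≤ k → q ≤ 𝒢.U W k)
    {n : M → ℕ → ℝ≥0∞} (hn : 𝒢.Lev n) {B : ℝ≥0∞} (hB : ∀ R i, i < R → 𝒢.V W n R i ≤ B) :
    (∑' j, ∑' x : 𝒢.I j, W x * ∑ r ∈ Finset.range j, n x r) * (q * q) ≤ B := by
  rw [← ENNReal.tsum_mul_right, ENNReal.tsum_eq_iSup_nat]
  refine iSup_le fun J => ?_
  rw [← Finset.sum_mul]
  calc _ ≤ (∑ j ∈ Finset.range (J + 1), ∑' x : 𝒢.I j, W x * ∑ r ∈ Finset.range j, n x r) *
        (q * q) := by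
        gcongr
        simp only [le_add_iff_nonneg_right, zero_le]
    _ ≤ _ := le_V hW hlow hn J
    _ ≤ B := hB _ _ (by omega)

end Grading

end Vale.Agent.P147
end

section

open scoped ENNReal

namespace Vale.Agent.P147

namespace Grading

variable {M M' : Type*} [Monoid M] [Monoid M']

/-- The opposite grading. -/
def op (𝒢 : Grading M) : Grading Mᵐᵒᵖ where
  G k := {x | x.unop ∈ 𝒢.G k}
  G_zero := by
    ext x
    simp only [𝒢.G_zero, Set.mem_singleton_iff, Set.mem_ofPred_eq]
    constructor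
    · intro h; exact MulOpposite.unop_injective h
    · intro h; subst h; rfl
  mul_mem := by
    intro j k a b ha hb
    have := 𝒢.mul_mem hb ha
    rw [add_comm j k]
    exact this
  nest := by
    intro j k j' k' a b a' b' ha hb ha' hb' hab hjk hle
    have h1 : b'.unop * a'.unop = b.unop * a.unop := (congrArg MulOpposite.unop hab).symm
    obtain ⟨c, hc, h2, h3⟩ := 𝒢.nest hb' ha' hb ha h1 (by omega) (by omega)
    refine ⟨MulOpposite.op c, ?_, ?_, ?_⟩
    · have : j' - j = k - k' := by omega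
      rw [this]; exact hc
    · apply MulOpposite.unop_injective
      simpa using h3
    · apply MulOpposite.unop_injective
      simpa using h2

/-- The product grading. -/
def prod (𝒢 : Grading M) (ℋ : Grading M') : Grading (M × M') where
  G k := {x | x.1 ∈ 𝒢.G k ∧ x.2 ∈ ℋ.G k}
  G_zero := by
    ext ⟨x, y⟩
    simp only [𝒢.G_zero, ℋ.G_zero, Set.mem_singleton_iff, Set.mem_ofPred_eq, Prod.mk_eq_one]
  mul_mem := fun ha hb => ⟨𝒢.mul_mem ha.1 hb.1, ℋ.mul_mem ha.2 hb.2⟩
  nest := by
    intro j k j' k' a b a' b' ha hb ha' hb' hab hjk hle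
    obtain ⟨c, hc, h1, h2⟩ := 𝒢.nest ha.1 hb.1 ha'.1 hb'.1 (congrArg Prod.fst hab) hjk hle
    obtain ⟨e, he, h3, h4⟩ := ℋ.nest ha.2 hb.2 ha'.2 hb'.2 (congrArg Prod.snd hab) hjk hle
    exact ⟨(c, e), ⟨hc, he⟩, Prod.ext h1 h3, Prod.ext h2 h4⟩

lemma tsum_op (𝒢 : Grading M) (k : ℕ) (φ : M → ℝ≥0∞) :
    ∑' x : 𝒢.op.G k, φ x.1.unop = ∑' x : 𝒢.G k, φ x := by
  let e : 𝒢.op.G k ≃ 𝒢.G k :=
    { toFun := fun x => ⟨x.1.unop, x.2⟩
      invFun := fun x => ⟨MulOpposite.op x.1, x.2⟩
      left_inv := fun _ => rfl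
      right_inv := fun _ => rfl }
  exact e.tsum_eq (fun x : 𝒢.G k => φ x)

lemma tsum_prod (𝒢 : Grading M) (ℋ : Grading M') (k : ℕ) (φ : M → ℝ≥0∞) (ψ : M' → ℝ≥0∞) :
    ∑' x : (𝒢.prod ℋ).G k, φ x.1.1 * ψ x.1.2 = (∑' x : 𝒢.G k, φ x) * ∑' y : ℋ.G k, ψ y := by
  let e : (𝒢.prod ℋ).G k ≃ 𝒢.G k × ℋ.G k :=
    { toFun := fun x => (⟨x.1.1, x.2.1⟩, ⟨x.1.2, x.2.2⟩)
      invFun := fun x => ⟨(x.1.1, x.2.1), ⟨x.1.2, x.2.2⟩⟩
      left_inv := fun _ => rfl
      right_inv := fun _ => rfl }
  have h := e.tsum_eq (fun p : 𝒢.G k × ℋ.G k => φ p.1 * ψ p.2)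
  have h2 : ∑' x : (𝒢.prod ℋ).G k, φ x.1.1 * ψ x.1.2 =
      ∑' x : (𝒢.prod ℋ).G k, (fun p : 𝒢.G k × ℋ.G k => φ p.1 * ψ p.2) (e x) := rfl
  rw [h2, h, ENNReal.tsum_prod', ← ENNReal.tsum_mul_right]
  refine tsum_congr fun a => ?_
  rw [← ENNReal.tsum_mul_left]

lemma Mult.op {𝒢 : Grading M} {W : M → ℝ≥0∞} (hW : 𝒢.Mult W) :
    𝒢.op.Mult (fun x => W x.unop) where
  one := hW.one
  mul := fun ha hb => by
    have := hW.mul hb ha
    simp only [MulOpposite.unop_mul]
    rw [this, mul_comm]

lemma Add.op {𝒢 : Grading M} {N : M → ℕ} (hN : 𝒢.Add N) :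
    𝒢.op.Add (fun x => N x.unop) where
  one := hN.one
  mul := fun ha hb => by
    have := hN.mul hb ha
    simp only [MulOpposite.unop_mul]
    rw [this, add_comm]

lemma Mult.prod {𝒢 : Grading M} {ℋ : Grading M'} {W : M → ℝ≥0∞} {W' : M' → ℝ≥0∞}
    (hW : 𝒢.Mult W) (hW' : ℋ.Mult W') : (𝒢.prod ℋ).Mult (fun x => W x.1 * W' x.2) where
  one := by simp [hW.one, hW'.one]
  mul := fun ha hb => by
    simp only [Prod.fst_mul, Prod.snd_mul, hW.mul ha.1 hb.1, hW'.mul ha.2 hb.2]
    ring

lemma U_op (𝒢 : Grading M) (W : M → ℝ≥0∞) (k : ℕ) :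
    𝒢.op.U (fun x => W x.unop) k = 𝒢.U W k := 𝒢.tsum_op k W

lemma U_prod (𝒢 : Grading M) (ℋ : Grading M') (W : M → ℝ≥0∞) (W' : M' → ℝ≥0∞) (k : ℕ) :
    (𝒢.prod ℋ).U (fun x => W x.1 * W' x.2) k = 𝒢.U W k * ℋ.U W' k := 𝒢.tsum_prod ℋ k W W'

lemma V_prod (𝒢 : Grading M) (ℋ : Grading M') (W : M → ℝ≥0∞) (W' : M' → ℝ≥0∞)
    (n : M → ℕ → ℝ≥0∞) (n' : M' → ℕ → ℝ≥0∞) (R i : ℕ) :
    (𝒢.prod ℋ).V (fun x => W x.1 * W' x.2) (fun x i => n x.1 i * n' x.2 i) R i =
      𝒢.V W n R i * ℋ.V W' n' R i := by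
  rw [V, V, V, ← 𝒢.tsum_prod ℋ R (fun x => W x * n x i) (fun x => W' x * n' x i)]
  refine tsum_congr fun x => ?_
  ring

lemma Lev.prod {𝒢 : Grading M} {ℋ : Grading M'} {n : M → ℕ → ℝ≥0∞} {n' : M' → ℕ → ℝ≥0∞}
    (hn : 𝒢.Lev n) (hn' : ℋ.Lev n') : (𝒢.prod ℋ).Lev (fun x i => n x.1 i * n' x.2 i) := by
  intro j k a b ha hb i hi
  simp only [Prod.fst_mul, Prod.snd_mul, hn ha.1 hb.1 i hi, hn' ha.2 hb.2 i hi]
  split_ifs <;> rfl

end Grading

end Vale.Agent.P147
end

section

open scoped ENNReal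

namespace Vale.Agent.P147

section kernels

variable {S : Type*}

/-- Action of a kernel on functions. -/
noncomputable def act (P : S → S → ℝ≥0∞) (f : S → ℝ≥0∞) : S → ℝ≥0∞ := fun z => ∑' y, P z y * f y

/-- Action of a kernel on measures. -/
noncomputable def push (P : S → S → ℝ≥0∞) (ν : S → ℝ≥0∞) : S → ℝ≥0∞ := fun y => ∑' z, ν z * P z y

/-- Pairing of measures and functions. -/
noncomputable def pair (ν f : S → ℝ≥0∞) : ℝ≥0∞ := ∑' z, ν z * f z

lemma pair_push (P : S → S → ℝ≥0∞) (ν f : S → ℝ≥0∞) :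
    pair (push P ν) f = pair ν (act P f) := by
  simp only [pair, push, act, ← ENNReal.tsum_mul_right, ← ENNReal.tsum_mul_left]
  rw [ENNReal.tsum_comm]
  refine tsum_congr fun z => tsum_congr fun y => ?_
  ring

lemma pair_mono {ν ν' f f' : S → ℝ≥0∞} (h : ν ≤ ν') (h' : f ≤ f') : pair ν f ≤ pair ν' f' :=
  ENNReal.tsum_le_tsum fun z => mul_le_mul' (h z) (h' z)

lemma pair_add_left (ν ν' f : S → ℝ≥0∞) : pair (ν + ν') f = pair ν f + pair ν' f := by
  simp only [pair, Pi.add_apply, add_mul, ENNReal.tsum_add]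

lemma push_add (P Q : S → S → ℝ≥0∞) (ν : S → ℝ≥0∞) :
    push (fun z y => P z y + Q z y) ν = push P ν + push Q ν := by
  funext y
  simp only [push, Pi.add_apply, mul_add, ENNReal.tsum_add]

lemma push_mono {P Q : S → S → ℝ≥0∞} {ν ν' : S → ℝ≥0∞} (hP : ∀ z y, P z y ≤ Q z y)
    (hν : ν ≤ ν') : push P ν ≤ push Q ν' := fun y =>
  ENNReal.tsum_le_tsum fun z => mul_le_mul' (hν z) (hP z y)

lemma push_iter_mono {P Q : S → S → ℝ≥0∞} {ν : S → ℝ≥0∞} (hP : ∀ z y, P z y ≤ Q z y)
    (i : ℕ) : (push P)^[i] ν ≤ (push Q)^[i] ν := by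
  induction i with
  | zero => exact le_rfl
  | succ i ih =>
    rw [Function.iterate_succ_apply', Function.iterate_succ_apply']
    exact push_mono hP ih

lemma act_mono {P : S → S → ℝ≥0∞} {f g : S → ℝ≥0∞} (h : f ≤ g) : act P f ≤ act P g :=
  fun _ => ENNReal.tsum_le_tsum fun y => mul_le_mul' le_rfl (h y)

lemma pair_push_iter (P : S → S → ℝ≥0∞) (ν f : S → ℝ≥0∞) (i : ℕ) :
    pair ((push P)^[i] ν) f = pair ν ((act P)^[i] f) := by
  induction i generalizing f with
  | zero => rfl
  | succ i ih =>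
    rw [Function.iterate_succ_apply', pair_push, ih, ← Function.iterate_succ_apply]

end kernels

/-- Elementary: exponential growth beats linear growth. -/
lemma exp_beats (A : ℝ) : ∃ s : ℕ, 1 ≤ s ∧ A * (s + 1) < (3 / 2 : ℝ) ^ s := by
  have h := tendsto_pow_const_div_const_pow_of_one_lt 1 (show (1 : ℝ) < 3 / 2 by norm_num)
  have h2 : ∀ᶠ n : ℕ in Filter.atTop, (n : ℝ) ^ 1 / (3 / 2 : ℝ) ^ n < 1 / (2 * |A| + 1) :=
    h.eventually_lt_const (by positivity)
  obtain ⟨s, hs1, hs2⟩ := (h2.and (Filter.eventually_ge_atTop 1)).exists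
  refine ⟨s, hs2, ?_⟩
  have hp : (0 : ℝ) < (3 / 2) ^ s := by positivity
  rw [pow_one, div_lt_div_iff₀ hp (by positivity), one_mul] at hs1
  have hs3 : (1 : ℝ) ≤ s := by exact_mod_cast hs2
  calc A * (s + 1) ≤ |A| * (s + 1) := by gcongr; exact le_abs_self A
    _ ≤ s * (2 * |A| + 1) := by nlinarith only [hs3, abs_nonneg A]
    _ < _ := hs1

/-- Harmonic sums over dyadic ranges. -/
lemma harmonic_dyadic (k : ℕ) : ∑ i ∈ Finset.range (2 ^ k), 1 / ((i : ℝ) + 1) ≤ k + 1 := by
  induction k with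
  | zero => simp
  | succ k ih =>
    have : 2 ^ (k + 1) = 2 ^ k + 2 ^ k := by ring
    rw [this, Finset.sum_range_add]
    have h2 : ∑ i ∈ Finset.range (2 ^ k), 1 / (((2 ^ k + i : ℕ) : ℝ) + 1) ≤ 1 := by
      calc ∑ i ∈ Finset.range (2 ^ k), 1 / (((2 ^ k + i : ℕ) : ℝ) + 1)
          ≤ ∑ i ∈ Finset.range (2 ^ k), 1 / (2 ^ k : ℝ) := by
            refine Finset.sum_le_sum fun i _ => ?_
            apply one_div_le_one_div_of_le (by positivity)
            push_cast
            have : (0 : ℝ) ≤ i := by positivity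
            linarith only []
        _ = 1 := by
            simp only [Finset.sum_const, Finset.card_range, nsmul_eq_mul]
            push_cast
            field_simp
    push_cast at h2 ⊢
    linarith only [ih, h2]

/-- Purely numerical contradiction at the heart of the argument. -/
lemma numeric {b a : ℕ → ℝ} {Sg D : ℝ} (hb0 : b 0 = 1) (hbnn : ∀ i, 0 ≤ b i)
    (hstep : ∀ p r : ℕ, b (p + r) ≤ b (p + r + 1) + b p / (16 * (r + 1)))
    (ha : ∀ j, 0 ≤ a j) (haS : ∀ j, (j + 1) * a j ≤ Sg)
    (haS2 : ∀ m, ∑ j ∈ Finset.range m, a j ≤ Sg) (hD : 0 ≤ D)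
    (hdec : ∀ m, b m ≤ a m + ∑ i ∈ Finset.range m, D / (i + 1) * a (m - 1 - i)) : False := by
  have hS0 : 0 ≤ Sg := by simpa only [Finset.range_zero, Finset.sum_empty] using haS2 0
  -- geometric lower bound
  have hsum : ∀ p m, b m ≤ b (m + p) + ∑ i ∈ Finset.range p, (b (m + i) - b (m + i + 1)) := by
    intro p m
    induction p with
    | zero => simp only [add_zero, Finset.range_zero, Finset.sum_sub_distrib, Finset.sum_empty, sub_self, Std.le_refl]
    | succ p ih =>
      rw [Finset.sum_range_succ, ← add_assoc m p 1]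
      linarith only [ih]
  have hdy : ∀ s, 3 * b (2 ^ s) ≤ 4 * b (2 ^ (s + 1)) := by
    intro s
    induction s with
    | zero =>
      have h1 := hstep 0 0
      have h2 := hstep 0 1
      norm_num at h1 h2 ⊢
      rw [hb0] at h1 h2
      linarith only [h1, h2]
    | succ s ih =>
      have h1 := hsum (2 ^ (s + 1)) (2 ^ (s + 1))
      have h2 : ∑ i ∈ Finset.range (2 ^ (s + 1)), (b (2 ^ (s + 1) + i) - b (2 ^ (s + 1) + i + 1)) ≤
          b (2 ^ s) / 8 := by
        calc _ ≤ ∑ i ∈ Finset.range (2 ^ (s + 1)), b (2 ^ s) / (16 * 2 ^ s) := by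
              refine Finset.sum_le_sum fun i _ => ?_
              have h3 := hstep (2 ^ s) (2 ^ s + i)
              have e : 2 ^ s + (2 ^ s + i) = 2 ^ (s + 1) + i := by ring
              rw [e] at h3
              have h4 : b (2 ^ s) / (16 * (((2 ^ s + i : ℕ) : ℝ) + 1)) ≤
                  b (2 ^ s) / (16 * 2 ^ s) := by
                apply div_le_div_of_nonneg_left (hbnn _) (by positivity)
                push_cast
                have : (0 : ℝ) ≤ i := by (clear * -; positivity)
                linarith only []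
              linarith only [h3, h4]
          _ = b (2 ^ s) / 8 := by
              simp only [Finset.sum_const, Finset.card_range, nsmul_eq_mul]
              push_cast
              rw [pow_succ]
              field_simp
              ring
      have e2 : 2 ^ (s + 1) + 2 ^ (s + 1) = 2 ^ (s + 1 + 1) := by ring
      rw [e2] at h1
      have := hbnn (2 ^ (s + 1 + 1))
      linarith only [ih, h1, h2, this]
  have hlow : ∀ s, (3 / 4 : ℝ) ^ (s + 1) ≤ b (2 ^ s) := by
    intro s
    induction s with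
    | zero =>
      have h1 := hstep 0 0
      norm_num at h1 ⊢
      rw [hb0] at h1
      linarith
    | succ s ih =>
      rw [pow_succ]
      linarith [hdy s]
  -- choose a scale
  obtain ⟨s, hs1, hs⟩ := exp_beats ((4 / 3) * (Sg * (1 + 2 * D + 2 * D)))
  obtain ⟨r, rfl⟩ : ∃ r, s = r + 1 := ⟨s - 1, by omega⟩
  have h1 := hdec (2 ^ (r + 1))
  have h2 := hlow (r + 1)
  have hup : b (2 ^ (r + 1)) ≤ Sg / 2 ^ (r + 1) * (1 + 2 * D * (r + 1) + 2 * D) := by
    have hm : (0 : ℝ) < 2 ^ (r + 1) := by positivity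
    have ha1 : a (2 ^ (r + 1)) ≤ Sg / 2 ^ (r + 1) := by
      rw [le_div_iff₀ hm]
      have := haS (2 ^ (r + 1))
      push_cast at this
      nlinarith only [this, ha (2 ^ (r + 1))]
    have hsp : ∑ i ∈ Finset.range (2 ^ (r + 1)), D / ((i : ℝ) + 1) * a (2 ^ (r + 1) - 1 - i) ≤
        Sg / 2 ^ (r + 1) * (2 * D * (r + 1) + 2 * D) := by
      have e : 2 ^ (r + 1) = 2 ^ r + 2 ^ r := by ring
      have hr : (0 : ℝ) < 2 ^ r := by positivity
      rw [show Finset.range (2 ^ (r + 1)) = Finset.range (2 ^ r + 2 ^ r) by rw [e],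
        Finset.sum_range_add]
      have p1 : ∑ i ∈ Finset.range (2 ^ r), D / ((i : ℝ) + 1) * a (2 ^ (r + 1) - 1 - i) ≤
          Sg / 2 ^ (r + 1) * (2 * D * (r + 1)) := by
        calc _ ≤ ∑ i ∈ Finset.range (2 ^ r), D / ((i : ℝ) + 1) * (Sg / 2 ^ r) := by
              refine Finset.sum_le_sum fun i hi => ?_
              rw [Finset.mem_range] at hi
              have : a (2 ^ (r + 1) - 1 - i) ≤ Sg / 2 ^ r := by
                rw [le_div_iff₀ hr]
                have h3 := haS (2 ^ (r + 1) - 1 - i)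
                have h4 : (2 ^ r : ℝ) ≤ ((2 ^ (r + 1) - 1 - i : ℕ) : ℝ) + 1 := by
                  have : 2 ^ r ≤ (2 ^ (r + 1) - 1 - i) + 1 := by omega
                  exact_mod_cast this
                nlinarith only [hS0, h4, hr, h3]
              (clear * - this hD; gcongr)
          _ = D * (Sg / 2 ^ r) * ∑ i ∈ Finset.range (2 ^ r), 1 / ((i : ℝ) + 1) := by
              rw [Finset.mul_sum]
              refine Finset.sum_congr rfl fun i _ => ?_
              ring
          _ ≤ D * (Sg / 2 ^ r) * (r + 1) := by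
              gcongr
              exact harmonic_dyadic r
          _ = _ := by
              rw [pow_succ]
              (clear * -; field_simp)
      have p2 : ∑ i ∈ Finset.range (2 ^ r), D / (((2 ^ r + i : ℕ) : ℝ) + 1) *
          a (2 ^ (r + 1) - 1 - (2 ^ r + i)) ≤ Sg / 2 ^ (r + 1) * (2 * D) := by
        calc _ ≤ ∑ i ∈ Finset.range (2 ^ r), D / 2 ^ r * a (2 ^ r - 1 - i) := by
              refine Finset.sum_le_sum fun i hi => ?_
              rw [Finset.mem_range] at hi
              have e1 : 2 ^ (r + 1) - 1 - (2 ^ r + i) = 2 ^ r - 1 - i := by (clear * - hi; omega)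
              rw [e1]
              have := ha (2 ^ r - 1 - i)
              gcongr
              push_cast
              have : (0 : ℝ) ≤ i := by (clear * -; positivity)
              linarith only []
          _ = D / 2 ^ r * ∑ i ∈ Finset.range (2 ^ r), a i := by
              rw [← Finset.mul_sum, Finset.sum_range_reflect]
          _ ≤ D / 2 ^ r * Sg := by
              gcongr
              exact haS2 _
          _ = _ := by
              rw [pow_succ]
              (clear * -; field_simp)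
      rw [mul_add]
      exact add_le_add p1 p2
    calc b (2 ^ (r + 1)) ≤ _ := h1
      _ ≤ Sg / 2 ^ (r + 1) + Sg / 2 ^ (r + 1) * (2 * D * (r + 1) + 2 * D) := add_le_add ha1 hsp
      _ = _ := by ring
  have h3 : (3 / 4 : ℝ) ^ (r + 1 + 1) * 2 ^ (r + 1) ≤ Sg * (1 + 2 * D * (r + 1) + 2 * D) := by
    have hm : (0 : ℝ) < 2 ^ (r + 1) := by positivity
    calc _ ≤ b (2 ^ (r + 1)) * 2 ^ (r + 1) := by (clear * - h2; gcongr)
      _ ≤ (Sg / 2 ^ (r + 1) * (1 + 2 * D * (r + 1) + 2 * D)) * 2 ^ (r + 1) := by (clear * - hup; gcongr)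
      _ = _ := by (clear * - hD; field_simp)
  have h4 : (3 / 4 : ℝ) ^ (r + 1 + 1) * 2 ^ (r + 1) = 3 / 4 * (3 / 2) ^ (r + 1) := by
    rw [pow_succ (3 / 4 : ℝ) (r + 1), mul_right_comm, ← mul_pow]
    norm_num
    ring
  rw [h4] at h3
  push_cast at hs
  have hr0 : (0 : ℝ) ≤ r := by (clear * -; positivity)
  have h5 : Sg * (1 + 2 * D * (r + 1) + 2 * D) ≤ Sg * (1 + 2 * D + 2 * D) * (r + 1 + 1) := by
    have : (1 + 2 * D * (r + 1) + 2 * D) ≤ (1 + 2 * D + 2 * D) * (r + 1 + 1) := by nlinarith only [hD]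
    calc _ ≤ Sg * ((1 + 2 * D + 2 * D) * (r + 1 + 1)) := by (clear * - this hS0; gcongr)
      _ = _ := by ring
  linarith only [h3, hs, h5]

section main

variable {S : Type*} [DecidableEq S]

/-- Lemma S: if the far marks are rare and the near marks land in a finite set, then the killed
kernel is not summable somewhere. -/
theorem lemmaS (N DN DF : S → S → ℝ≥0∞)
    (hK1 : ∀ z, ∑' y, (N z y + DN z y + DF z y) = 1)
    {C ε Θ : ℝ≥0∞} (hCtop : C ≠ ∞)
    (hC : ∀ (ν : S → ℝ≥0∞) (i : ℕ) (y : S),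
      ((push (fun z y => N z y + DN z y + DF z y))^[i] ν) y ≤ (∑' z, ν z) * (C / (i + 1)))
    (hΘ : ∑' z, ∑' y, DN z y ≤ Θ) (hΘtop : Θ ≠ ∞)
    (Λ : Finset S) (hΛ : ∀ z y, y ∉ Λ → DN z y = 0)
    (hε : ∑' z, ∑' y, DF z y ≤ ε) (hCε : C * ε ≤ 1 / 16) (z₀ : S) :
    ∃ z ∈ insert z₀ Λ, ∑' i : ℕ, ((act N)^[i] 1) z = ∞ := by
  by_contra hcon
  push Not at hcon
  set P : S → S → ℝ≥0∞ := fun z y => N z y + DN z y with hP
  set K : S → S → ℝ≥0∞ := fun z y => N z y + DN z y + DF z y with hK
  have hPK : ∀ z y, P z y ≤ K z y := fun z y => le_self_add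
  let δ : S → ℝ≥0∞ := Pi.single z₀ 1
  set ν : ℕ → S → ℝ≥0∞ := fun i => (push P)^[i] δ with hν
  set β : ℕ → ℝ≥0∞ := fun i => ∑' z, ν i z with hβ
  have hδ : ∑' z, δ z = 1 := by
    rw [tsum_eq_single z₀]
    · simp [δ]
    · intro z hz
      simp [δ, hz]
  have hβ0 : β 0 = 1 := hδ
  have hνsucc : ∀ i, ν (i + 1) = push P (ν i) := fun i => by
    simp only [hν, Function.iterate_succ_apply']
  have hβpair : ∀ i, β i = pair (ν i) 1 := fun i => by simp only [hβ, pair, Pi.one_apply, mul_one]
  -- one step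
  have hone : ∀ i, β i = β (i + 1) + pair (ν i) (act DF 1) := by
    intro i
    rw [hβpair (i + 1), hνsucc, pair_push]
    simp only [hβ, pair]
    rw [← ENNReal.tsum_add]
    refine tsum_congr fun z => ?_
    rw [← mul_add]
    have : act P 1 z + act DF 1 z = 1 := by
      simp only [act, Pi.one_apply, mul_one]
      rw [← ENNReal.tsum_add, ← hK1 z]
    rw [this, mul_one]
  have hβanti : ∀ i, β (i + 1) ≤ β i := fun i => by
    conv_rhs => rw [hone i]
    exact le_self_add
  have hβ1 : ∀ i, β i ≤ 1 := by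
    intro i
    induction i with
    | zero => exact hβ0.le
    | succ i ih => exact (hβanti i).trans ih
  -- sup bound
  have hsup : ∀ p r z, ν (p + r) z ≤ β p * (C / (r + 1)) := by
    intro p r z
    have e : ν (p + r) = (push P)^[r] (ν p) := by
      simp only [hν]
      rw [add_comm p r, Function.iterate_add_apply]
    rw [e]
    exact (push_iter_mono hPK r z).trans (hC (ν p) r z)
  have hstep : ∀ p r, β (p + r) ≤ β (p + r + 1) + β p * (1 / (16 * (r + 1))) := by
    intro p r
    rw [hone (p + r)]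
    gcongr
    calc pair (ν (p + r)) (act DF 1) ≤ ∑' z, (β p * (C / (r + 1))) * act DF 1 z :=
          ENNReal.tsum_le_tsum fun z => mul_le_mul' (hsup p r z) le_rfl
      _ = (β p * (C / (r + 1))) * ∑' z, ∑' y, DF z y := by
          rw [ENNReal.tsum_mul_left]
          simp only [act, Pi.one_apply, mul_one]
      _ ≤ (β p * (C / (r + 1))) * ε := by (clear * - hε; gcongr)
      _ = β p * ((C * ε) * (r + 1 : ℝ≥0∞)⁻¹) := by rw [div_eq_mul_inv]; ring
      _ ≤ β p * ((1 / 16) * (r + 1 : ℝ≥0∞)⁻¹) := by (clear * - hCε; gcongr)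
      _ = β p * (1 / (16 * (r + 1))) := by
          rw [one_div, one_div, ENNReal.mul_inv (by simp) (by simp only [ne_eq, ENNReal.ofNat_ne_top, not_false_eq_true, add_eq_zero, Nat.cast_eq_zero, one_ne_zero, and_false, or_self])]
  -- decomposition at the last near mark
  set A : ℕ → ℝ≥0∞ := fun j => ∑ z ∈ insert z₀ Λ, ((act N)^[j] 1) z with hA
  have hdec : ∀ m, β m ≤ A m + ∑ i ∈ Finset.range m, (C * Θ / (i + 1)) * A (m - 1 - i) := by
    intro m
    have htel : ∀ i ≤ m, pair (ν i) ((act N)^[m - i] 1) =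
        pair (ν 0) ((act N)^[m] 1) +
          ∑ k ∈ Finset.range i, pair (push DN (ν k)) ((act N)^[m - 1 - k] 1) := by
      intro i
      induction i with
      | zero => intro _; simp only [tsub_zero, Finset.range_zero, Finset.sum_empty, add_zero]
      | succ i ih =>
        intro hi
        rw [Finset.sum_range_succ, ← add_assoc, ← ih (by omega), hνsucc, hP, push_add,
          pair_add_left]
        have e1 : m - (i + 1) = m - 1 - i := by omega
        rw [e1]
        congr 1
        rw [pair_push, ← Function.iterate_succ_apply' (act N)]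
        congr 2
        omega
    have h1 := htel m le_rfl
    rw [Nat.sub_self, Function.iterate_zero, id_eq, ← hβpair] at h1
    rw [h1]
    refine add_le_add ?_ (Finset.sum_le_sum fun i hi => ?_)
    · have : pair (ν 0) ((act N)^[m] 1) = ((act N)^[m] 1) z₀ := by
        simp only [pair]
        rw [tsum_eq_single z₀]
        · simp [hν, δ]
        · intro z hz
          simp [hν, δ, hz]
      rw [this]
      exact Finset.single_le_sum (f := fun z => ((act N)^[m] 1) z) (fun _ _ => by simp)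
        (Finset.mem_insert_self z₀ Λ)
    · have h2 : ∀ y, ((act N)^[m - 1 - i] 1) y ≤ A (m - 1 - i) ∨ y ∉ Λ := by
        intro y
        by_cases hy : y ∈ Λ
        · left
          exact Finset.single_le_sum (f := fun z => ((act N)^[m - 1 - i] 1) z)
            (fun _ _ => by simp only [zero_le]) (Finset.mem_insert_of_mem hy)
        · exact Or.inr hy
      rw [pair_push]
      calc pair (ν i) (act DN ((act N)^[m - 1 - i] 1))
          ≤ pair (fun _ => C / (i + 1)) (fun z => (∑' y, DN z y) * A (m - 1 - i)) := by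
            refine pair_mono (fun z => ?_) (fun z => ?_)
            · have := hsup 0 i z
              rw [zero_add, hβ0, one_mul] at this
              exact this
            · simp only [act]
              rw [← ENNReal.tsum_mul_right]
              refine ENNReal.tsum_le_tsum fun y => ?_
              rcases h2 y with h | h
              · (clear * - h; gcongr)
              · rw [hΛ z y h]; simp only [zero_mul, Std.le_refl]
        _ = (C / (i + 1)) * ((∑' z, ∑' y, DN z y) * A (m - 1 - i)) := by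
            simp only [pair]
            rw [ENNReal.tsum_mul_left, ENNReal.tsum_mul_right]
        _ ≤ (C / (i + 1)) * (Θ * A (m - 1 - i)) := by (clear * - hΘ; gcongr)
        _ = (C * Θ / (i + 1)) * A (m - 1 - i) := by
            rw [div_eq_mul_inv, div_eq_mul_inv]; ring
  -- summability
  have hN1 : act N 1 ≤ 1 := by
    intro z
    simp only [act, Pi.one_apply, mul_one]
    rw [← hK1 z]
    exact ENNReal.tsum_le_tsum fun y => by
      rw [add_assoc]; exact le_self_add
  have hAanti1 : ∀ j, A (j + 1) ≤ A j := by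
    intro j
    refine Finset.sum_le_sum fun z _ => ?_
    have : ∀ j, (act N)^[j + 1] 1 ≤ (act N)^[j] 1 := by
      intro j
      induction j with
      | zero => exact hN1
      | succ j ih =>
        have e1 := Function.iterate_succ_apply' (act N) (j + 1) (1 : S → ℝ≥0∞)
        have e2 := Function.iterate_succ_apply' (act N) j (1 : S → ℝ≥0∞)
        rw [e1]
        conv_rhs => rw [e2]
        exact act_mono ih
    exact this j z
  have hAanti : Antitone A := antitone_nat_of_succ_le hAanti1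
  set Sg : ℝ≥0∞ := ∑' j, A j with hSg
  have hSgtop : Sg ≠ ∞ := by
    rw [hSg, hA]
    rw [Summable.tsum_finsetSum fun _ _ => ENNReal.summable]
    rw [ENNReal.sum_ne_top]
    intro z hz
    exact hcon z hz
  have hAle : ∀ j : ℕ, ((j : ℝ≥0∞) + 1) * A j ≤ Sg := by
    intro j
    calc ((j : ℝ≥0∞) + 1) * A j = ∑ i ∈ Finset.range (j + 1), A j := by simp only [Finset.sum_const, Finset.card_range, nsmul_eq_mul, Nat.cast_add, Nat.cast_one]
      _ ≤ ∑ i ∈ Finset.range (j + 1), A i := by
          refine Finset.sum_le_sum fun i hi => hAanti ?_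
          rw [Finset.mem_range] at hi
          omega
      _ ≤ Sg := ENNReal.sum_le_tsum _
  have hAtop : ∀ j, A j ≠ ∞ := fun j =>
    ne_top_of_le_ne_top hSgtop (ENNReal.le_tsum j)
  have hβtop : ∀ j, β j ≠ ∞ := fun j => ne_top_of_le_ne_top ENNReal.one_ne_top (hβ1 j)
  have hCΘ : C * Θ ≠ ∞ := ENNReal.mul_ne_top hCtop hΘtop
  refine numeric (b := fun i => (β i).toReal) (a := fun i => (A i).toReal) (Sg := Sg.toReal)
    (D := (C * Θ).toReal) ?_ ?_ ?_ ?_ ?_ ?_ ?_ ?_
  · simp [hβ0]
  · intro i; exact ENNReal.toReal_nonneg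
  · intro p r
    have h := hstep p r
    have hfin : β p * (1 / (16 * ((r : ℝ≥0∞) + 1))) ≠ ∞ := by
      refine ENNReal.mul_ne_top (hβtop p) ?_
      simp only [one_div, ne_eq, ENNReal.inv_eq_top, mul_eq_zero, OfNat.ofNat_ne_zero, add_eq_zero, Nat.cast_eq_zero, one_ne_zero, and_false, or_self, not_false_eq_true]
    have h2 := ENNReal.toReal_mono (ENNReal.add_ne_top.2 ⟨hβtop _, hfin⟩) h
    rw [ENNReal.toReal_add (hβtop _) hfin, ENNReal.toReal_mul] at h2
    refine h2.trans (le_of_eq ?_)
    congr 1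
    rw [ENNReal.toReal_div, ENNReal.toReal_mul, ENNReal.toReal_add (by simp) (by simp)]
    have hr : (0 : ℝ) < (r : ℝ) + 1 := by (clear * -; positivity)
    simp only [ENNReal.toReal_one, ENNReal.toReal_natCast, ENNReal.toReal_ofNat]
    (clear * -; field_simp)
  · intro j; exact ENNReal.toReal_nonneg
  · intro j
    have h := ENNReal.toReal_mono hSgtop (hAle j)
    rw [ENNReal.toReal_mul, ENNReal.toReal_add (by simp) (by simp)] at h
    simpa only [ge_iff_le, ENNReal.toReal_natCast, ENNReal.toReal_one] using h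
  · intro m
    rw [← ENNReal.toReal_sum fun j _ => hAtop j]
    exact ENNReal.toReal_mono hSgtop (ENNReal.sum_le_tsum _)
  · exact ENNReal.toReal_nonneg
  · intro m
    have h := hdec m
    have hfin : ∀ i ∈ Finset.range m, (C * Θ / ((i : ℝ≥0∞) + 1)) * A (m - 1 - i) ≠ ∞ := by
      intro i _
      refine ENNReal.mul_ne_top ?_ (hAtop _)
      exact ENNReal.div_ne_top hCΘ (by simp only [ne_eq, add_eq_zero, Nat.cast_eq_zero, one_ne_zero, and_false, not_false_eq_true])
    have h2 := ENNReal.toReal_mono (ENNReal.add_ne_top.2 ⟨hAtop m, ENNReal.sum_ne_top.2 hfin⟩) h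
    rw [ENNReal.toReal_add (hAtop m) (ENNReal.sum_ne_top.2 hfin), ENNReal.toReal_sum hfin] at h2
    refine h2.trans (le_of_eq ?_)
    congr 1
    refine Finset.sum_congr rfl fun i _ => ?_
    rw [ENNReal.toReal_mul, ENNReal.toReal_div, ENNReal.toReal_add (by simp) (by simp)]
    simp only [ENNReal.toReal_mul, ENNReal.toReal_natCast, ENNReal.toReal_one]

end main

end Vale.Agent.P147
end

section

open scoped ENNReal

namespace Vale.Agent.P147

/-- Functions on a group with the convolution product. -/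
@[ext] structure Cv (G : Type*) where
  v : G → ℝ≥0∞

namespace Cv

variable {G : Type*} [AddCommGroup G]

instance : Zero (Cv G) := ⟨⟨fun _ => 0⟩⟩

noncomputable instance : Add (Cv G) := ⟨fun f g => ⟨fun z => f.v z + g.v z⟩⟩

noncomputable instance : Mul (Cv G) := ⟨fun f g => ⟨fun z => ∑' y, f.v y * g.v (z - y)⟩⟩

open Classical in
/-- Point mass. -/
noncomputable def pt (a : G) (c : ℝ≥0∞) : Cv G := ⟨fun z => if z = a then c else 0⟩

noncomputable instance : One (Cv G) := ⟨pt 0 1⟩

@[simp] lemma zero_v (z : G) : (0 : Cv G).v z = 0 := rfl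

@[simp] lemma add_v (f g : Cv G) (z : G) : (f + g).v z = f.v z + g.v z := rfl

lemma mul_v (f g : Cv G) (z : G) : (f * g).v z = ∑' y, f.v y * g.v (z - y) := rfl

lemma one_def : (1 : Cv G) = pt 0 1 := rfl

@[simp] lemma pt_v_self (a : G) (c : ℝ≥0∞) : (pt a c).v a = c := by simp [pt]

lemma pt_v_ne {a z : G} (h : z ≠ a) (c : ℝ≥0∞) : (pt a c).v z = 0 := by simp [pt, h]

lemma conv_comm (f g : Cv G) : f * g = g * f := by
  ext z
  rw [mul_v, mul_v, ← (Equiv.subLeft z).tsum_eq]
  refine tsum_congr fun y => ?_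
  simp only [Equiv.subLeft_apply, sub_sub_cancel]
  ring

lemma conv_assoc (f g h : Cv G) : (f * g) * h = f * (g * h) := by
  ext z
  simp only [mul_v]
  calc ∑' y, (∑' x, f.v x * g.v (y - x)) * h.v (z - y)
      = ∑' y, ∑' x, f.v x * (g.v (y - x) * h.v (z - y)) := by
        refine tsum_congr fun y => ?_
        rw [← ENNReal.tsum_mul_right]
        refine tsum_congr fun x => ?_
        ring
    _ = ∑' x, ∑' y, f.v x * (g.v (y - x) * h.v (z - y)) := ENNReal.tsum_comm
    _ = ∑' x, f.v x * ∑' w, g.v w * h.v (z - x - w) := by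
        refine tsum_congr fun x => ?_
        rw [ENNReal.tsum_mul_left]
        congr 1
        rw [← (Equiv.subRight x).tsum_eq (fun w => g.v w * h.v (z - x - w))]
        refine tsum_congr fun y => ?_
        simp only [Equiv.subRight_apply]
        congr 2
        abel

lemma pt_mul_v (a : G) (c : ℝ≥0∞) (f : Cv G) (z : G) : (pt a c * f).v z = c * f.v (z - a) := by
  rw [mul_v, tsum_eq_single a]
  · simp
  · intro y hy
    rw [pt_v_ne hy, zero_mul]

lemma one_conv (f : Cv G) : 1 * f = f := by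
  ext z
  rw [one_def, pt_mul_v]; simp

lemma conv_add (f g h : Cv G) : f * (g + h) = f * g + f * h := by
  ext z
  simp only [mul_v, add_v, mul_add, ENNReal.tsum_add]

lemma conv_zero (f : Cv G) : f * 0 = 0 := by
  ext z
  simp only [mul_v, zero_v, mul_zero, tsum_zero]

noncomputable instance : CommSemiring (Cv G) where
  add_assoc := fun f g h => by ext z; simp [add_assoc]
  zero_add := fun f => by ext z; simp
  add_zero := fun f => by ext z; simp
  add_comm := fun f g => by ext z; simp [add_comm]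
  left_distrib := conv_add
  right_distrib := fun f g h => by
    rw [conv_comm, conv_add, conv_comm h f, conv_comm h g]
  zero_mul := fun f => by rw [conv_comm, conv_zero]
  mul_zero := conv_zero
  mul_assoc := conv_assoc
  mul_comm := conv_comm
  one_mul := one_conv
  mul_one := fun f => by rw [conv_comm, one_conv]
  nsmul := nsmulRec

lemma pt_mul_pt (a b : G) (c e : ℝ≥0∞) : pt a c * pt b e = pt (a + b) (c * e) := by
  ext z
  rw [pt_mul_v]
  by_cases h : z = a + b
  · subst h; simp
  · rw [pt_v_ne h, pt_v_ne, mul_zero]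
    intro h2
    exact h (by rw [← h2]; abel)

lemma pt_pow (a : G) (c : ℝ≥0∞) (n : ℕ) : (pt a c : Cv G) ^ n = pt (n • a) (c ^ n) := by
  induction n with
  | zero => simp only [pow_zero, one_def, zero_nsmul]
  | succ n ih => rw [pow_succ, ih, pt_mul_pt, succ_nsmul, pow_succ]

/-- Total mass. -/
noncomputable def mass (f : Cv G) : ℝ≥0∞ := ∑' z, f.v z

lemma mass_mul (f g : Cv G) : mass (f * g) = mass f * mass g := by
  simp only [mass, mul_v]
  rw [ENNReal.tsum_comm, ← ENNReal.tsum_mul_right]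
  refine tsum_congr fun y => ?_
  rw [ENNReal.tsum_mul_left]
  congr 1
  exact (Equiv.subRight y).tsum_eq g.v

lemma mass_add (f g : Cv G) : mass (f + g) = mass f + mass g := by
  simp only [mass, add_v, ENNReal.tsum_add]

lemma mass_pt (a : G) (c : ℝ≥0∞) : mass (pt a c) = c := by
  rw [mass, tsum_eq_single a]
  · simp
  · intro z hz; exact pt_v_ne hz c

lemma mass_one : mass (1 : Cv G) = 1 := mass_pt 0 1

lemma mass_pow (f : Cv G) (n : ℕ) : mass (f ^ n) = mass f ^ n := by
  induction n with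
  | zero => simp [mass_one]
  | succ n ih => rw [pow_succ, mass_mul, ih, pow_succ]

lemma mul_v_le (f g : Cv G) {b : ℝ≥0∞} (hg : ∀ z, g.v z ≤ b) (z : G) :
    (f * g).v z ≤ mass f * b := by
  rw [mul_v, mass, ← ENNReal.tsum_mul_right]
  exact ENNReal.tsum_le_tsum fun y => mul_le_mul' le_rfl (hg _)

lemma natCast_mul_v (n : ℕ) (f : Cv G) (z : G) : ((n : Cv G) * f).v z = n * f.v z := by
  induction n with
  | zero => simp
  | succ n ih => rw [Nat.cast_succ, add_mul, add_v, ih, one_mul, Nat.cast_succ, add_mul, one_mul]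

lemma sum_v {ι : Type*} (s : Finset ι) (f : ι → Cv G) (z : G) :
    (∑ i ∈ s, f i).v z = ∑ i ∈ s, (f i).v z := by
  classical
  induction s using Finset.induction_on with
  | empty => rfl
  | insert a s ha ih => rw [Finset.sum_insert ha, Finset.sum_insert ha, add_v, ih]

end Cv

lemma central_sq (k : ℕ) : k.centralBinom ^ 2 * (2 * k + 1) ≤ 16 ^ k := by
  induction k with
  | zero => simp
  | succ k ih =>
    have h := Nat.succ_mul_centralBinom_succ k
    have h2 : (k + 1) ^ 2 * ((k + 1).centralBinom ^ 2 * (2 * (k + 1) + 1)) ≤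
        (k + 1) ^ 2 * 16 ^ (k + 1) := by
      calc (k + 1) ^ 2 * ((k + 1).centralBinom ^ 2 * (2 * (k + 1) + 1))
          = ((k + 1) * (k + 1).centralBinom) ^ 2 * (2 * k + 3) := by ring
        _ = (k.centralBinom ^ 2 * (2 * k + 1)) * (4 * (2 * k + 1) * (2 * k + 3)) := by
            rw [h]; ring
        _ ≤ 16 ^ k * (4 * (2 * k + 1) * (2 * k + 3)) := by gcongr
        _ ≤ 16 ^ k * (16 * (k + 1) ^ 2) := by
            refine Nat.mul_le_mul le_rfl ?_
            nlinarith only []
        _ = (k + 1) ^ 2 * 16 ^ (k + 1) := by ring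
    exact Nat.le_of_mul_le_mul_left h2 (by positivity)

lemma choose_sq (m a : ℕ) : m.choose a ^ 2 * (m + 1) ≤ 4 ^ m := by
  have h0 : m.choose a ≤ m.choose (m / 2) := Nat.choose_le_middle a m
  rcases Nat.even_or_odd' m with ⟨k, rfl | rfl⟩
  · have e : 2 * k / 2 = k := by omega
    rw [e] at h0
    calc (2 * k).choose a ^ 2 * (2 * k + 1) ≤ (2 * k).choose k ^ 2 * (2 * k + 1) := by gcongr
      _ ≤ 16 ^ k := central_sq k
      _ = 4 ^ (2 * k) := by rw [pow_mul]; norm_num
  · have e : (2 * k + 1) / 2 = k := by omega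
    rw [e] at h0
    have h1 := central_sq (k + 1)
    have h2 : (k + 1).centralBinom = 2 * (2 * k + 1).choose k := by
      rw [Nat.centralBinom]
      have : 2 * (k + 1) = (2 * k + 1) + 1 := by ring
      rw [this, Nat.choose_succ_succ, Nat.choose_symm_half]
      ring
    rw [h2] at h1
    have h3 : 4 * ((2 * k + 1).choose a ^ 2 * (2 * k + 1 + 1)) ≤ 4 * 4 ^ (2 * k + 1) := by
      calc 4 * ((2 * k + 1).choose a ^ 2 * (2 * k + 1 + 1))
          ≤ 4 * ((2 * k + 1).choose k ^ 2 * (2 * k + 3)) := by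
            refine Nat.mul_le_mul le_rfl (Nat.mul_le_mul ?_ (by omega))
            exact Nat.pow_le_pow_left h0 2
        _ = (2 * (2 * k + 1).choose k) ^ 2 * (2 * (k + 1) + 1) := by ring
        _ ≤ 16 ^ (k + 1) := h1
        _ = 4 * 4 ^ (2 * k + 1) := by
            rw [show (16 : ℕ) = 4 ^ 2 by norm_num, ← pow_mul]; ring
    exact Nat.le_of_mul_le_mul_left h3 (by norm_num)

lemma choose_mul_choose (m a b : ℕ) : m.choose a * m.choose b * (m + 1) ≤ 4 ^ m := by
  have h1 := choose_sq m a
  have h2 := choose_sq m b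
  rcases le_total (m.choose a) (m.choose b) with h | h
  · calc m.choose a * m.choose b * (m + 1) ≤ m.choose b * m.choose b * (m + 1) := by gcongr
      _ = m.choose b ^ 2 * (m + 1) := by ring
      _ ≤ _ := h2
  · calc m.choose a * m.choose b * (m + 1) ≤ m.choose a * m.choose a * (m + 1) := by gcongr
      _ = m.choose a ^ 2 * (m + 1) := by ring
      _ ≤ _ := h1

namespace Cv

variable {G : Type*} [AddCommGroup G]

lemma one_add_pt_pow (g : G) (m : ℕ) :
    (1 + pt g 1 : Cv G) ^ m =
      ∑ a ∈ Finset.range (m + 1), ((m.choose a : ℕ) : Cv G) * pt (a • g) 1 := by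
  rw [add_comm, add_pow]
  refine Finset.sum_congr rfl fun a _ => ?_
  rw [pt_pow, one_pow, one_pow, mul_one, mul_comm]

/-- The uniform bound for the powers of the cube. -/
lemma cube_pow_le {ζ g₁ g₂ : G} (c : ℝ≥0∞)
    (hind : ∀ a b a' b' : ℕ, a • g₁ + b • g₂ = a' • g₁ + b' • g₂ → a = a' ∧ b = b')
    (m : ℕ) (z : G) :
    ((pt ζ c * ((1 + pt g₁ 1) * (1 + pt g₂ 1))) ^ m).v z ≤ (4 * c) ^ m / (m + 1) := by
  rw [mul_pow, mul_pow, pt_pow, pt_mul_v, one_add_pt_pow, one_add_pt_pow, Finset.sum_mul_sum]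
  have key : ∀ w : G, (∑ a ∈ Finset.range (m + 1), ∑ b ∈ Finset.range (m + 1),
      ((m.choose a : ℕ) : Cv G) * pt (a • g₁) 1 * (((m.choose b : ℕ) : Cv G) * pt (b • g₂) 1)).v w ≤
      4 ^ m / (m + 1) := by
    intro w
    have e : ∀ a b : ℕ, ((m.choose a : ℕ) : Cv G) * pt (a • g₁) 1 *
        (((m.choose b : ℕ) : Cv G) * pt (b • g₂) 1) =
        ((m.choose a * m.choose b : ℕ) : Cv G) * pt (a • g₁ + b • g₂) 1 := by
      intro a b
      calc _ = ((m.choose a : ℕ) : Cv G) * ((m.choose b : ℕ) : Cv G) *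
            (pt (a • g₁) 1 * pt (b • g₂) 1) := by ring
        _ = _ := by rw [pt_mul_pt, mul_one, Nat.cast_mul]
    simp only [e, sum_v, natCast_mul_v]
    rw [← Finset.sum_product']
    have hb : ∀ a b : ℕ, ((m.choose a * m.choose b : ℕ) : ℝ≥0∞) ≤ 4 ^ m / (m + 1) := by
      intro a b
      rw [ENNReal.le_div_iff_mul_le (by simp only [ne_eq, add_eq_zero, Nat.cast_eq_zero, one_ne_zero, and_false, not_false_eq_true, pow_eq_zero_iff', OfNat.ofNat_ne_zero, false_and, or_self]) (by simp only [ne_eq, ENNReal.add_eq_top, ENNReal.natCast_ne_top, ENNReal.one_ne_top, or_self, not_false_eq_true, ENNReal.pow_eq_top_iff, ENNReal.ofNat_ne_top, false_and])]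
      exact_mod_cast choose_mul_choose m a b
    by_cases hex : ∃ p ∈ Finset.range (m + 1) ×ˢ Finset.range (m + 1), w = p.1 • g₁ + p.2 • g₂
    · obtain ⟨p, hp, rfl⟩ := hex
      rw [Finset.sum_eq_single_of_mem p hp]
      · rw [pt_v_self, mul_one]
        exact hb _ _
      · intro q _ hq
        rw [pt_v_ne, mul_zero]
        intro h
        have := hind _ _ _ _ h
        exact hq (Prod.ext this.1.symm this.2.symm)
    · rw [Finset.sum_eq_zero]
      · exact zero_le
      · intro p hp
        rw [pt_v_ne, mul_zero]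
        intro h
        exact hex ⟨p, hp, h⟩
  calc c ^ m * _ ≤ c ^ m * (4 ^ m / (m + 1)) := by gcongr; exact key _
    _ = (4 * c) ^ m / (m + 1) := by
      rw [mul_pow, div_eq_mul_inv, div_eq_mul_inv]; ring

/-- Concentration bound for convolution powers of a law that dominates a nondegenerate
two-dimensional cube. -/
theorem concentration (κ : Cv G) (hκ : mass κ = 1) {ζ g₁ g₂ : G} {c : ℝ≥0∞} (hc : c ≠ 0)
    (hdom : ∀ z, (pt ζ c * ((1 + pt g₁ 1) * (1 + pt g₂ 1))).v z ≤ κ.v z)
    (hind : ∀ a b a' b' : ℕ, a • g₁ + b • g₂ = a' • g₁ + b' • g₂ → a = a' ∧ b = b')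
    (n : ℕ) (z : G) : (κ ^ n).v z ≤ (1 / (4 * c)) / (n + 1) := by
  set ρ : Cv G := pt ζ c * ((1 + pt g₁ 1) * (1 + pt g₂ 1)) with hρ
  set κ' : Cv G := ⟨fun z => κ.v z - ρ.v z⟩ with hκ'
  have hsum : κ = κ' + ρ := by
    ext z
    simp only [add_v, hκ']
    rw [tsub_add_cancel_of_le (hdom z)]
  have hmρ : mass ρ = 4 * c := by
    rw [hρ, mass_mul, mass_mul, mass_add, mass_add, mass_pt, mass_pt, mass_pt, mass_one]
    norm_num
    ring
  have hmass : 4 * c + mass κ' = 1 := by
    rw [← hκ, hsum, mass_add, hmρ, add_comm]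
  set p' := mass κ' with hp'
  have h4c : 4 * c ≠ 0 := by simpa only [ne_eq, mul_eq_zero, OfNat.ofNat_ne_zero, false_or] using hc
  have h4ct : 4 * c ≠ ∞ := by
    intro h
    rw [h] at hmass
    simp at hmass
  rw [hsum, add_comm κ' ρ, add_pow, sum_v]
  calc ∑ m ∈ Finset.range (n + 1), (ρ ^ m * κ' ^ (n - m) * ((n.choose m : ℕ) : Cv G)).v z
      ≤ ∑ m ∈ Finset.range (n + 1),
          ((n + 1).choose (m + 1) : ℕ) * ((4 * c) ^ m * p' ^ (n - m)) / (n + 1) := by
        refine Finset.sum_le_sum fun m hm => ?_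
        rw [mul_comm, natCast_mul_v, mul_comm (ρ ^ m)]
        calc (n.choose m : ℝ≥0∞) * (κ' ^ (n - m) * ρ ^ m).v z
            ≤ (n.choose m : ℝ≥0∞) * (p' ^ (n - m) * ((4 * c) ^ m / (m + 1))) := by
              gcongr
              rw [hp', ← mass_pow]
              exact mul_v_le _ _ (fun z => cube_pow_le c hind m z) z
          _ = ((n.choose m : ℝ≥0∞) / (m + 1)) * ((4 * c) ^ m * p' ^ (n - m)) := by
              rw [div_eq_mul_inv, div_eq_mul_inv]; ring
          _ = (((n + 1).choose (m + 1) : ℕ) / (n + 1)) * ((4 * c) ^ m * p' ^ (n - m)) := by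
              congr 1
              rw [ENNReal.div_eq_div_iff (by simp only [ne_eq, add_eq_zero, Nat.cast_eq_zero, one_ne_zero, and_false, not_false_eq_true]) (by simp) (by simp only [ne_eq, add_eq_zero, Nat.cast_eq_zero, one_ne_zero, and_false, not_false_eq_true]) (by simp)]
              have := Nat.add_one_mul_choose_eq n m
              have h2 : ((n : ℝ≥0∞) + 1) * n.choose m =
                  ((n + 1).choose (m + 1) : ℕ) * ((m : ℝ≥0∞) + 1) := by exact_mod_cast this
              rw [h2]; ring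
          _ = _ := by rw [div_eq_mul_inv, div_eq_mul_inv]; ring
    _ = (∑ m ∈ Finset.range (n + 1),
          ((n + 1).choose (m + 1) : ℕ) * ((4 * c) ^ m * p' ^ (n - m))) / (n + 1) := by
        rw [div_eq_mul_inv, Finset.sum_mul]
        rfl
    _ ≤ (1 / (4 * c)) / (n + 1) := by
        gcongr
        rw [ENNReal.le_div_iff_mul_le (Or.inl h4c) (Or.inl h4ct), Finset.sum_mul]
        calc ∑ m ∈ Finset.range (n + 1),
              (((n + 1).choose (m + 1) : ℕ) * ((4 * c) ^ m * p' ^ (n - m))) * (4 * c)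
            = ∑ m ∈ Finset.range (n + 1),
              (4 * c) ^ (m + 1) * p' ^ (n + 1 - (m + 1)) * ((n + 1).choose (m + 1) : ℕ) := by
              refine Finset.sum_congr rfl fun m _ => ?_
              rw [Nat.add_sub_add_right, pow_succ]
              ring
          _ ≤ ∑ m ∈ Finset.range (n + 1 + 1),
              (4 * c) ^ m * p' ^ (n + 1 - m) * ((n + 1).choose m : ℕ) := by
              rw [Finset.sum_range_succ' _ (n + 1)]
              exact le_self_add
          _ = (4 * c + p') ^ (n + 1) := by rw [add_pow]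
          _ = 1 := by rw [hmass, one_pow]

/-- The kernel with increments distributed as `κ` acts on measures by convolution. -/
lemma push_iter_eq (κ : Cv G) (ν : G → ℝ≥0∞) (i : ℕ) :
    (push (fun z y => κ.v (y - z)))^[i] ν = ((⟨ν⟩ : Cv G) * κ ^ i).v := by
  induction i with
  | zero => simp
  | succ i ih =>
    rw [Function.iterate_succ_apply', ih, pow_succ, ← mul_assoc]
    rfl

lemma push_iter_le (κ : Cv G) {b : ℝ≥0∞} {i : ℕ} (h : ∀ z, (κ ^ i).v z ≤ b) (ν : G → ℝ≥0∞)
    (y : G) : ((push (fun z y => κ.v (y - z)))^[i] ν) y ≤ (∑' z, ν z) * b := by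
  rw [push_iter_eq]
  exact mul_v_le _ _ h y

end Cv

end Vale.Agent.P147
end
end
end

section

section

set_option linter.all false

section

open MeasureTheory ProbabilityTheory
open scoped ENNReal

namespace Vale.Agent.P147

variable {d : ℕ}

/-- Displacement of a list of steps. -/
def dsp (l : List (Dir d)) : Site d := (l.map vec).sum

@[simp] lemma dsp_nil : dsp ([] : List (Dir d)) = 0 := rfl

@[simp] lemma dsp_cons (u : Dir d) (l : List (Dir d)) : dsp (u :: l) = vec u + dsp l := by
  simp [dsp]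

@[simp] lemma dsp_append (a b : List (Dir d)) : dsp (a ++ b) = dsp a + dsp b := by
  simp [dsp]

/-- Quenched weight of a list of steps, from `x`. -/
noncomputable def qw (ω : Env d) : Site d → List (Dir d) → ℝ≥0∞
  | _, [] => 1
  | x, u :: l => ENNReal.ofReal ((ω x).1 u) * qw ω (x + vec u) l

@[simp] lemma qw_nil (ω : Env d) (x : Site d) : qw ω x [] = 1 := rfl

@[simp] lemma qw_cons (ω : Env d) (x : Site d) (u : Dir d) (l : List (Dir d)) :
    qw ω x (u :: l) = ENNReal.ofReal ((ω x).1 u) * qw ω (x + vec u) l := rfl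

lemma qw_append (ω : Env d) (x : Site d) (a b : List (Dir d)) :
    qw ω x (a ++ b) = qw ω x a * qw ω (x + dsp a) b := by
  induction a generalizing x with
  | nil => simp
  | cons u a ih => simp only [List.cons_append, qw_cons, ih, add_assoc, dsp_cons, mul_assoc]

lemma row_le_one (p : Row d) (u : Dir d) : p.1 u ≤ 1 := by
  have h := p.2
  calc p.1 u ≤ ∑ v, p.1 v := Finset.single_le_sum (fun v _ => h.1 v) (Finset.mem_univ u)
    _ = 1 := h.2

lemma qw_le_one (ω : Env d) (x : Site d) (l : List (Dir d)) : qw ω x l ≤ 1 := by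
  induction l generalizing x with
  | nil => simp
  | cons u l ih =>
    rw [qw_cons]
    calc _ ≤ (1 : ℝ≥0∞) * 1 := by
          gcongr
          · exact ENNReal.ofReal_le_one.2 (row_le_one _ _)
          · exact ih _
      _ = 1 := one_mul 1

lemma measurable_qw (x : Site d) (l : List (Dir d)) : Measurable (fun ω : Env d => qw ω x l) := by
  induction l generalizing x with
  | nil => simp
  | cons u l ih =>
    simp only [qw_cons]
    refine Measurable.mul ?_ (ih _)
    exact ENNReal.measurable_ofReal.comp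
      ((measurable_pi_apply u).comp (measurable_subtype_coe.comp (measurable_pi_apply x)))

/-- Exit sites of a list of steps from `x`: the sites where a step is made. -/
def exits : Site d → List (Dir d) → Finset (Site d)
  | _, [] => ∅
  | x, u :: l => insert x (exits (x + vec u) l)

@[simp] lemma exits_nil (x : Site d) : exits x [] = ∅ := rfl

@[simp] lemma exits_cons (x : Site d) (u : Dir d) (l : List (Dir d)) :
    exits x (u :: l) = insert x (exits (x + vec u) l) := rfl

lemma exits_append (x : Site d) (a b : List (Dir d)) :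
    exits x (a ++ b) = exits x a ∪ exits (x + dsp a) b := by
  induction a generalizing x with
  | nil => simp
  | cons u a ih => simp only [List.cons_append, exits_cons, ih, add_assoc, dsp_cons, Finset.insert_union]

lemma mem_exits {x y : Site d} {l : List (Dir d)} :
    y ∈ exits x l ↔ ∃ a b, l = a ++ b ∧ b ≠ [] ∧ y = x + dsp a := by
  induction l generalizing x with
  | nil => simp
  | cons u l ih =>
    rw [exits_cons, Finset.mem_insert, ih]
    constructor
    · rintro (rfl | ⟨a, b, rfl, hb, rfl⟩)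
      · exact ⟨[], u :: l, by simp, by simp, by simp⟩
      · exact ⟨u :: a, b, by simp, hb, by simp [add_assoc]⟩
    · rintro ⟨a, b, h, hb, rfl⟩
      cases a with
      | nil => left; simp
      | cons v a =>
        right
        simp only [List.cons_append, List.cons.injEq] at h
        obtain ⟨rfl, h⟩ := h
        exact ⟨a, b, h, hb, by simp [add_assoc]⟩

lemma exits_add (x z : Site d) (l : List (Dir d)) :
    exits (x + z) l = (exits x l).image (· + z) := by
  ext y
  simp only [Finset.mem_image, mem_exits]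
  constructor
  · rintro ⟨a, b, h, hb, rfl⟩
    exact ⟨x + dsp a, ⟨a, b, h, hb, rfl⟩, by abel⟩
  · rintro ⟨_, ⟨a, b, h, hb, rfl⟩, rfl⟩
    exact ⟨a, b, h, hb, by abel⟩

/-- The event that the path starts at `x` and makes the steps `l` first. -/
def cyl (x : Site d) (l : List (Dir d)) : Set (ℕ → Site d) :=
  {X | ∀ n ≤ l.length, X n = x + dsp (l.take n)}

lemma measurableSet_cyl (x : Site d) (l : List (Dir d)) : MeasurableSet (cyl x l) := by
  have : cyl x l = ⋂ n : ℕ, ⋂ _ : n ≤ l.length, (fun X : ℕ → Site d => X n) ⁻¹'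
      {x + dsp (l.take n)} := by
    ext X; simp only [cyl, Set.mem_ofPred_eq, Set.mem_iInter, Set.mem_preimage, Set.mem_singleton_iff]
  rw [this]
  refine MeasurableSet.iInter fun n => MeasurableSet.iInter fun _ => ?_
  exact measurable_pi_apply n (MeasurableSet.singleton _)

lemma vec_injective : Function.Injective (vec : Dir d → Site d) := by
  rintro ⟨i, s⟩ ⟨j, t⟩ h
  have hi := congrFun h i
  have hj := congrFun h j
  simp only [vec] at hi hj
  rcases eq_or_ne i j with rfl | hij
  · simp only [Pi.single_eq_same] at hi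
    have : s = t := by
      cases s <;> cases t <;> simp_all
    rw [this]
  · rw [Pi.single_eq_same, Pi.single_eq_of_ne hij] at hi
    cases s <;> simp at hi

lemma stepLaw_vec (ω : Env d) (x : Site d) (u : Dir d) :
    stepLaw ω x {x + vec u} = ENNReal.ofReal ((ω x).1 u) := by
  simp only [stepLaw, Measure.coe_finsetSum, Finset.sum_apply, Measure.coe_smul, Pi.smul_apply,
    smul_eq_mul]
  rw [Finset.sum_eq_single u]
  · simp only [MeasurableSet.singleton, Measure.dirac_apply', Set.mem_singleton_iff, Set.indicator_of_mem, Pi.one_apply, mul_one]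
  · intro v _ hv
    rw [Measure.dirac_apply' _ (MeasurableSet.singleton _), Set.indicator_of_notMem, mul_zero]
    simp only [Set.mem_singleton_iff, add_right_inj]
    exact fun h => hv (vec_injective h)
  · simp only [Finset.mem_univ, not_true_eq_false, MeasurableSet.singleton, Measure.dirac_apply', Set.mem_singleton_iff, Set.indicator_of_mem, Pi.one_apply, mul_one, ENNReal.ofReal_eq_zero, IsEmpty.forall_iff]

instance (ω : Env d) (x : Site d) : IsProbabilityMeasure (quenched ω x) := by
  unfold quenched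
  infer_instance

/-- The event that the first `n + 1` positions are given by `g`. -/
def pc (n : ℕ) (g : ℕ → Site d) : Set (ℕ → Site d) := {X | ∀ i ≤ n, X i = g i}

lemma measurableSet_pc (n : ℕ) (g : ℕ → Site d) : MeasurableSet (pc n g) := by
  have : pc n g = ⋂ i : ℕ, ⋂ _ : i ≤ n, (fun X : ℕ → Site d => X i) ⁻¹' {g i} := by
    ext X; simp only [pc, Set.mem_ofPred_eq, Set.mem_iInter, Set.mem_preimage, Set.mem_singleton_iff]
  rw [this]
  refine MeasurableSet.iInter fun n => MeasurableSet.iInter fun _ => ?_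
  exact measurable_pi_apply n (MeasurableSet.singleton _)

lemma frestrictLe_preimage (n : ℕ) (g : ℕ → Site d) :
    Preorder.frestrictLe (π := fun _ : ℕ => Site d) n ⁻¹' {fun i : Finset.Iic n => g i} =
      pc n g := by
  ext X
  simp only [Set.mem_preimage, Set.mem_singleton_iff, pc, Set.mem_ofPred_eq]
  constructor
  · intro h i hi
    exact congrFun h ⟨i, by simpa only [Finset.mem_Iic] using hi⟩
  · intro h
    funext i
    have := i.2
    simp only [Finset.mem_Iic] at this
    exact h i this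

lemma quenched_pc_succ (ω : Env d) (x : Site d) (n : ℕ) (g : ℕ → Site d) :
    quenched ω x (pc (n + 1) g) = quenched ω x (pc n g) * stepLaw ω (g n) {g (n + 1)} := by
  have key := Kernel.map_frestrictLe_trajMeasure_compProd_eq_map_trajMeasure
    (X := fun _ : ℕ => Site d) (μ₀ := Measure.dirac x)
    (κ := fun n => (stepKernel ω).comap (fun h : (i : Finset.Iic n) → Site d => h ⟨n, by simp⟩)
      (measurable_pi_apply _)) (a := n)
  set h0 : (i : Finset.Iic n) → Site d := fun i => g i with hh0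
  have hS : MeasurableSet ({h0} : Set ((i : Finset.Iic n) → Site d)) := MeasurableSet.singleton _
  have hy : MeasurableSet ({g (n + 1)} : Set (Site d)) := MeasurableSet.singleton _
  have key2 := congrArg (fun m => m ({h0} ×ˢ {g (n + 1)})) key
  beta_reduce at key2
  have hpre := frestrictLe_preimage n g
  rw [← hh0] at hpre
  rw [Measure.compProd_apply_prod hS hy, Measure.map_apply (by fun_prop) (hS.prod hy)] at key2
  have e1 : (fun X : ℕ → Site d => (Preorder.frestrictLe (π := fun _ : ℕ => Site d) n X,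
      X (n + 1))) ⁻¹' ({h0} ×ˢ {g (n + 1)}) = pc (n + 1) g := by
    have : (fun X : ℕ → Site d => (Preorder.frestrictLe (π := fun _ : ℕ => Site d) n X,
      X (n + 1))) ⁻¹' ({h0} ×ˢ {g (n + 1)}) = pc n g ∩ {X | X (n + 1) = g (n + 1)} := by
      rw [← hpre]; rfl
    rw [this]
    ext X
    simp only [pc, Set.mem_inter_iff, Set.mem_ofPred_eq]
    constructor
    · rintro ⟨h1, h2⟩ i hi
      rcases Nat.lt_or_ge n i with h | h
      · have : i = n + 1 := by omega
        subst this; exact h2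
      · exact h1 i h
    · intro h
      exact ⟨fun i hi => h i (by omega), h _ le_rfl⟩
  rw [e1] at key2
  have e2 : quenched ω x (pc (n + 1) g) = _ := key2.symm
  rw [e2]
  rw [lintegral_singleton, Measure.map_apply (by fun_prop) hS, hpre, Kernel.comap_apply]
  rw [mul_comm]
  rfl

lemma quenched_start (ω : Env d) (x : Site d) (y : Site d) :
    quenched ω x {X | X 0 = y} = Set.indicator {y} 1 x := by
  have hmap : (quenched ω x).map (Preorder.frestrictLe (π := fun _ : ℕ => Site d) 0) =
      (Measure.dirac x).map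
        (MeasurableEquiv.piUnique (fun _ : Finset.Iic 0 => Site d)).symm := by
    unfold quenched
    rw [Kernel.trajMeasure, Measure.map_comp _ _ (by fun_prop), Kernel.traj_map_frestrictLe,
      Kernel.partialTraj_self]
    simp
  have hm : Measurable (fun h : (i : Finset.Iic 0) → Site d => h ⟨0, by simp only [Finset.mem_Iic, Std.le_refl]⟩) :=
    measurable_pi_apply _
  have hS : MeasurableSet {h : (i : Finset.Iic 0) → Site d | h ⟨0, by simp only [Finset.mem_Iic, Std.le_refl]⟩ = y} :=
    hm (MeasurableSet.singleton y)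
  have h1 := congrArg (fun m => m {h : (i : Finset.Iic 0) → Site d | h ⟨0, by simp only [Finset.mem_Iic, Std.le_refl]⟩ = y}) hmap
  beta_reduce at h1
  rw [Measure.map_apply (by fun_prop) hS, Measure.map_apply (by (clear * -; fun_prop)) hS] at h1
  refine Eq.trans h1 ?_
  rw [Measure.dirac_apply' _ (by measurability)]
  rfl

lemma quenched_start_self (ω : Env d) (x : Site d) : quenched ω x {X | X 0 = x} = 1 := by
  rw [quenched_start]; simp

lemma measurable_stepLaw (x y : Site d) : Measurable (fun ω : Env d => stepLaw ω x {y}) := by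
  simp only [stepLaw, Measure.coe_finsetSum, Finset.sum_apply, Measure.coe_smul, Pi.smul_apply,
    smul_eq_mul]
  refine Finset.measurable_sum _ fun u _ => Measurable.mul_const ?_ _
  exact ENNReal.measurable_ofReal.comp
      ((measurable_pi_apply u).comp (measurable_subtype_coe.comp (measurable_pi_apply x)))

lemma measurable_quenched_pc (x : Site d) (n : ℕ) (g : ℕ → Site d) :
    Measurable (fun ω : Env d => quenched ω x (pc n g)) := by
  induction n with
  | zero =>
    have : pc 0 g = {X | X 0 = g 0} := by ext X; simp only [pc, nonpos_iff_eq_zero, forall_eq, Set.mem_ofPred_eq]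
    simp only [this, quenched_start]
    exact measurable_const
  | succ n ih =>
    simp only [quenched_pc_succ]
    exact ih.mul (measurable_stepLaw _ _)

lemma measurable_quenched (x : Site d) : Measurable (fun ω : Env d => quenched ω x) := by
  refine Measurable.measure_of_isPiSystem_of_isProbabilityMeasure
    (S := MeasureTheory.measurableCylinders (fun _ : ℕ => Site d))
    (MeasureTheory.generateFrom_measurableCylinders).symm
    MeasureTheory.isPiSystem_measurableCylinders ?_
  intro s hs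
  rw [MeasureTheory.mem_measurableCylinders] at hs
  obtain ⟨I, T, hT, rfl⟩ := hs
  set n := I.sup id with hn
  have hsub : ∀ i ∈ I, i ∈ Finset.Iic n := fun i hi => by
    simp only [Finset.mem_Iic]
    exact Finset.le_sup (f := id) hi
  set T' : Set ((i : Finset.Iic n) → Site d) :=
    {g | (fun i : I => g ⟨i, hsub i i.2⟩) ∈ T} with hT'
  have e : cylinder I T = Preorder.frestrictLe (π := fun _ : ℕ => Site d) n ⁻¹' T' := by
    ext X
    simp only [cylinder, Set.mem_preimage, hT', Set.mem_ofPred_eq]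
    rfl
  rw [e]
  have e2 : Preorder.frestrictLe (π := fun _ : ℕ => Site d) n ⁻¹' T' =
      ⋃ g : T', Preorder.frestrictLe (π := fun _ : ℕ => Site d) n ⁻¹' {g.1} := by
    ext X; simp only [Set.mem_preimage, Set.iUnion_coe_set, Set.biUnion_preimage_singleton]
  have hm : ∀ g : (i : Finset.Iic n) → Site d,
      Preorder.frestrictLe (π := fun _ : ℕ => Site d) n ⁻¹' {g} =
        pc n (fun i => if hi : i ≤ n then g ⟨i, by simpa using hi⟩ else 0) := by
    intro g
    rw [← frestrictLe_preimage]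
    congr 2
    funext i
    have := i.2
    simp only [Finset.mem_Iic] at this
    simp [this]
  have e3 : ∀ ω : Env d, quenched ω x (Preorder.frestrictLe (π := fun _ : ℕ => Site d) n ⁻¹' T') =
      ∑' g : T', quenched ω x
        (pc n (fun i => if hi : i ≤ n then g.1 ⟨i, by simpa only [Finset.mem_Iic] using hi⟩ else 0)) := by
    intro ω
    rw [e2, measure_iUnion]
    · simp only [hm]
    · intro g g' hgg
      refine Disjoint.preimage _ ?_
      rw [Set.disjoint_singleton]
      exact fun h => hgg (Subtype.ext h)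
    · intro g
      rw [hm]
      exact measurableSet_pc _ _
  simp only [e3]
  exact Measurable.tsum fun g => measurable_quenched_pc _ _ _

lemma measurable_quenched_apply (x : Site d) {A : Set (ℕ → Site d)} (hA : MeasurableSet A) :
    Measurable (fun ω : Env d => quenched ω x A) :=
  (Measure.measurable_coe hA).comp (measurable_quenched x)

lemma cyl_eq_pc (x : Site d) (l : List (Dir d)) :
    cyl x l = pc l.length (fun n => x + dsp (l.take n)) := rfl

lemma quenched_cyl_append_singleton (ω : Env d) (x : Site d) (l : List (Dir d)) (u : Dir d) :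
    quenched ω x (cyl x (l ++ [u])) =
      quenched ω x (cyl x l) * ENNReal.ofReal ((ω (x + dsp l)).1 u) := by
  have h1 : cyl x (l ++ [u]) = pc (l.length + 1) (fun n => x + dsp ((l ++ [u]).take n)) := by
    rw [cyl_eq_pc]; simp
  have h2 : cyl x l = pc l.length (fun n => x + dsp ((l ++ [u]).take n)) := by
    ext X
    simp only [cyl, pc, Set.mem_ofPred_eq]
    refine forall_congr' fun n => forall_congr' fun hn => ?_
    rw [List.take_append_of_le_length hn]
  rw [h1, quenched_pc_succ, ← h2, ← stepLaw_vec]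
  have h3 : dsp ((l ++ [u]).take l.length) = dsp l := by simp
  have h4 : dsp ((l ++ [u]).take (l.length + 1)) = dsp l + vec u := by
    rw [List.take_of_length_le (by simp)]; simp
  rw [h3, h4, add_assoc]

lemma quenched_cyl (ω : Env d) (x : Site d) (l : List (Dir d)) :
    quenched ω x (cyl x l) = qw ω x l := by
  induction l using List.reverseRecOn with
  | nil =>
    have : cyl x ([] : List (Dir d)) = {X | X 0 = x} := by
      ext X; simp only [cyl, List.length_nil, nonpos_iff_eq_zero, List.take_nil, dsp_nil, add_zero, forall_eq, Set.mem_ofPred_eq]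
    rw [this, qw_nil, quenched_start_self]
  | append_singleton l u ih =>
    rw [quenched_cyl_append_singleton, ih, qw_append]
    simp

end Vale.Agent.P147
end

section

open MeasureTheory ProbabilityTheory
open scoped ENNReal

namespace Vale.Agent.P147

variable {d : ℕ}

instance (μ : Measure (Row d)) [IsProbabilityMeasure μ] : IsProbabilityMeasure (envLaw μ) := by
  unfold envLaw
  infer_instance

/-- Annealed weight of a list of steps. -/
noncomputable def wt (μ : Measure (Row d)) (l : List (Dir d)) : ℝ≥0∞ :=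
  ∫⁻ ω, qw ω 0 l ∂(envLaw μ)

/-- Shift of the environment. -/
def shift (z : Site d) (ω : Env d) : Env d := fun x => ω (x + z)

lemma qw_shift (z : Site d) (ω : Env d) (x : Site d) (l : List (Dir d)) :
    qw (shift z ω) x l = qw ω (x + z) l := by
  induction l generalizing x with
  | nil => simp
  | cons u l ih =>
    rw [qw_cons, qw_cons, ih, add_right_comm]
    rfl

section law

variable (μ : Measure (Row d)) [IsProbabilityMeasure μ]

lemma measurePreserving_shift (z : Site d) :
    MeasurePreserving (shift z) (envLaw μ) (envLaw μ) := by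
  have hm : Measurable (shift z : Env d → Env d) := by
    unfold shift
    exact measurable_pi_lambda _ fun x => measurable_pi_apply _
  refine ⟨hm, ?_⟩
  exact Measure.map_infinitePi_infinitePi_of_inj (P := fun _ : Site d => μ)
    (f := fun x : Site d => x + z) (add_left_injective z)

lemma lintegral_qw (x : Site d) (l : List (Dir d)) :
    ∫⁻ ω, qw ω x l ∂(envLaw μ) = wt μ l := by
  rw [wt, ← (measurePreserving_shift μ x).lintegral_comp (measurable_qw 0 l)]
  simp only [qw_shift, zero_add]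

lemma wt_le_one (l : List (Dir d)) : wt μ l ≤ 1 := by
  calc wt μ l ≤ ∫⁻ _, 1 ∂(envLaw μ) := lintegral_mono fun ω => qw_le_one ω 0 l
    _ = 1 := by simp only [lintegral_const, measure_univ, mul_one]

@[simp] lemma wt_nil : wt μ [] = 1 := by simp only [wt, qw_nil, lintegral_const, measure_univ, mul_one]

lemma wt_append_le_right (a b : List (Dir d)) : wt μ (a ++ b) ≤ wt μ b := by
  rw [← lintegral_qw μ (0 + dsp a) b, wt]
  refine lintegral_mono fun ω => ?_
  rw [qw_append]
  calc _ ≤ 1 * qw ω (0 + dsp a) b := by gcongr; exact qw_le_one _ _ _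
    _ = _ := one_mul _

omit [IsProbabilityMeasure μ] in
lemma wt_append_le_left (a b : List (Dir d)) : wt μ (a ++ b) ≤ wt μ a := by
  rw [wt, wt]
  refine lintegral_mono fun ω => ?_
  rw [qw_append]
  calc _ ≤ qw ω 0 a * 1 := by gcongr; exact qw_le_one _ _ _
    _ = _ := mul_one _

omit [IsProbabilityMeasure μ] in
lemma qw_congr {ω ω' : Env d} {x : Site d} {l : List (Dir d)}
    (h : ∀ y ∈ exits x l, ω y = ω' y) : qw ω x l = qw ω' x l := by
  induction l generalizing x with
  | nil => simp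
  | cons u l ih =>
    rw [qw_cons, qw_cons, h x (by simp), ih]
    intro y hy
    exact h y (by simp [hy])

lemma exists_factor (S : Finset (Site d)) [Nonempty (Row d)] (x : Site d) (l : List (Dir d))
    (hl : exits x l ⊆ S) :
    ∃ F : ((y : S) → Row d) → ℝ≥0∞, Measurable F ∧
      ∀ ω : Env d, qw ω x l = F (fun y : S => ω y) := by
  classical
  let p0 : Row d := Classical.arbitrary _
  let ext : ((y : S) → Row d) → Env d := fun ρ y => if h : y ∈ S then ρ ⟨y, h⟩ else p0
  refine ⟨fun ρ => qw (ext ρ) x l, ?_, ?_⟩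
  · refine (measurable_qw x l).comp ?_
    refine measurable_pi_lambda _ fun y => ?_
    by_cases h : y ∈ S
    · simp only [ext, h, dif_pos]
      exact measurable_pi_apply _
    · simp only [ext, h, dif_neg, not_false_eq_true]
      exact measurable_const
  · intro ω
    refine qw_congr fun y hy => ?_
    simp [ext, hl hy]

lemma lintegral_mul_of_disjoint (x y : Site d) (a b : List (Dir d))
    (h : Disjoint (exits x a) (exits y b)) :
    ∫⁻ ω, qw ω x a * qw ω y b ∂(envLaw μ) = wt μ a * wt μ b := by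
  have : Nonempty (Row d) := nonempty_of_isProbabilityMeasure μ
  obtain ⟨F, hF, hFa⟩ := exists_factor (exits x a) x a subset_rfl
  obtain ⟨G, hG, hGb⟩ := exists_factor (exits y b) y b subset_rfl
  have hind : iIndepFun (fun (i : Site d) (ω : Env d) => ω i) (envLaw μ) :=
    iIndepFun_infinitePi (P := fun _ : Site d => μ) (X := fun _ p => p) (fun _ => measurable_id)
  have h2 := iIndepFun.indepFun_finset (exits x a) (exits y b) h hind
    (fun i => measurable_pi_apply i)
  have h3 := h2.comp hF hG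
  rw [← lintegral_qw μ x a, ← lintegral_qw μ y b]
  have h4 := lintegral_mul_eq_lintegral_mul_lintegral_of_indepFun (measurable_qw x a)
    (measurable_qw y b) (by
      have e1 : (fun ω : Env d => qw ω x a) = F ∘ (fun ω (i : exits x a) => ω i) := by
        funext ω; exact hFa ω
      have e2 : (fun ω : Env d => qw ω y b) = G ∘ (fun ω (i : exits y b) => ω i) := by
        funext ω; exact hGb ω
      rw [e1, e2]
      exact h3)
  exact h4

lemma wt_append {a b : List (Dir d)} (h : Disjoint (exits 0 a) (exits (dsp a) b)) :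
    wt μ (a ++ b) = wt μ a * wt μ b := by
  rw [← lintegral_mul_of_disjoint μ 0 (dsp a) a b h, wt]
  refine lintegral_congr fun ω => ?_
  rw [qw_append, zero_add]

lemma wt_ne_zero (hμ : Elliptic μ) (l : List (Dir d)) : wt μ l ≠ 0 := by
  have hae : ∀ᵐ ω ∂(envLaw μ), ∀ x : Site d, ∀ u : Dir d, 0 < (ω x).1 u := by
    rw [ae_all_iff]
    intro x
    have := (measurePreserving_eval_infinitePi (fun _ : Site d => μ) x).quasiMeasurePreserving
    exact this.ae hμ
  intro h0
  rw [wt, lintegral_eq_zero_iff (measurable_qw 0 l)] at h0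
  have : ∀ᵐ ω ∂(envLaw μ), False := by
    filter_upwards [hae, h0] with ω h1 h2
    have h3 : ∀ x, qw ω x l ≠ 0 := by
      clear h2 h0
      induction l with
      | nil => intro x; simp
      | cons u l ih =>
        intro x
        rw [qw_cons]
        exact mul_ne_zero (by simpa only [ne_eq, ENNReal.ofReal_eq_zero, not_le] using h1 x u) (ih _)
    exact h3 0 h2
  simp only [Filter.eventually_false_iff_eq_bot, ae_eq_bot] at this
  exact IsProbabilityMeasure.ne_zero (envLaw μ) this

omit [IsProbabilityMeasure μ] in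
lemma annealed_cyl (x : Site d) (l : List (Dir d)) :
    annealed μ x (cyl x l) = ∫⁻ ω, qw ω x l ∂(envLaw μ) := by
  simp only [annealed, quenched_cyl]

lemma annealed_cyl' (x : Site d) (l : List (Dir d)) :
    annealed μ x (cyl x l) = wt μ l := by
  rw [annealed_cyl, lintegral_qw]

omit [IsProbabilityMeasure μ] in
lemma annealed_mono (x : Site d) {A B : Set (ℕ → Site d)} (h : A ⊆ B) :
    annealed μ x A ≤ annealed μ x B :=
  lintegral_mono fun _ => measure_mono h

omit [IsProbabilityMeasure μ] in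
lemma annealed_iUnion_le (x : Site d) {ι : Type*} [Countable ι] {A : ι → Set (ℕ → Site d)}
    (hA : ∀ i, MeasurableSet (A i)) :
    annealed μ x (⋃ i, A i) ≤ ∑' i, annealed μ x (A i) := by
  simp only [annealed]
  rw [← lintegral_tsum fun i => (measurable_quenched_apply x (hA i)).aemeasurable]
  exact lintegral_mono fun ω => measure_iUnion_le _

/-- Two lists of steps are comparable if one starts with the other. -/
def Free (S : Set (List (Dir d))) : Prop :=
  ∀ a ∈ S, ∀ b, a ++ b ∈ S → b = []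

lemma cyl_inter {x : Site d} {a b : List (Dir d)} {X : ℕ → Site d} (ha : X ∈ cyl x a)
    (hb : X ∈ cyl x b) (hab : a.length ≤ b.length) : ∃ c, b = a ++ c := by
  induction a generalizing x b X with
  | nil => exact ⟨b, rfl⟩
  | cons u a ih =>
    cases b with
    | nil => simp only [List.length_cons, List.length_nil, nonpos_iff_eq_zero, Nat.add_eq_zero_iff, List.length_eq_zero_iff, one_ne_zero, and_false] at hab
    | cons v b =>
      have h1 := ha 1 (by simp only [List.length_cons, le_add_iff_nonneg_left, zero_le])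
      have h2 := hb 1 (by simp only [List.length_cons, le_add_iff_nonneg_left, zero_le])
      have huv : u = v := by
        apply vec_injective
        simp only [List.take_succ_cons, List.take_zero, dsp_cons, dsp_nil, add_zero] at h1 h2
        rw [h1] at h2
        exact add_left_cancel h2
      subst huv
      have ha' : (fun n => X (n + 1)) ∈ cyl (x + vec u) a := by
        intro n hn
        have := ha (n + 1) (by simpa only [List.length_cons, add_le_add_iff_right] using hn)
        simpa [add_assoc] using this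
      have hb' : (fun n => X (n + 1)) ∈ cyl (x + vec u) b := by
        intro n hn
        have := hb (n + 1) (by simpa only [List.length_cons, add_le_add_iff_right] using hn)
        simpa [add_assoc] using this
      obtain ⟨c, hc⟩ := ih ha' hb' (by simpa only [List.length_cons, add_le_add_iff_right] using hab)
      exact ⟨c, by rw [hc]; rfl⟩

lemma cyl_disjoint {S : Set (List (Dir d))} (hS : Free S) {x : Site d} {a b : List (Dir d)}
    (ha : a ∈ S) (hb : b ∈ S) (hab : a ≠ b) : Disjoint (cyl x a) (cyl x b) := by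
  rw [Set.disjoint_left]
  intro X h1 h2
  rcases le_total a.length b.length with h | h
  · obtain ⟨c, rfl⟩ := cyl_inter h1 h2 h
    have := hS a ha c hb
    subst this
    simp at hab
  · obtain ⟨c, rfl⟩ := cyl_inter h2 h1 h
    have := hS b hb c ha
    subst this
    simp at hab

lemma tsum_wt_le_one {S : Set (List (Dir d))} (hS : Free S) : ∑' l : S, wt μ l ≤ 1 := by
  have h1 : ∀ ω : Env d, ∑' l : S, qw ω 0 (l : List (Dir d)) ≤ 1 := by
    intro ω
    simp only [← quenched_cyl]
    rw [← measure_iUnion]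
    · exact prob_le_one
    · intro a b hab
      exact cyl_disjoint hS a.2 b.2 (fun h => hab (Subtype.ext h))
    · intro a
      exact measurableSet_cyl _ _
  simp only [wt]
  rw [← lintegral_tsum (f := fun (l : S) (ω : Env d) => qw ω 0 (l : List (Dir d)))
    fun l => (measurable_qw 0 (l : List (Dir d))).aemeasurable]
  calc _ ≤ ∫⁻ _, 1 ∂(envLaw μ) := lintegral_mono fun ω => h1 ω
    _ = 1 := by simp only [lintegral_const, measure_univ, mul_one]

end law

end Vale.Agent.P147
end

section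

open MeasureTheory
open scoped ENNReal

namespace Vale.Agent.P147

variable {d : ℕ}

/-- Paths (lists of steps) of total height `k` that stay at heights in `[0, k)` before their
last step. -/
def Up (h : Site d →+ ℤ) (k : ℕ) : Set (List (Dir d)) :=
  {l | (∀ a b, l = a ++ b → 0 ≤ h (dsp a)) ∧ (∀ a b, l = a ++ b → b ≠ [] → h (dsp a) < k) ∧
    h (dsp l) = k}

lemma Up_zero (h : Site d →+ ℤ) (l : List (Dir d)) : l ∈ Up h 0 ↔ l = [] := by
  constructor
  · rintro ⟨_, h2, _⟩
    by_contra hl
    have := h2 [] l rfl hl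
    simp at this
  · rintro rfl
    refine ⟨fun a b hab => ?_, fun a b hab hb => ?_, by simp only [dsp_nil, map_zero, CharP.cast_eq_zero]⟩
    · have := List.append_eq_nil_iff.1 hab.symm
      rw [this.1]; simp
    · have := List.append_eq_nil_iff.1 hab.symm
      exact absurd this.2 hb

lemma Up_append {h : Site d →+ ℤ} {j k : ℕ} {a b : List (Dir d)} (ha : a ∈ Up h j)
    (hb : b ∈ Up h k) : a ++ b ∈ Up h (j + k) := by
  refine ⟨fun c e hce => ?_, fun c e hce he => ?_, ?_⟩
  · rcases List.append_eq_append_iff.1 hce with ⟨a', rfl, hb'⟩ | ⟨c', hc', rfl⟩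
    · rw [dsp_append, map_add, ha.2.2]
      have := hb.1 a' e hb'
      (clear * - this; positivity)
    · exact ha.1 c c' hc'
  · rcases List.append_eq_append_iff.1 hce with ⟨a', rfl, hb'⟩ | ⟨c', hc', rfl⟩
    · rw [dsp_append, map_add, ha.2.2]
      have := hb.2.1 a' e hb' he
      push_cast
      linarith only [this]
    · by_cases hc0 : c' = []
      · subst hc0
        simp only [List.append_nil] at hc'
        rw [← hc', ha.2.2]
        have hb1 := hb.2.1 [] b rfl (by simpa using he)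
        simp only [dsp_nil, map_zero] at hb1
        push_cast
        linarith only [hb1]
      · have := ha.2.1 c c' hc' hc0
        push_cast
        linarith only [this]
  · rw [dsp_append, map_add, ha.2.2, hb.2.2]
    push_cast
    rfl

lemma Up_nest {h : Site d →+ ℤ} {j k j' : ℕ} {a b a' b' : List (Dir d)} (ha : a ∈ Up h j)
    (hb : b ∈ Up h k) (ha' : a' ∈ Up h j') (hab : a ++ b = a' ++ b')
    (hle : j ≤ j') : ∃ c ∈ Up h (j' - j), a' = a ++ c ∧ b = c ++ b' := by
  have hcase : ∃ c, a' = a ++ c ∧ b = c ++ b' := by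
    rcases List.append_eq_append_iff.1 hab with ⟨c, h1, h2⟩ | ⟨c, h1, h2⟩
    · exact ⟨c, h1, h2⟩
    · by_cases hc : c = []
      · subst hc
        simp only [List.append_nil] at h1
        simp only [List.nil_append] at h2
        exact ⟨[], by simp [h1], by simp [h2]⟩
      · have := ha.2.1 a' c h1 hc
        rw [ha'.2.2] at this
        have : (j' : ℤ) < j := this
        omega
  obtain ⟨c, rfl, rfl⟩ := hcase
  have h3 := ha'.2.2
  rw [dsp_append, map_add, ha.2.2] at h3
  refine ⟨c, ⟨fun e f hef => ?_, fun e f hef hf => ?_, ?_⟩, rfl, rfl⟩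
  · subst hef
    exact hb.1 e (f ++ b') (by simp)
  · subst hef
    have := ha'.2.1 (a ++ e) f (by simp) hf
    rw [dsp_append, map_add, ha.2.2] at this
    omega
  · omega

/-- The grading of upward paths. -/
def upG (h : Site d →+ ℤ) : Grading (FreeMonoid (Dir d)) where
  G k := {x | x.toList ∈ Up h k}
  G_zero := by
    ext x
    simp only [Set.mem_ofPred_eq, Up_zero, Set.mem_singleton_iff]
    constructor
    · intro hx; exact FreeMonoid.toList.injective hx
    · rintro rfl; rfl
  mul_mem := by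
    intro j k a b ha hb
    simp only [Set.mem_ofPred_eq, FreeMonoid.toList_mul]
    exact Up_append ha hb
  nest := by
    intro j k j' k' a b a' b' ha hb ha' _ hab _ hle
    have hab' : a.toList ++ b.toList = a'.toList ++ b'.toList := by
      rw [← FreeMonoid.toList_mul, ← FreeMonoid.toList_mul, hab]
    obtain ⟨c, hc, h1, h2⟩ := Up_nest ha hb ha' hab' hle
    refine ⟨FreeMonoid.ofList c, hc, ?_, ?_⟩
    · apply FreeMonoid.toList.injective
      rw [FreeMonoid.toList_mul]
      exact h1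
    · apply FreeMonoid.toList.injective
      rw [FreeMonoid.toList_mul]
      exact h2

lemma mem_upG {h : Site d →+ ℤ} {k : ℕ} {x : FreeMonoid (Dir d)} :
    x ∈ (upG h).G k ↔ x.toList ∈ Up h k := by
  simp only [upG, Set.mem_ofPred_eq]

lemma mem_upG_op {h : Site d →+ ℤ} {k : ℕ} {x : (FreeMonoid (Dir d))ᵐᵒᵖ} :
    x ∈ (upG h).op.G k ↔ x.unop.toList ∈ Up h k := by
  simp only [upG, Grading.op, Set.mem_ofPred_eq]

lemma mem_exits_height {h : Site d →+ ℤ} {x y : Site d} {k : ℕ} {l : List (Dir d)}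
    (hl : l ∈ Up h k) (hy : y ∈ exits x l) : h x ≤ h y ∧ h y < h x + k := by
  obtain ⟨a, b, hab, hb, rfl⟩ := mem_exits.1 hy
  rw [map_add]
  have h1 := hl.1 a b hab
  have h2 := hl.2.1 a b hab hb
  constructor <;> linarith only [h1, h2]

lemma exits_disjoint {h : Site d →+ ℤ} {j k : ℕ} {a b : List (Dir d)}
    (ha : a ∈ Up h j) (hb : b ∈ Up h k) (x : Site d) :
    Disjoint (exits x a) (exits (x + dsp a) b) := by
  rw [Finset.disjoint_left]
  intro y h1 h2
  have h3 := mem_exits_height ha h1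
  have h4 := mem_exits_height hb h2
  rw [map_add, ha.2.2] at h4
  omega

lemma upG_mult (μ : Measure (Row d)) [IsProbabilityMeasure μ] (h : Site d →+ ℤ) :
    (upG h).Mult (fun x => wt μ x.toList) where
  one := by simp only [FreeMonoid.toList_one, wt_nil]
  mul := by
    intro j k a b ha hb
    rw [mem_upG] at ha hb
    rw [FreeMonoid.toList_mul]
    refine wt_append μ ?_
    have := exits_disjoint ha hb 0
    rwa [zero_add] at this

lemma card_exits_add (x z : Site d) (l : List (Dir d)) :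
    (exits (x + z) l).card = (exits x l).card := by
  rw [exits_add, Finset.card_image_of_injective _ (add_left_injective z)]

lemma card_exits_eq (x : Site d) (l : List (Dir d)) : (exits x l).card = (exits 0 l).card := by
  have := card_exits_add 0 x l
  rwa [zero_add] at this

lemma upG_add (h : Site d →+ ℤ) : (upG h).Add (fun x => (exits 0 x.toList).card) where
  one := by simp
  mul := by
    intro j k a b ha hb
    rw [mem_upG] at ha hb
    rw [FreeMonoid.toList_mul, exits_append,
      Finset.card_union_of_disjoint (exits_disjoint ha hb 0), zero_add,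
      card_exits_eq (dsp a.toList)]

/-- Number of exit sites of `l`, started at `x`, at height `i`. -/
def lv (h : Site d →+ ℤ) (x : Site d) (l : List (Dir d)) (i : ℤ) : ℕ :=
  ((exits x l).filter (fun y => h y = i)).card

lemma lv_add (h : Site d →+ ℤ) (x z : Site d) (l : List (Dir d)) (i : ℤ) :
    lv h (x + z) l (i + h z) = lv h x l i := by
  rw [lv, lv, exits_add, Finset.filter_image,
    Finset.card_image_of_injective _ (add_left_injective z)]
  congr 1
  ext y
  simp

lemma lv_append (h : Site d →+ ℤ) (x : Site d) {j k : ℕ} {a b : List (Dir d)} (ha : a ∈ Up h j)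
    (hb : b ∈ Up h k) (i : ℤ) :
    lv h x (a ++ b) i = if i < h x + j then lv h x a i else lv h (x + dsp a) b i := by
  rw [lv, exits_append, Finset.filter_union]
  split_ifs with hi
  · have : (exits (x + dsp a) b).filter (fun y => h y = i) = ∅ := by
      rw [Finset.filter_eq_empty_iff]
      intro y hy
      have := mem_exits_height hb hy
      rw [map_add, ha.2.2] at this
      omega
    rw [this, Finset.union_empty, lv]
  · have : (exits x a).filter (fun y => h y = i) = ∅ := by
      rw [Finset.filter_eq_empty_iff]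
      intro y hy
      have := mem_exits_height ha hy
      omega
    rw [this, Finset.empty_union, lv]

lemma upG_lev (h : Site d →+ ℤ) :
    (upG h).Lev (fun x i => (lv h 0 x.toList i : ℝ≥0∞)) := by
  intro j k a b ha hb i _
  rw [mem_upG] at ha hb
  beta_reduce
  rw [FreeMonoid.toList_mul, lv_append h 0 ha hb]
  simp only [map_zero, zero_add, Nat.cast_lt]
  split_ifs with hi
  · rfl
  · have h1 := lv_add h 0 (dsp a.toList) b.toList ((i : ℤ) - j)
    rw [ha.2.2, zero_add, sub_add_cancel] at h1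
    rw [h1]
    congr 2
    omega

/-- Sum of the level statistics. -/
lemma sum_lv (h : Site d →+ ℤ) {k : ℕ} {l : List (Dir d)} (hl : l ∈ Up h k) (x : Site d) :
    ∑ i ∈ Finset.range k, lv h x l (h x + i) = (exits x l).card := by
  have : exits x l = (Finset.range k).biUnion
      (fun i => (exits x l).filter (fun y => h y = h x + (i : ℤ))) := by
    ext y
    simp only [Finset.mem_biUnion, Finset.mem_range, Finset.mem_filter]
    constructor
    · intro hy
      have := mem_exits_height hl hy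
      exact ⟨(h y - h x).toNat, by omega, hy, by omega⟩
    · rintro ⟨_, _, hy, _⟩
      exact hy
  conv_rhs => rw [this]
  rw [Finset.card_biUnion]
  · rfl
  · intro i _ j _ hij
    rw [Function.onFun, Finset.disjoint_left]
    intro y h1 h2
    simp only [Finset.mem_filter] at h1 h2
    omega

/-- Level statistic seen from the tip, on the opposite monoid. -/
lemma upG_op_lev (h : Site d →+ ℤ) :
    (upG h).op.Lev (fun x i =>
      (lv h (-dsp x.unop.toList) x.unop.toList (-1 - i) : ℝ≥0∞)) := by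
  intro j k a b ha hb i hi
  have ha' : a.unop.toList ∈ Up h j := mem_upG_op.1 ha
  have hb' : b.unop.toList ∈ Up h k := mem_upG_op.1 hb
  simp only [MulOpposite.unop_mul, FreeMonoid.toList_mul]
  rw [lv_append h _ hb' ha']
  rw [dsp_append, map_neg, map_add, ha'.2.2, hb'.2.2]
  by_cases hij : i < j
  · rw [if_neg (by omega), if_pos hij]
    congr 2
    abel
  · rw [if_pos (by omega), if_neg hij]
    have h1 := lv_add h (-dsp b.unop.toList) (-dsp a.unop.toList) b.unop.toList
      (-1 - ((i - j : ℕ) : ℤ))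
    rw [map_neg, ha'.2.2] at h1
    rw [← h1]
    congr 2
    · abel
    · omega

lemma sum_lv_tip (h : Site d →+ ℤ) {k : ℕ} {l : List (Dir d)} (hl : l ∈ Up h k) :
    ∑ i ∈ Finset.range k, lv h (-dsp l) l (-1 - i) = (exits 0 l).card := by
  rw [← card_exits_eq (-dsp l), ← sum_lv h hl, ← Finset.sum_range_reflect]
  refine Finset.sum_congr rfl fun i hi => ?_
  rw [Finset.mem_range] at hi
  rw [map_neg, hl.2.2]
  congr 1
  omega

/-! ### Total weights -/

lemma Up_free (h : Site d →+ ℤ) (k : ℕ) : Free (Up h k) := by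
  intro a ha b hb
  by_contra hb0
  have := hb.2.1 a b rfl hb0
  rw [ha.2.2] at this
  exact lt_irrefl _ this

section weights

variable (μ : Measure (Row d)) [IsProbabilityMeasure μ]

/-- Total weight of the upward paths of height `k`. -/
noncomputable def uu (h : Site d →+ ℤ) (k : ℕ) : ℝ≥0∞ := ∑' l : Up h k, wt μ l

omit [IsProbabilityMeasure μ] in
lemma upG_U (h : Site d →+ ℤ) (k : ℕ) : (upG h).U (fun x => wt μ x.toList) k = uu μ h k := by
  let e : (upG h).G k ≃ Up h k :=
    { toFun := fun x => ⟨x.1.toList, mem_upG.1 x.2⟩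
      invFun := fun x => ⟨FreeMonoid.ofList x.1, mem_upG.2 x.2⟩
      left_inv := fun _ => rfl
      right_inv := fun _ => rfl }
  exact e.tsum_eq (fun x : Up h k => wt μ x)

lemma uu_le_one (h : Site d →+ ℤ) (k : ℕ) : uu μ h k ≤ 1 := tsum_wt_le_one μ (Up_free h k)

omit [IsProbabilityMeasure μ] in
lemma le_uu {h : Site d →+ ℤ} {k : ℕ} {l : List (Dir d)} (hl : l ∈ Up h k) :
    wt μ l ≤ uu μ h k := ENNReal.le_tsum (f := fun l : Up h k => wt μ l) ⟨l, hl⟩

lemma uu_mul (h : Site d →+ ℤ) (j k : ℕ) : uu μ h j * uu μ h k ≤ uu μ h (j + k) := by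
  rw [uu, uu, ← ENNReal.tsum_mul_right]
  simp only [← ENNReal.tsum_mul_left]
  rw [← ENNReal.tsum_prod' (f := fun p : Up h j × Up h k => wt μ p.1 * wt μ p.2)]
  let φ : Up h j × Up h k → Up h (j + k) := fun p => ⟨p.1.1 ++ p.2.1, Up_append p.1.2 p.2.2⟩
  have hφ : Function.Injective φ := by
    rintro ⟨⟨a, ha⟩, ⟨b, hb⟩⟩ ⟨⟨a', ha'⟩, ⟨b', hb'⟩⟩ heq
    have heq' : a ++ b = a' ++ b' := congrArg Subtype.val heq
    obtain ⟨c, hc, h1, h2⟩ := Up_nest ha hb ha' heq' le_rfl
    rw [Nat.sub_self, Up_zero] at hc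
    subst hc
    simp only [List.append_nil] at h1
    simp only [List.nil_append] at h2
    subst h1 h2
    rfl
  calc ∑' p : Up h j × Up h k, wt μ p.1 * wt μ p.2
      = ∑' p : Up h j × Up h k, wt μ (φ p) := by
        refine tsum_congr fun p => ?_
        symm
        refine wt_append μ ?_
        have := exits_disjoint p.1.2 p.2.2 0
        rwa [zero_add] at this
    _ ≤ ∑' l : Up h (j + k), wt μ l :=
        ENNReal.tsum_comp_le_tsum_of_injective hφ (fun l : Up h (j + k) => wt μ l)

end weights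

end Vale.Agent.P147
end

section

open MeasureTheory
open scoped ENNReal

namespace Vale.Agent.P147

variable {d : ℕ}

/-- Pairs of lists of steps, with the product reversed in the first coordinate. -/
abbrev PM (d : ℕ) : Type := (FreeMonoid (Dir d))ᵐᵒᵖ × FreeMonoid (Dir d)

/-- First component as a list. -/
def PM.a (x : PM d) : List (Dir d) := x.1.unop.toList

/-- Second component as a list. -/
def PM.b (x : PM d) : List (Dir d) := x.2.toList

@[simp] lemma PM.a_one : (1 : PM d).a = [] := rfl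

@[simp] lemma PM.b_one : (1 : PM d).b = [] := rfl

@[simp] lemma PM.a_mul (x y : PM d) : (x * y).a = y.a ++ x.a := by
  simp [PM.a]

@[simp] lemma PM.b_mul (x y : PM d) : (x * y).b = x.b ++ y.b := by
  simp [PM.b]

/-- The grading of pairs: an upward path and a downward path of the same height. -/
def pairG (h : Site d →+ ℤ) : Grading (PM d) := (upG h).op.prod (upG (-h))

lemma mem_pairG {h : Site d →+ ℤ} {k : ℕ} {x : PM d} :
    x ∈ (pairG h).G k ↔ x.a ∈ Up h k ∧ x.b ∈ Up (-h) k := by
  simp only [pairG, Grading.prod, Set.mem_ofPred_eq, mem_upG, mem_upG_op]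
  rfl

/-- Displacement of a pair. -/
def PM.disp (x : PM d) : Site d := dsp x.a + dsp x.b

@[simp] lemma PM.disp_mul (x y : PM d) : (x * y).disp = x.disp + y.disp := by
  simp only [PM.disp, PM.a_mul, PM.b_mul, dsp_append]
  abel

lemma h_disp {h : Site d →+ ℤ} {k : ℕ} {x : PM d} (hx : x ∈ (pairG h).G k) : h x.disp = 0 := by
  rw [mem_pairG] at hx
  have h1 := hx.1.2.2
  have h2 := hx.2.2.2
  simp only [AddMonoidHom.neg_apply] at h2
  rw [PM.disp, map_add]
  linarith

/-- The pair avoids itself when the second path starts at `z` (and the first ends at the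
origin). -/
def Dj (z : Site d) (x : PM d) : Prop := Disjoint (exits (-dsp x.a) x.a) (exits z x.b)

lemma Dj_one (z : Site d) : Dj z (1 : PM d) := by simp only [Dj, PM.a_one, dsp_nil, neg_zero, exits_nil, PM.b_one, disjoint_self, Finset.bot_eq_empty]

lemma Dj_mul {h : Site d →+ ℤ} {z : Site d} (hz : h z = -1) {j k : ℕ} {x y : PM d}
    (hx : x ∈ (pairG h).G j) (hy : y ∈ (pairG h).G k) :
    Dj z (x * y) ↔ Dj z x ∧ Dj (z + x.disp) y := by
  rw [mem_pairG] at hx hy
  have e1 : exits (-dsp (x * y).a) (x * y).a =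
      exits (-dsp x.a - dsp y.a) y.a ∪ exits (-dsp x.a) x.a := by
    rw [PM.a_mul, exits_append, dsp_append]
    congr 2
    · abel
    · abel
  have e2 : exits z (x * y).b = exits z x.b ∪ exits (z + dsp x.b) y.b := by
    rw [PM.b_mul, exits_append]
  have hxa := hx.1.2.2
  have hya := hy.1.2.2
  have hxb := hx.2.2.2
  have hyb := hy.2.2.2
  simp only [AddMonoidHom.neg_apply] at hxb hyb
  have c1 : Disjoint (exits (-dsp x.a - dsp y.a) y.a) (exits z x.b) := by
    rw [Finset.disjoint_left]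
    intro w h1 h2
    have h3 := mem_exits_height hy.1 h1
    have h4 := mem_exits_height hx.2 h2
    simp only [map_sub, map_neg, AddMonoidHom.neg_apply] at h3 h4
    omega
  have c2 : Disjoint (exits (-dsp x.a) x.a) (exits (z + dsp x.b) y.b) := by
    rw [Finset.disjoint_left]
    intro w h1 h2
    have h3 := mem_exits_height hx.1 h1
    have h4 := mem_exits_height hy.2 h2
    simp only [map_neg, map_add, AddMonoidHom.neg_apply] at h3 h4
    omega
  have e3 : Disjoint (exits (-dsp x.a - dsp y.a) y.a) (exits (z + dsp x.b) y.b) ↔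
      Dj (z + x.disp) y := by
    rw [Dj]
    have e4 : -dsp y.a = (-dsp x.a - dsp y.a) + dsp x.a := by abel
    have e5 : z + x.disp = (z + dsp x.b) + dsp x.a := by rw [PM.disp]; abel
    rw [e5, e4, exits_add (-dsp x.a - dsp y.a) (dsp x.a), exits_add (z + dsp x.b) (dsp x.a),
      Finset.disjoint_image (add_left_injective (dsp x.a))]
  rw [← e3, Dj, Dj, e1, e2, Finset.disjoint_union_left, Finset.disjoint_union_right,
    Finset.disjoint_union_right]
  (clear * - hx hy e3 c1 c2; tauto)

section weights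

variable (μ : Measure (Row d)) [IsProbabilityMeasure μ]

/-- Weight of a pair. -/
noncomputable def W2 (x : PM d) : ℝ≥0∞ := wt μ x.a * wt μ x.b

lemma pairG_mult (h : Site d →+ ℤ) : (pairG h).Mult (W2 μ) :=
  (upG_mult μ h).op.prod (upG_mult μ (-h))

omit [IsProbabilityMeasure μ] in
lemma pairG_U (h : Site d →+ ℤ) (k : ℕ) : (pairG h).U (W2 μ) k = uu μ h k * uu μ (-h) k := by
  have := Grading.U_prod (upG h).op (upG (-h)) (fun x => wt μ x.unop.toList)
    (fun x => wt μ x.toList) k
  rw [Grading.U_op (upG h) (fun x => wt μ x.toList), upG_U, upG_U] at this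
  exact this

open Classical in
/-- Total weight of the self-avoiding pairs of height `k`. -/
noncomputable def QQ (h : Site d →+ ℤ) (z : Site d) (k : ℕ) : ℝ≥0∞ :=
  ∑' x : (pairG h).G k, W2 μ x * (if Dj z (x : PM d) then 1 else 0)

lemma QQ_zero (h : Site d →+ ℤ) (z : Site d) : QQ μ h z 0 = 1 := by
  classical
  rw [QQ, (pairG h).G_zero]
  rw [tsum_singleton (1 : PM d) (fun x => W2 μ x * (if Dj z x then 1 else 0))]
  simp [W2, Dj_one]

open Classical in
lemma QQ_succ {h : Site d →+ ℤ} {z : Site d} (hz : h z = -1) {k : ℕ} (hk : 0 < k) :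
    QQ μ h z k = ∑ j ∈ Finset.Icc 1 k, ∑' x : (pairG h).I j,
      W2 μ x * ((if Dj z (x : PM d) then 1 else 0) * QQ μ h (z + (x : PM d).disp) (k - j)) := by
  rw [QQ, Grading.tsum_mul_eq (pairG_mult μ h) hk (fun x => if Dj z (x : PM d) then 1 else 0)]
  refine Finset.sum_congr rfl fun j _ => tsum_congr fun x => ?_
  congr 1
  rw [QQ, ← ENNReal.tsum_mul_left]
  refine tsum_congr fun y => ?_
  have := Dj_mul hz x.2.1 y.2
  by_cases h1 : Dj z (x : PM d) <;> by_cases h2 : Dj (z + (x : PM d).disp) (y : PM d) <;>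
    simp [this, h1, h2]

/-! ### The turning inequality -/

omit [IsProbabilityMeasure μ] in
lemma first_passage {h : Site d →+ ℤ} {k : ℕ} {a a' x y : List (Dir d)} (ha : a ∈ Up h k)
    (ha' : a' ∈ Up h k) (hxy : a ++ x = a' ++ y) : a = a' ∧ x = y := by
  rcases List.append_eq_append_iff.1 hxy with ⟨c, h1, h2⟩ | ⟨c, h1, h2⟩
  · by_cases hc : c = []
    · subst hc
      simp only [List.append_nil] at h1
      simp only [List.nil_append] at h2
      exact ⟨h1.symm, h2⟩
    · have := ha'.2.1 a c h1 hc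
      rw [ha.2.2] at this
      exact absurd this (lt_irrefl _)
  · by_cases hc : c = []
    · subst hc
      simp only [List.append_nil] at h1
      simp only [List.nil_append] at h2
      exact ⟨h1, h2.symm⟩
    · have := ha.2.1 a' c h1 hc
      rw [ha'.2.2] at this
      exact absurd this (lt_irrefl _)

lemma exists_max (h : Site d →+ ℤ) (c : List (Dir d)) :
    ∃ c₁ c₂, c = c₁ ++ c₂ ∧ ∀ a b, c = a ++ b → h (dsp a) ≤ h (dsp c₁) := by
  obtain ⟨n, _, hmax⟩ := Finset.exists_max_image (Finset.range (c.length + 1))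
    (fun n => h (dsp (c.take n))) ⟨0, by simp only [Finset.mem_range, lt_add_iff_pos_left, Order.lt_add_one_iff, zero_le]⟩
  refine ⟨c.take n, c.drop n, by simp, fun a b hab => ?_⟩
  have h1 := hmax a.length (by
    rw [hab]; simp only [List.length_append, Finset.mem_range, Order.lt_add_one_iff, le_add_iff_nonneg_right, zero_le])
  have h2 : c.take a.length = a := by rw [hab]; simp
  beta_reduce at h1
  rwa [h2] at h1

lemma turn_inj {h : Site d →+ ℤ} {c : List (Dir d)} (hz : h (dsp c) = -1) {k k' : ℕ} {x x' : PM d}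
    (hx : x ∈ (pairG h).G k) (hx' : x' ∈ (pairG h).G k')
    (heq : x.a ++ (c ++ x.b) = x'.a ++ (c ++ x'.b)) (hle : k ≤ k') : k = k' := by
  rw [mem_pairG] at hx hx'
  obtain ⟨c₁, c₂, hc, hmax⟩ := exists_max h c
  by_contra hne
  have hlt : k < k' := lt_of_le_of_ne hle hne
  have hH : 0 ≤ h (dsp c₁) := by
    have := hmax [] c rfl
    simpa only [ge_iff_le, dsp_nil, map_zero] using this
  -- heights in the first path
  have h1 : ∀ e f, x.a ++ (c ++ x.b) = e ++ f → h (dsp e) ≤ k + h (dsp c₁) := by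
    intro e f hef
    rcases List.append_eq_append_iff.1 hef with ⟨e', rfl, h2⟩ | ⟨e', h2, h3⟩
    · rw [dsp_append, map_add, hx.1.2.2]
      rcases List.append_eq_append_iff.1 h2 with ⟨e'', rfl, h4⟩ | ⟨e'', h4, h5⟩
      · rw [dsp_append, map_add, hz]
        have h6 := hx.2.1 e'' f h4
        simp only [AddMonoidHom.neg_apply] at h6
        linarith only [hH, h6]
      · have := hmax e' e'' h4
        linarith only [this]
    · by_cases he : e' = []
      · subst he
        simp only [List.append_nil] at h2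
        rw [← h2, hx.1.2.2]
        linarith only [hH]
      · have := hx.1.2.1 e e' h2 he
        linarith only [hH, this]
  have h2 := h1 (x'.a ++ c₁) (c₂ ++ x'.b) (by rw [heq, hc]; simp)
  rw [dsp_append, map_add, hx'.1.2.2] at h2
  omega

lemma turn_wt {h : Site d →+ ℤ} {c : List (Dir d)} (hz : h (dsp c) = -1)
    (hc : ∀ a b, c = a ++ b → b ≠ [] → 0 ≤ h (dsp a)) {k : ℕ} {x : PM d}
    (hx : x ∈ (pairG h).G k) (hD : Dj (dsp c) x) :
    wt μ (x.a ++ (c ++ x.b)) = wt μ c * W2 μ x := by
  rw [mem_pairG] at hx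
  have hxa := hx.1.2.2
  have hcx : ∀ w ∈ exits (0 : Site d) c, 0 ≤ h w := by
    intro w hw
    obtain ⟨a, b, hab, hb, rfl⟩ := mem_exits.1 hw
    rw [zero_add]
    exact hc a b hab hb
  rw [wt_append, wt_append, W2]
  · ring
  · rw [Finset.disjoint_left]
    intro w h1 h2
    have h3 := hcx w h1
    have h4 := mem_exits_height hx.2 h2
    simp only [AddMonoidHom.neg_apply] at h4
    omega
  · rw [exits_append, Finset.disjoint_union_right]
    constructor
    · rw [Finset.disjoint_left]
      intro w h1 h2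
      have h3 := mem_exits_height hx.1 h1
      rw [show dsp x.a = 0 + dsp x.a by simp, exits_add, Finset.mem_image] at h2
      obtain ⟨v, hv, rfl⟩ := h2
      have h4 := hcx v hv
      rw [map_add] at h3
      simp only [map_zero] at h3
      omega
    · rw [Dj] at hD
      have e1 : (0 : Site d) = -dsp x.a + dsp x.a := by abel
      have e2 : dsp x.a + dsp c = dsp c + dsp x.a := by abel
      rw [e2, e1, exits_add, exits_add (dsp c), Finset.disjoint_image
        (add_left_injective (dsp x.a))]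
      exact hD

/-- The turning inequality. -/
theorem turning {h : Site d →+ ℤ} {c : List (Dir d)} (hz : h (dsp c) = -1)
    (hc : ∀ a b, c = a ++ b → b ≠ [] → 0 ≤ h (dsp a)) :
    wt μ c * ∑' k, QQ μ h (dsp c) k ≤ 1 := by
  classical
  let T0 : Set (Σ k, (pairG h).G k) := {p | Dj (dsp c) (p.2 : PM d)}
  let F : T0 → List (Dir d) := fun p => (p.1.2 : PM d).a ++ (c ++ (p.1.2 : PM d).b)
  have hF : Function.Injective F := by
    have key : ∀ p q : T0, p.1.1 ≤ q.1.1 → F p = F q → p = q := by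
      rintro ⟨⟨k, x, hx⟩, hp⟩ ⟨⟨k', x', hx'⟩, hq⟩ hle heq
      simp only [F] at heq hle
      have hk := turn_inj hz hx hx' heq hle
      subst hk
      have hx2 := mem_pairG.1 hx
      have hx2' := mem_pairG.1 hx'
      obtain ⟨h1, h2⟩ := first_passage hx2.1 hx2'.1 heq
      have h3 := List.append_cancel_left h2
      have hxx : x = x' := by
        apply Prod.ext
        · apply MulOpposite.unop_injective
          exact FreeMonoid.toList.injective h1
        · exact FreeMonoid.toList.injective h3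
      subst hxx
      rfl
    intro p q hpq
    rcases le_total p.1.1 q.1.1 with hle | hle
    · exact key p q hle hpq
    · exact (key q p hle hpq.symm).symm
  have hfree : Free (Set.range F) := by
    rintro _ ⟨⟨⟨k, x, hx⟩, hp⟩, rfl⟩ e ⟨⟨⟨k', x', hx'⟩, hq⟩, heq⟩
    simp only [F] at heq
    by_contra he
    have hx2 := mem_pairG.1 hx
    have hx2' := mem_pairG.1 hx'
    -- total height is -1
    have h1 : h (dsp (x.a ++ (c ++ x.b))) = -1 := by
      have h2 := hx2.2.2.2
      simp only [AddMonoidHom.neg_apply] at h2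
      rw [dsp_append, dsp_append, map_add, map_add, hx2.1.2.2, hz]
      linarith only [h2]
    -- heights before the end are nonnegative
    have h3 : ∀ f g, x'.a ++ (c ++ x'.b) = f ++ g → g ≠ [] → 0 ≤ h (dsp f) := by
      intro f g hfg hg
      rcases List.append_eq_append_iff.1 hfg with ⟨f', rfl, h4⟩ | ⟨f', h4, h5⟩
      · rw [dsp_append, map_add, hx2'.1.2.2]
        rcases List.append_eq_append_iff.1 h4 with ⟨f'', rfl, h6⟩ | ⟨f'', h6, h7⟩
        · rw [dsp_append, map_add, hz]
          have h8 := hx2'.2.2.1 f'' g h6 hg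
          simp only [AddMonoidHom.neg_apply] at h8
          linarith only [h8]
        · by_cases hf : f'' = []
          · subst hf
            simp only [List.append_nil] at h6
            rw [← h6, hz]
            simp only [List.nil_append] at h7
            have h8 := hx2'.2.2.1 [] x'.b rfl (by rw [← h7]; exact hg)
            simp only [dsp_nil, map_zero] at h8
            linarith only [h8]
          · have := hc f' f'' h6 hf
            (clear * - this; positivity)
      · exact hx2'.1.1 f f' h4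
    have h4 := h3 _ e heq he
    rw [h1] at h4
    norm_num at h4
  calc wt μ c * ∑' k, QQ μ h (dsp c) k
      = ∑' p : (Σ k, (pairG h).G k), wt μ c * (W2 μ p.2 *
          (if Dj (dsp c) (p.2 : PM d) then 1 else 0)) := by
        rw [ENNReal.tsum_mul_left, ENNReal.tsum_sigma']
        rfl
    _ = ∑' p : (Σ k, (pairG h).G k), T0.indicator (fun p => wt μ c * W2 μ p.2) p := by
        refine tsum_congr fun p => ?_
        by_cases hp : Dj (dsp c) (p.2 : PM d)
        · rw [Set.indicator_of_mem (show p ∈ T0 from hp), if_pos hp, mul_one]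
        · rw [Set.indicator_of_notMem (show p ∉ T0 from hp), if_neg hp, mul_zero, mul_zero]
    _ = ∑' p : T0, wt μ c * W2 μ p.1.2 :=
        (tsum_subtype T0 (fun p : (Σ k, (pairG h).G k) => wt μ c * W2 μ p.2)).symm
    _ = ∑' p : T0, wt μ (F p) := by
        refine tsum_congr fun p => ?_
        rw [turn_wt μ hz hc p.1.2.2 p.2]
    _ = ∑' p : T0, (fun l : Set.range F => wt μ l) ⟨F p, p, rfl⟩ := rfl
    _ ≤ ∑' l : Set.range F, wt μ l := by
        refine ENNReal.tsum_comp_le_tsum_of_injective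
          (f := fun p : T0 => (⟨F p, p, rfl⟩ : Set.range F)) ?_ (fun l : Set.range F => wt μ l)
        intro p q hpq
        exact hF (congrArg Subtype.val hpq)
    _ ≤ 1 := tsum_wt_le_one μ hfree

end weights

end Vale.Agent.P147
end

section

open MeasureTheory
open scoped ENNReal

namespace Vale.Agent.P147

variable {d : ℕ}

/-- Irreducible pairs. -/
abbrev Irr (h : Site d →+ ℤ) : Type := Σ j, (pairG h).I j

section weights

variable (μ : Measure (Row d)) [IsProbabilityMeasure μ] (h : Site d →+ ℤ)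

open Classical in
/-- Transition kernel of the displacement between the tips, killed at contacts. -/
noncomputable def NK (z y : Site d) : ℝ≥0∞ :=
  ∑' p : Irr h, W2 μ p.2 * (if (h z = -1 → Dj z (p.2 : PM d)) ∧ y = z + (p.2 : PM d).disp
    then 1 else 0)

open Classical in
/-- The part of the kernel with contacts. -/
noncomputable def DK (z y : Site d) : ℝ≥0∞ :=
  ∑' p : Irr h, W2 μ p.2 * (if ¬ (h z = -1 → Dj z (p.2 : PM d)) ∧ y = z + (p.2 : PM d).disp
    then 1 else 0)

open Classical in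
/-- Law of the displacement of an irreducible pair. -/
noncomputable def kap : Cv (Site d) :=
  ⟨fun g => ∑' p : Irr h, W2 μ p.2 * (if g = (p.2 : PM d).disp then 1 else 0)⟩

omit [IsProbabilityMeasure μ] in
lemma NK_add_DK (z y : Site d) : NK μ h z y + DK μ h z y = (kap μ h).v (y - z) := by
  classical
  simp only [NK, DK, kap]
  rw [← ENNReal.tsum_add]
  refine tsum_congr fun p => ?_
  rw [← mul_add]
  congr 1
  have e : y = z + (p.2 : PM d).disp ↔ y - z = (p.2 : PM d).disp := by
    constructor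
    · rintro rfl; abel
    · intro hh; rw [← hh]; abel
  by_cases h2 : y - z = (p.2 : PM d).disp
  · by_cases h1 : (h z = -1 → Dj z (p.2 : PM d))
    · rw [if_pos ⟨h1, e.2 h2⟩, if_neg (fun hh => hh.1 h1), if_pos h2, add_zero]
    · rw [if_neg (fun hh => h1 hh.1), if_pos ⟨h1, e.2 h2⟩, if_pos h2, zero_add]
  · rw [if_neg (fun hh => h2 (e.1 hh.2)), if_neg (fun hh => h2 (e.1 hh.2)), if_neg h2, add_zero]

omit [IsProbabilityMeasure μ] in
lemma mass_kap : (kap μ h).mass = ∑' j, (pairG h).f (W2 μ) j := by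
  classical
  simp only [Cv.mass, kap]
  rw [ENNReal.tsum_comm]
  rw [ENNReal.tsum_sigma' (fun p : Irr h =>
    ∑' g, W2 μ p.2 * (if g = (p.2 : PM d).disp then 1 else 0))]
  refine tsum_congr fun j => ?_
  rw [Grading.f]
  refine tsum_congr fun x => ?_
  rw [ENNReal.tsum_mul_left, tsum_eq_single (x : PM d).disp]
  · simp only [↓reduceIte, mul_one]
  · intro g hg
    rw [if_neg hg]

open Classical in
omit [IsProbabilityMeasure μ] in
lemma act_NK (f : Site d → ℝ≥0∞) (z : Site d) :
    act (NK μ h) f z = ∑' p : Irr h, W2 μ p.2 *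
      (if (h z = -1 → Dj z (p.2 : PM d)) then f (z + (p.2 : PM d).disp) else 0) := by
  simp only [act, NK, ← ENNReal.tsum_mul_right]
  rw [ENNReal.tsum_comm]
  refine tsum_congr fun p => ?_
  rw [tsum_eq_single (z + (p.2 : PM d).disp)]
  · by_cases h1 : (h z = -1 → Dj z (p.2 : PM d))
    · rw [if_pos ⟨h1, rfl⟩, if_pos h1, mul_one]
    · rw [if_neg (fun hh => h1 hh.1), if_neg h1]
      simp
  · intro y hy
    rw [if_neg (fun hh => hy hh.2)]
    simp

/-- General comparison: a supersolution dominates the Green function. -/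
lemma tsum_iter_le {S : Type*} {N : S → S → ℝ≥0∞} {s : S → ℝ≥0∞} (hs : ∀ z, 1 + act N s z ≤ s z)
    (z : S) : ∑' i : ℕ, ((act N)^[i] 1) z ≤ s z := by
  have key : ∀ n : ℕ, ∀ z, ∑ i ∈ Finset.range n, ((act N)^[i] 1) z ≤ s z := by
    intro n
    induction n with
    | zero => intro z; simp only [Finset.range_zero, Finset.sum_empty, zero_le]
    | succ n ih =>
      intro z
      rw [Finset.sum_range_succ', add_comm]
      refine le_trans ?_ (hs z)
      refine add_le_add (by simp) ?_
      have : ∀ i, ((act N)^[i + 1] 1) z = ∑' y, N z y * ((act N)^[i] 1) y := by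
        intro i
        rw [Function.iterate_succ_apply']
        rfl
      simp only [this]
      rw [← Summable.tsum_finsetSum fun _ _ => ENNReal.summable]
      refine ENNReal.tsum_le_tsum fun y => ?_
      rw [← Finset.mul_sum]
      exact mul_le_mul' le_rfl (ih y)
  rw [ENNReal.tsum_eq_iSup_nat]
  exact iSup_le fun n => key n z

open Classical in
/-- The Green function of the killed kernel is bounded by the total weight of pairs. -/
theorem green_le {z : Site d} (hz : h z = -1) :
    ∑' i : ℕ, ((act (NK μ h))^[i] 1) z ≤ ∑' k, QQ μ h z k := by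
  let s : Site d → ℝ≥0∞ := fun z => if h z = -1 then ∑' k, QQ μ h z k else ∞
  have hs : ∀ z, 1 + act (NK μ h) s z ≤ s z := by
    intro z
    by_cases hz : h z = -1
    · have e1 : s z = ∑' k, QQ μ h z k := if_pos hz
      rw [e1]
      have e2 : ∑' k, QQ μ h z k = QQ μ h z 0 + ∑' k, QQ μ h z (k + 1) :=
        tsum_eq_zero_add' (f := fun k => QQ μ h z k) ENNReal.summable
      rw [e2, QQ_zero]
      gcongr
      rw [act_NK, ENNReal.tsum_sigma']
      let F : ℕ → ℕ → ℝ≥0∞ := fun j m => ∑' x : (pairG h).I j,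
        W2 μ x * ((if Dj z (x : PM d) then 1 else 0) * QQ μ h (z + (x : PM d).disp) m)
      have h1 : ∀ j, ∑' x : (pairG h).I j, W2 μ x *
          (if (h z = -1 → Dj z (x : PM d)) then s (z + (x : PM d).disp) else 0) =
          ∑' m, F j m := by
        intro j
        simp only [F]
        rw [ENNReal.tsum_comm]
        refine tsum_congr fun x => ?_
        rw [ENNReal.tsum_mul_left, ENNReal.tsum_mul_left]
        congr 1
        have h2 : h (z + (x : PM d).disp) = -1 := by
          rw [map_add, h_disp x.2.1, hz]; rfl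
        have e3 : s (z + (x : PM d).disp) = ∑' k, QQ μ h (z + (x : PM d).disp) k := if_pos h2
        by_cases hD : Dj z (x : PM d)
        · simp only [Int.reduceNeg, hD, implies_true, ↓reduceIte, e3, one_mul]
        · simp [hD, hz]
      simp only [h1]
      have h2 : ∀ k, QQ μ h z (k + 1) =
          ∑' j, (if 1 ≤ j ∧ j ≤ k + 1 then F j (k + 1 - j) else 0) := by
        intro k
        rw [QQ_succ μ hz (Nat.succ_pos k)]
        rw [tsum_eq_sum (s := Finset.Icc 1 (k + 1))]
        · refine Finset.sum_congr rfl fun j hj => ?_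
          rw [Finset.mem_Icc] at hj
          rw [if_pos hj]
        · intro j hj
          rw [Finset.mem_Icc] at hj
          rw [if_neg hj]
      simp only [h2]
      conv_rhs => rw [ENNReal.tsum_comm]
      refine ENNReal.tsum_le_tsum fun j => ?_
      rcases Nat.eq_zero_or_pos j with rfl | hj
      · have : ∀ m, F 0 m = 0 := by
          intro m
          simp only [F]
          rw [(pairG h).I_zero]
          simp only [ite_mul, one_mul, zero_mul, mul_ite, mul_zero, tsum_empty]
        simp only [this, tsum_zero, nonpos_iff_eq_zero, one_ne_zero, le_add_iff_nonneg_left, zero_le, and_true, ↓reduceIte, Std.le_refl]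
      · calc ∑' m, F j m
            = ∑' m, (fun k => if 1 ≤ j ∧ j ≤ k + 1 then F j (k + 1 - j) else 0) (m + j - 1) := by
              refine tsum_congr fun m => ?_
              have e : m + j - 1 + 1 = m + j := by omega
              beta_reduce
              rw [e, if_pos ⟨hj, by omega⟩, Nat.add_sub_cancel]
          _ ≤ _ := ENNReal.tsum_comp_le_tsum_of_injective
              (f := fun m => m + j - 1) (by intro a b hab; simp only at hab; omega)
              (fun k => if 1 ≤ j ∧ j ≤ k + 1 then F j (k + 1 - j) else 0)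
    · have e1 : s z = ∞ := if_neg hz
      rw [e1]
      exact le_top
  have h3 := tsum_iter_le hs z
  have e1 : s z = ∑' k, QQ μ h z k := if_pos hz
  rwa [e1] at h3

/-! ### Contacts are rare -/

/-- Level statistic of pairs. -/
noncomputable def lev2 (x : PM d) (i : ℕ) : ℝ≥0∞ :=
  (lv h (-dsp x.a) x.a (-1 - i) : ℝ≥0∞) * (lv (-h) 0 x.b i : ℝ≥0∞)

lemma lev2_lev : (pairG h).Lev (lev2 h) := by
  exact @Grading.Lev.prod _ _ _ _ (upG h).op (upG (-h)) _ _ (@upG_op_lev d h) (@upG_lev d (-h))

open Classical in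
lemma card_bad {j : ℕ} {x : PM d} (hx : x ∈ (pairG h).G j) :
    ∑' z : Site d, (if ¬ (h z = -1 → Dj z x) then (1 : ℝ≥0∞) else 0) ≤
      ∑ i ∈ Finset.range j, lev2 h x i := by
  rw [mem_pairG] at hx
  let A : ℕ → Finset (Site d) := fun i =>
    (exits (-dsp x.a) x.a).filter (fun y => h y = -1 - (i : ℤ))
  let B : ℕ → Finset (Site d) := fun i => (exits 0 x.b).filter (fun y => (-h) y = (i : ℤ))
  let T : Finset (Site d) := (Finset.range j).biUnion
    (fun i => (A i ×ˢ B i).image (fun p => p.1 - p.2))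
  have hT : ∀ z, ¬ (h z = -1 → Dj z x) → z ∈ T := by
    intro z hz
    push Not at hz
    obtain ⟨hz1, hz2⟩ := hz
    rw [Dj, Finset.not_disjoint_iff] at hz2
    obtain ⟨w, hw1, hw2⟩ := hz2
    have e : exits z x.b = (exits 0 x.b).image (· + z) := by
      rw [← exits_add, zero_add]
    rw [e, Finset.mem_image] at hw2
    obtain ⟨v, hv, rfl⟩ := hw2
    have h1 := mem_exits_height hx.2 hv
    simp only [map_zero, zero_add, AddMonoidHom.neg_apply] at h1
    simp only [T, Finset.mem_biUnion, Finset.mem_range, Finset.mem_image, Finset.mem_product]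
    refine ⟨(-h v).toNat, by omega, (v + z, v), ⟨?_, ?_⟩, by simp⟩
    · refine Finset.mem_filter.2 ⟨hw1, ?_⟩
      rw [map_add, hz1]
      omega
    · refine Finset.mem_filter.2 ⟨hv, ?_⟩
      rw [AddMonoidHom.neg_apply]
      change -h v = _
      omega
  calc ∑' z : Site d, (if ¬ (h z = -1 → Dj z x) then (1 : ℝ≥0∞) else 0)
      = ∑ z ∈ T, (if ¬ (h z = -1 → Dj z x) then (1 : ℝ≥0∞) else 0) := by
        refine tsum_eq_sum fun z hz => ?_
        rw [if_neg]
        intro hh
        exact hz (hT z hh)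
    _ ≤ ∑ z ∈ T, 1 := Finset.sum_le_sum fun z _ => by split_ifs <;> simp
    _ = (T.card : ℝ≥0∞) := by simp only [Finset.sum_const, nsmul_eq_mul, mul_one]
    _ ≤ ((∑ i ∈ Finset.range j, (A i).card * (B i).card : ℕ) : ℝ≥0∞) := by
        have : T.card ≤ ∑ i ∈ Finset.range j, (A i).card * (B i).card := by
          refine Finset.card_biUnion_le.trans (Finset.sum_le_sum fun i _ => ?_)
          refine Finset.card_image_le.trans ?_
          rw [Finset.card_product]
        exact_mod_cast this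
    _ = ∑ i ∈ Finset.range j, lev2 h x i := by
        push_cast
        rfl

open Classical in
omit [IsProbabilityMeasure μ] in
lemma tsum_DK_le : ∑' z, ∑' y, DK μ h z y ≤
    ∑' j, ∑' x : (pairG h).I j, W2 μ x * ∑ r ∈ Finset.range j, lev2 h x r := by
  have e1 : ∀ z, ∑' y, DK μ h z y =
      ∑' p : Irr h, W2 μ p.2 * (if ¬ (h z = -1 → Dj z (p.2 : PM d)) then 1 else 0) := by
    intro z
    simp only [DK]
    rw [ENNReal.tsum_comm]
    refine tsum_congr fun p => ?_
    rw [ENNReal.tsum_mul_left]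
    congr 1
    rw [tsum_eq_single (z + (p.2 : PM d).disp)]
    · by_cases h1 : (h z = -1 → Dj z (p.2 : PM d)) <;> simp [h1]
    · intro y hy
      rw [if_neg (fun hh => hy hh.2)]
  simp only [e1]
  rw [ENNReal.tsum_comm]
  rw [ENNReal.tsum_sigma' (fun p : Irr h => ∑' z, W2 μ p.2 *
    (if ¬ (h z = -1 → Dj z (p.2 : PM d)) then 1 else 0))]
  refine ENNReal.tsum_le_tsum fun j => ENNReal.tsum_le_tsum fun x => ?_
  rw [ENNReal.tsum_mul_left]
  gcongr
  exact card_bad h x.2.1

end weights

end Vale.Agent.P147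
end

section

open MeasureTheory
open scoped ENNReal

namespace Vale.Agent.P147

variable {d : ℕ}

/-- The step of coordinate `j` that leads from `x` towards `y`. -/
def toward (x y : Site d) (j : Fin d) : Dir d := (j, decide (x j < y j))

lemma vec_toward (x y : Site d) (j : Fin d) :
    (y j - x j).natAbs • vec (toward x y j) = Pi.single j (y j - x j) := by
  funext i
  rcases eq_or_ne i j with rfl | hij
  · simp only [vec, toward, Pi.smul_apply, Pi.single_eq_same]
    by_cases h : x i < y i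
    · simp only [h, decide_true, if_true, nsmul_eq_mul, mul_one]
      omega
    · simp only [h, decide_false, Bool.false_eq_true, if_false, nsmul_eq_mul]
      omega
  · simp only [vec, toward, decide_eq_true_eq, Int.reduceNeg, Pi.smul_apply, Pi.single_eq_of_ne hij, nsmul_zero]

lemma height_sub (h : Site d →+ ℤ) (x y : Site d) :
    h y - h x = ∑ j, ((y j - x j).natAbs : ℤ) * h (vec (toward x y j)) := by
  have e1 : y - x = ∑ j, Pi.single j (y j - x j) := by
    funext i
    simp only [Pi.sub_apply, Finset.sum_apply, Pi.single_apply, Finset.sum_ite_eq, Finset.mem_univ, ↓reduceIte]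
  rw [← map_sub, e1, map_sum]
  refine Finset.sum_congr rfl fun j _ => ?_
  rw [← vec_toward, map_nsmul, nsmul_eq_mul]

/-- The `ℓ¹` distance. -/
def dist1 (x y : Site d) : ℕ := ∑ j, (y j - x j).natAbs

lemma dist1_toward {x y : Site d} {i : Fin d} (hi : x i ≠ y i) :
    dist1 (x + vec (toward x y i)) y < dist1 x y := by
  refine Finset.sum_lt_sum (fun j _ => ?_) ⟨i, Finset.mem_univ i, ?_⟩
  · rcases eq_or_ne j i with rfl | hji
    · simp only [vec, toward, Pi.add_apply, Pi.single_eq_same]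
      by_cases h : x j < y j
      · simp only [h, decide_true, if_true]; omega
      · simp only [h, decide_false, Bool.false_eq_true, if_false]; omega
    · simp only [vec, toward, decide_eq_true_eq, Int.reduceNeg, Pi.add_apply, Pi.single_eq_of_ne hji, add_zero, Std.le_refl]
  · simp only [vec, toward, Pi.add_apply, Pi.single_eq_same]
    by_cases h : x i < y i
    · simp only [h, decide_true, if_true]; omega
    · simp only [h, decide_false, Bool.false_eq_true, if_false]; omega

lemma height_le_of_neg {h : Site d →+ ℤ} {x y : Site d}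
    (hall : ∀ j, x j ≠ y j → h (vec (toward x y j)) ≤ 0) {i : Fin d} (hi : x i ≠ y i) :
    h y ≤ h x + h (vec (toward x y i)) := by
  have h1 := height_sub h x y
  have h2 : ∑ j, ((y j - x j).natAbs : ℤ) * h (vec (toward x y j)) ≤
      h (vec (toward x y i)) := by
    rw [← Finset.add_sum_erase _ _ (Finset.mem_univ i)]
    have h3 : ∑ j ∈ Finset.univ.erase i, ((y j - x j).natAbs : ℤ) * h (vec (toward x y j)) ≤ 0 := by
      refine Finset.sum_nonpos fun j _ => ?_
      by_cases hj : x j = y j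
      · simp only [hj, sub_self, Int.natAbs_zero, CharP.cast_eq_zero, zero_mul, Std.le_refl]
      · exact mul_nonpos_of_nonneg_of_nonpos (by (clear * - hj; positivity)) (hall j hj)
    have h4 : ((y i - x i).natAbs : ℤ) * h (vec (toward x y i)) ≤ h (vec (toward x y i)) := by
      have h5 : (1 : ℤ) ≤ ((y i - x i).natAbs : ℤ) := by omega
      nlinarith only [h5, hall i hi]
    linarith only [h3, h4]
  linarith

lemma height_ge_of_pos {h : Site d →+ ℤ} {x y : Site d}
    (hall : ∀ j, x j ≠ y j → 0 ≤ h (vec (toward x y j))) {i : Fin d} (hi : x i ≠ y i) :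
    h x + h (vec (toward x y i)) ≤ h y := by
  have := height_le_of_neg (h := -h) (x := x) (y := y) (fun j hj => by
    simpa only [AddMonoidHom.neg_apply, Left.neg_nonpos_iff] using hall j hj) hi
  simp only [AddMonoidHom.neg_apply] at this
  linarith

/-- Existence of paths in slabs. -/
theorem exists_path (h : Site d →+ ℤ) {L B : ℤ} (hL : ∀ u : Dir d, |h (vec u)| ≤ L)
    (hB : 2 * L ≤ B) : ∀ (n : ℕ) (x y : Site d), dist1 x y = n → 0 ≤ h x → h x < B → 0 ≤ h y →
    h y < B → ∃ l : List (Dir d), x + dsp l = y ∧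
      ∀ a b, l = a ++ b → 0 ≤ h (x + dsp a) ∧ h (x + dsp a) < B := by
  intro n
  induction n using Nat.strong_induction_on with
  | _ n ih =>
    intro x y hn hx0 hxB hy0 hyB
    by_cases hxy : x = y
    · subst hxy
      refine ⟨[], by simp, fun a b hab => ?_⟩
      have := (List.append_eq_nil_iff.1 hab.symm).1
      subst this
      simp only [dsp_nil, add_zero]
      exact ⟨hx0, hxB⟩
    · obtain ⟨i₀, hi₀⟩ : ∃ i, x i ≠ y i := by
        by_contra hcon
        push Not at hcon
        exact hxy (funext hcon)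
      -- choose the step
      have hstep : ∃ i, x i ≠ y i ∧ 0 ≤ h (x + vec (toward x y i)) ∧
          h (x + vec (toward x y i)) < B := by
        simp only [map_add]
        by_cases hcase : h x < L
        · by_cases hex : ∃ i, x i ≠ y i ∧ 0 ≤ h (vec (toward x y i))
          · obtain ⟨i, hi, hpos⟩ := hex
            have := (abs_le.1 (hL (toward x y i))).2
            exact ⟨i, hi, by linarith only [hx0, hpos], by linarith only [hB, hcase, this]⟩
          · push Not at hex
            have h1 := height_le_of_neg (fun j hj => (hex j hj).le) hi₀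
            have h2 := hex i₀ hi₀
            exact ⟨i₀, hi₀, by linarith only [hy0, h1], by linarith only [hB, hy0, hcase, h1, h2]⟩
        · push Not at hcase
          by_cases hex : ∃ i, x i ≠ y i ∧ h (vec (toward x y i)) ≤ 0
          · obtain ⟨i, hi, hneg⟩ := hex
            have := (abs_le.1 (hL (toward x y i))).1
            exact ⟨i, hi, by linarith only [hcase, this], by linarith only [hxB, hneg]⟩
          · push Not at hex
            have h1 := height_ge_of_pos (fun j hj => (hex j hj).le) hi₀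
            have h2 := hex i₀ hi₀
            exact ⟨i₀, hi₀, by linarith only [hx0, h2], by linarith only [hyB, h1]⟩
      obtain ⟨i, hi, h0, h1⟩ := hstep
      obtain ⟨l, hl, hl2⟩ := ih _ (hn ▸ dist1_toward hi) (x + vec (toward x y i)) y rfl h0 h1
        hy0 hyB
      refine ⟨toward x y i :: l, by rw [dsp_cons, ← add_assoc]; exact hl, fun a b hab => ?_⟩
      cases a with
      | nil => simp only [dsp_nil, add_zero]; exact ⟨hx0, hxB⟩
      | cons u a =>
        simp only [List.cons_append, List.cons.injEq] at hab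
        obtain ⟨rfl, hab⟩ := hab
        rw [dsp_cons, ← add_assoc]
        exact hl2 a b hab

section consequences

variable {h : Site d →+ ℤ}

lemma vec_neg (i : Fin d) (s : Bool) : vec (i, !s) = -vec (i, s) := by
  funext j
  rcases eq_or_ne j i with rfl | hji
  · cases s <;> simp [vec]
  · simp only [vec, Bool.not_eq_eq_eq_not, Bool.not_true, Int.reduceNeg, Pi.single_eq_of_ne hji, Pi.neg_apply, neg_zero]

lemma exists_pos_step (hsurj : Function.Surjective h) : ∃ u : Dir d, 0 < h (vec u) := by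
  by_contra hcon
  push Not at hcon
  have h0 : ∀ u : Dir d, h (vec u) = 0 := by
    rintro ⟨i, s⟩
    have h1 := hcon (i, s)
    have h2 := hcon (i, !s)
    rw [vec_neg, map_neg] at h2
    linarith only [h2, h1]
  obtain ⟨y, hy⟩ := hsurj 1
  have := height_sub h 0 y
  simp only [hy, map_zero, sub_zero, Pi.zero_apply, Nat.cast_natAbs, Int.cast_abs, Int.cast_eq, h0, mul_zero, Finset.sum_const_zero, one_ne_zero] at this

lemma exists_neg_step (hsurj : Function.Surjective h) : ∃ u : Dir d, h (vec u) < 0 := by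
  obtain ⟨⟨i, s⟩, hu⟩ := exists_pos_step hsurj
  exact ⟨(i, !s), by rw [vec_neg, map_neg]; linarith⟩

/-- Extend a slab path by an upward step. -/
lemma slab_append {k : ℕ} {l : List (Dir d)} {u : Dir d}
    (hl : ∀ a b, l = a ++ b → 0 ≤ h (dsp a) ∧ h (dsp a) < k) (hend : h (dsp l) + h (vec u) = k) :
    l ++ [u] ∈ Up h k := by
  have hsplit : ∀ a b, l ++ [u] = a ++ b → b ≠ [] → ∃ c, l = a ++ c := by
    intro a b hab hb
    rcases List.append_eq_append_iff.1 hab with ⟨c, h1, h2⟩ | ⟨c, h1, h2⟩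
    · cases c with
      | nil => exact ⟨[], by simpa using h1.symm⟩
      | cons v c =>
        simp only [List.cons_append, List.cons.injEq] at h2
        have := (List.append_eq_nil_iff.1 h2.2.symm).2
        exact absurd this hb
    · exact ⟨c, h1⟩
  have htot : h (dsp (l ++ [u])) = k := by
    rw [dsp_append, map_add]; simpa only [dsp_cons, dsp_nil, add_zero] using hend
  refine ⟨fun a b hab => ?_, fun a b hab hb => ?_, htot⟩
  · by_cases hb : b = []
    · subst hb
      simp only [List.append_nil] at hab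
      rw [← hab, htot]
      (clear * -; positivity)
    · obtain ⟨c, hc⟩ := hsplit a b hab hb
      exact (hl a c hc).1
  · obtain ⟨c, hc⟩ := hsplit a b hab hb
    exact (hl a c hc).2

/-- Upward paths exist to every point of large height. -/
lemma exists_up (hsurj : Function.Surjective h) {L : ℕ} (hL : ∀ u : Dir d, |h (vec u)| ≤ L)
    {k : ℕ} (hk : 2 * L ≤ k) {y : Site d} (hy : h y = k) : ∃ l ∈ Up h k, dsp l = y := by
  obtain ⟨u, hu⟩ := exists_pos_step hsurj
  have hu2 := (abs_le.1 (hL u)).2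
  have h0 : 0 ≤ h (y - vec u) := by rw [map_sub]; omega
  have h1 : h (y - vec u) < k := by rw [map_sub]; omega
  obtain ⟨l, hl, hl2⟩ := exists_path h (B := (k : ℤ)) hL (by exact_mod_cast hk) _ 0 (y - vec u)
    rfl (by simp) (by rw [map_zero]; omega) h0 h1
  rw [zero_add] at hl
  refine ⟨l ++ [u], slab_append (fun a b hab => by simpa only [zero_add] using hl2 a b hab) ?_, ?_⟩
  · rw [hl, map_sub, hy]; ring
  · rw [dsp_append, hl]; simp

/-- Connections below the tip. -/
lemma exists_conn (hsurj : Function.Surjective h) {L : ℕ} (hL : ∀ u : Dir d, |h (vec u)| ≤ L)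
    {z : Site d} (hz : h z = -1) :
    ∃ c : List (Dir d), dsp c = z ∧ ∀ a b, c = a ++ b → b ≠ [] → 0 ≤ h (dsp a) := by
  obtain ⟨u, hu⟩ := exists_neg_step hsurj
  have h0 : 0 ≤ h (z - vec u) := by rw [map_sub]; omega
  obtain ⟨l, hl, hl2⟩ := exists_path h (B := 2 * L + h (z - vec u) + 1) hL (by linarith only [h0]) _ 0
    (z - vec u) rfl (by simp) (by rw [map_zero]; (clear * - h0; positivity)) h0 (by
      have : (0 : ℤ) ≤ L := by positivity
      linarith only [])
  rw [zero_add] at hl
  refine ⟨l ++ [u], by rw [dsp_append, hl]; simp, fun a b hab hb => ?_⟩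
  rcases List.append_eq_append_iff.1 hab with ⟨c, h1, h2⟩ | ⟨c, h1, h2⟩
  · cases c with
    | nil =>
      have := (hl2 a [] (by simpa using h1.symm)).1
      simpa only [ge_iff_le, zero_add] using this
    | cons v c =>
      simp only [List.cons_append, List.cons.injEq] at h2
      have := (List.append_eq_nil_iff.1 h2.2.symm).2
      exact absurd this hb
  · have := (hl2 a c h1).1
    simpa only [ge_iff_le, zero_add] using this

/-- Upward paths without interior cut levels. -/
lemma exists_irr (hsurj : Function.Surjective h) {L : ℕ} (hL : ∀ u : Dir d, |h (vec u)| ≤ L)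
    {k : ℕ} (hk : 2 * L ≤ k) (hk0 : 0 < k) : ∃ l ∈ Up h k, ∀ j, 0 < j → j < k →
      ∀ a ∈ Up h j, ∀ b ∈ Up h (k - j), l ≠ a ++ b := by
  obtain ⟨y₁, hy₁⟩ := hsurj (k - 1)
  obtain ⟨y₂, hy₂⟩ := hsurj k
  have hkZ : (2 * L : ℤ) ≤ k := by exact_mod_cast hk
  have hk0Z : (0 : ℤ) < k := by exact_mod_cast hk0
  obtain ⟨b₁, hb₁, hs₁⟩ := exists_path h (B := (k : ℤ)) hL hkZ _ 0 y₁ rfl (by simp)
    (by rw [map_zero]; exact hk0Z) (by rw [hy₁]; linarith only [hk0]) (by rw [hy₁]; linarith only [])
  obtain ⟨b₂, hb₂, hs₂⟩ := exists_path h (B := (k : ℤ)) hL hkZ _ y₁ 0 rfl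
    (by rw [hy₁]; linarith only [hk0]) (by rw [hy₁]; linarith only []) (by simp) (by rw [map_zero]; exact hk0Z)
  obtain ⟨b₃, hb₃, hd₃⟩ := exists_up hsurj hL hk hy₂
  rw [zero_add] at hb₁
  have hloop : dsp (b₁ ++ b₂) = 0 := by rw [dsp_append, hb₁, hb₂]
  refine ⟨(b₁ ++ b₂) ++ b₃, ⟨fun a b hab => ?_, fun a b hab hb => ?_, ?_⟩, ?_⟩
  · rcases List.append_eq_append_iff.1 hab with ⟨c, rfl, h2⟩ | ⟨c, h1, h2⟩
    · rw [dsp_append, hloop, zero_add]
      exact hb₃.1 c b h2
    · rcases List.append_eq_append_iff.1 h1 with ⟨e, rfl, h4⟩ | ⟨e, h4, h5⟩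
      · rw [dsp_append, hb₁]
        exact (hs₂ e c h4).1
      · simpa only [zero_add] using (hs₁ a e h4).1
  · rcases List.append_eq_append_iff.1 hab with ⟨c, rfl, h2⟩ | ⟨c, h1, h2⟩
    · rw [dsp_append, hloop, zero_add]
      exact hb₃.2.1 c b h2 hb
    · rcases List.append_eq_append_iff.1 h1 with ⟨e, rfl, h4⟩ | ⟨e, h4, h5⟩
      · rw [dsp_append, hb₁]
        exact (hs₂ e c h4).2
      · simpa only [zero_add] using (hs₁ a e h4).2
  · rw [dsp_append, hloop, zero_add, hd₃, hy₂]
  · intro j hj0 hjk a ha b hb hab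
    have hjkZ : (j : ℤ) < k := by exact_mod_cast hjk
    have hj0Z : (0 : ℤ) < j := by exact_mod_cast hj0
    rcases List.append_eq_append_iff.1 hab with ⟨c, h1, h2⟩ | ⟨c, h1, h2⟩
    · -- the loop is an initial part of `a`
      by_cases hc : b₂ ++ c = []
      · obtain ⟨hb2, rfl⟩ := List.append_eq_nil_iff.1 hc
        simp only [List.append_nil] at h1
        have := ha.2.2
        rw [h1, hloop, map_zero] at this
        omega
      · have h3 := ha.2.1 b₁ (b₂ ++ c) (by rw [h1]; simp) hc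
        rw [hb₁, hy₁] at h3
        omega
    · -- `a` is an initial part of the loop
      have h3 := hb.1 c b₃ h2
      have h4 : h (dsp (b₁ ++ b₂)) = 0 := by rw [hloop]; simp only [map_zero]
      rw [h1, dsp_append, map_add, ha.2.2] at h4
      omega

end consequences

/-- Two independent level displacements. -/
lemma exists_indep (hd : 3 ≤ d) {h : Site d →+ ℤ} (hsurj : Function.Surjective h) :
    ∃ g₁ g₂ : Site d, h g₁ = 0 ∧ h g₂ = 0 ∧
      ∀ a b a' b' : ℕ, a • g₁ + b • g₂ = a' • g₁ + b' • g₂ → a = a' ∧ b = b' := by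
  obtain ⟨⟨i, s⟩, hu⟩ := exists_pos_step hsurj
  set c : Fin d → ℤ := fun j => h (Pi.single j 1) with hc
  have hci : c i ≠ 0 := by
    intro h0
    cases s with
    | true =>
      have : vec (i, true) = (Pi.single i 1 : Site d) := by simp [vec]
      rw [this] at hu
      simp only [hc] at h0
      omega
    | false =>
      have : vec (i, false) = -(Pi.single i 1 : Site d) := by
        rw [show (i, false) = (i, !true) by rfl, vec_neg]
        simp [vec]
      rw [this, map_neg] at hu
      simp only [hc] at h0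
      omega
  obtain ⟨j, k, hji, hki, hjk⟩ : ∃ j k : Fin d, j ≠ i ∧ k ≠ i ∧ j ≠ k := by
    have hcard : 2 ≤ ((Finset.univ : Finset (Fin d)).erase i).card := by
      rw [Finset.card_erase_of_mem (Finset.mem_univ i)]
      simp only [Finset.card_univ, Fintype.card_fin]
      omega
    obtain ⟨j, hj, k, hk, hjk⟩ := Finset.one_lt_card.1 hcard
    exact ⟨j, k, Finset.ne_of_mem_erase hj, Finset.ne_of_mem_erase hk, hjk⟩
  have hker : ∀ j, h (c i • (Pi.single j 1 : Site d) - c j • (Pi.single i 1 : Site d)) = 0 := by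
    intro j
    rw [map_sub, map_zsmul, map_zsmul]
    simp only [hc, smul_eq_mul]
    ring
  refine ⟨c i • Pi.single j 1 - c j • Pi.single i 1, c i • Pi.single k 1 - c k • Pi.single i 1,
    hker j, hker k, ?_⟩
  intro a b a' b' heq
  have h1 := congrFun heq j
  have h2 := congrFun heq k
  simp only [Pi.add_apply, Pi.smul_apply, Pi.sub_apply, Pi.single_eq_same,
    Pi.single_eq_of_ne hji, Pi.single_eq_of_ne hjk, Pi.single_eq_of_ne hki,
    Pi.single_eq_of_ne hjk.symm, smul_eq_mul, mul_one, mul_zero, sub_zero, sub_self,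
    smul_zero, add_zero, zero_add] at h1 h2
  simp only [nsmul_eq_mul] at h1 h2
  constructor
  · have := mul_right_cancel₀ hci h1
    exact_mod_cast this
  · have := mul_right_cancel₀ hci h2
    exact_mod_cast this

end Vale.Agent.P147
end
end
end

section

section

set_option linter.all false

section

open MeasureTheory
open scoped ENNReal

namespace Vale.Agent.P147

variable {d : ℕ}

section

variable (μ : Measure (Row d))

/-- With non negligible weight there are upward paths with linearly many sites. -/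
def Lin (h : Site d →+ ℤ) : Prop :=
  ∃ c₀ : ℝ≥0∞, c₀ ≠ 0 ∧ ∃ L C s₀ : ℕ, 0 < C ∧ ∀ s, s₀ ≤ s →
    c₀ ≤ ∑ o ∈ Finset.range L, ∑' l : Up h (s + o),
      wt μ l * (if (exits 0 (l : List (Dir d))).card ≤ C * s then 1 else 0)

lemma Lin.weak {h : Site d →+ ℤ} (hl : Lin μ h) : ∃ c₀ : ℝ≥0∞, c₀ ≠ 0 ∧ ∃ L s₀ : ℕ,
    ∀ s, s₀ ≤ s → c₀ ≤ ∑ o ∈ Finset.range L, uu μ h (s + o) := by
  obtain ⟨c₀, hc, L, C, s₀, hC, hI⟩ := hl
  refine ⟨c₀, hc, L, s₀, fun s hs => (hI s hs).trans ?_⟩
  refine Finset.sum_le_sum fun o _ => ENNReal.tsum_le_tsum fun l => ?_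
  split_ifs
  · rw [mul_one]
  · simp only [mul_zero, zero_le]

variable [IsProbabilityMeasure μ]

lemma uu_low {h : Site d →+ ℤ} {c₀ : ℝ≥0∞} (hc : c₀ ≠ 0) {L s₀ : ℕ}
    (hI : ∀ s, s₀ ≤ s → c₀ ≤ ∑ o ∈ Finset.range L, uu μ h (s + o)) {J : ℕ}
    (hJ : ∀ j, J ≤ j → uu μ h j ≠ 0) :
    ∃ q : ℝ≥0∞, q ≠ 0 ∧ ∃ k₀, ∀ k, k₀ ≤ k → q ≤ uu μ h k := by
  obtain ⟨i, hi, hmin⟩ := Finset.exists_min_image (Finset.Icc J (J + L)) (uu μ h)
    ⟨J, by simp only [Finset.mem_Icc, Std.le_refl, le_add_iff_nonneg_right, zero_le, and_self]⟩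
  have hL0 : L ≠ 0 := by
    rintro rfl
    have := hI s₀ le_rfl
    simp only [Finset.range_zero, Finset.sum_empty, nonpos_iff_eq_zero] at this
    exact hc this
  set m := uu μ h i with hm
  have hm0 : m ≠ 0 := hJ i (Finset.mem_Icc.1 hi).1
  refine ⟨(c₀ * m) / L, ?_, s₀ + J + L, fun k hk => ?_⟩
  · simp only [ne_eq, ENNReal.div_eq_zero_iff, mul_eq_zero, hc, hm0, or_self, ENNReal.natCast_ne_top, not_false_eq_true]
  · rw [ENNReal.div_le_iff (by exact_mod_cast hL0) (by simp)]
    have h1 := hI (k - J - L) (by omega)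
    calc c₀ * m ≤ (∑ o ∈ Finset.range L, uu μ h (k - J - L + o)) * m := by (clear * - h1; gcongr)
      _ = ∑ o ∈ Finset.range L, uu μ h (k - J - L + o) * m := by rw [Finset.sum_mul]
      _ ≤ ∑ o ∈ Finset.range L, uu μ h k := by
          refine Finset.sum_le_sum fun o ho => ?_
          rw [Finset.mem_range] at ho
          calc uu μ h (k - J - L + o) * m
              ≤ uu μ h (k - J - L + o) * uu μ h (J + L - o) := by
                gcongr
                exact hmin _ (by rw [Finset.mem_Icc]; omega)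
            _ ≤ uu μ h (k - J - L + o + (J + L - o)) := uu_mul μ h _ _
            _ = uu μ h k := by
                congr 1
                omega
      _ = uu μ h k * L := by simp only [Finset.sum_const, Finset.card_range, nsmul_eq_mul, mul_comm]

lemma exists_bound (h : Site d →+ ℤ) : ∃ L : ℕ, ∀ u : Dir d, |h (vec u)| ≤ L := by
  refine ⟨Finset.univ.sup (fun u : Dir d => (h (vec u)).natAbs), fun u => ?_⟩
  have := Finset.le_sup (f := fun u : Dir d => (h (vec u)).natAbs) (Finset.mem_univ u)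
  beta_reduce at this
  rw [Int.abs_eq_natAbs]
  exact_mod_cast this

lemma uu_ne_zero (hμ : Elliptic μ) {h : Site d →+ ℤ} (hsurj : Function.Surjective h) :
    ∃ J : ℕ, ∀ j, J ≤ j → uu μ h j ≠ 0 := by
  obtain ⟨L, hL⟩ := exists_bound h
  refine ⟨2 * L, fun j hj h0 => ?_⟩
  obtain ⟨y, hy⟩ := hsurj j
  obtain ⟨l, hl, _⟩ := exists_up hsurj hL hj hy
  have h1 := le_uu μ hl
  rw [h0] at h1
  exact wt_ne_zero μ hμ l (le_antisymm h1 zero_le)

lemma neg_surj {h : Site d →+ ℤ} (hsurj : Function.Surjective h) :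
    Function.Surjective (-h : Site d →+ ℤ) := by
  intro k
  obtain ⟨y, hy⟩ := hsurj (-k)
  exact ⟨y, by simp [hy]⟩

/-- Existence of a cube dominated by the law of the displacement. -/
lemma exists_cube (hd : 3 ≤ d) (hμ : Elliptic μ) {h : Site d →+ ℤ}
    (hsurj : Function.Surjective h) : ∃ (ζ g₁ g₂ : Site d) (c : ℝ≥0∞), c ≠ 0 ∧
      (∀ a b a' b' : ℕ, a • g₁ + b • g₂ = a' • g₁ + b' • g₂ → a = a' ∧ b = b') ∧
      ∀ z, (Cv.pt ζ c * ((1 + Cv.pt g₁ 1) * (1 + Cv.pt g₂ 1))).v z ≤ (kap μ h).v z := by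
  classical
  obtain ⟨L, hL⟩ := exists_bound h
  obtain ⟨g₁, g₂, hg₁, hg₂, hind⟩ := exists_indep hd hsurj
  set k := 2 * L + 1 with hk
  have hLneg : ∀ u : Dir d, |(-h) (vec u)| ≤ L := fun u => by
    rw [AddMonoidHom.neg_apply, abs_neg]; exact hL u
  obtain ⟨b, hb, hbirr⟩ := exists_irr (neg_surj hsurj) hLneg (k := k) (by omega) (by omega)
  obtain ⟨y, hy⟩ := hsurj k
  -- pairs with prescribed displacement
  have hpair : ∀ g : Site d, h g = 0 → ∃ p : Irr h, (p.2 : PM d).disp = (y + dsp b) + g := by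
    intro g hg
    obtain ⟨a, ha, hag⟩ := exists_up hsurj hL (k := k) (y := y + g) (by omega)
      (by rw [map_add, hy, hg, add_zero])
    let x : PM d := (MulOpposite.op (FreeMonoid.ofList a), FreeMonoid.ofList b)
    have hxa : x.a = a := rfl
    have hxb : x.b = b := rfl
    have hx : x ∈ (pairG h).I k := by
      refine ⟨mem_pairG.2 ⟨hxa ▸ ha, hxb ▸ hb⟩, by omega, ?_⟩
      intro j hj0 hjk y₁ hy₁ y₂ hy₂ heq
      rw [mem_pairG] at hy₁ hy₂
      have : x.b = y₁.b ++ y₂.b := by rw [heq, PM.b_mul]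
      rw [hxb] at this
      exact hbirr j hj0 hjk _ hy₁.2 _ hy₂.2 this
    refine ⟨⟨k, x, hx⟩, ?_⟩
    change x.disp = _
    rw [PM.disp, hxa, hxb, hag]
    abel
  have hpos : ∀ g : Site d, h g = 0 → (kap μ h).v ((y + dsp b) + g) ≠ 0 := by
    intro g hg h0
    obtain ⟨p, hp⟩ := hpair g hg
    simp only [kap] at h0
    rw [ENNReal.tsum_eq_zero] at h0
    have := h0 p
    rw [hp, if_pos rfl, mul_one] at this
    simp only [W2, mul_eq_zero] at this
    rcases this with h1 | h1
    · exact wt_ne_zero μ hμ _ h1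
    · exact wt_ne_zero μ hμ _ h1
  set ζ := y + dsp b with hζ
  set c := min (min ((kap μ h).v ζ) ((kap μ h).v (ζ + g₁)))
    (min ((kap μ h).v (ζ + g₂)) ((kap μ h).v (ζ + (g₁ + g₂)))) with hc
  refine ⟨ζ, g₁, g₂, c, ?_, hind, ?_⟩
  · have e0 : (kap μ h).v ζ ≠ 0 := by simpa using hpos 0 (by simp only [map_zero])
    have e1 := hpos g₁ hg₁
    have e2 := hpos g₂ hg₂
    have e3 := hpos (g₁ + g₂) (by rw [map_add, hg₁, hg₂, add_zero])
    rw [hc, ← pos_iff_ne_zero]
    exact lt_min (lt_min (pos_iff_ne_zero.2 e0) (pos_iff_ne_zero.2 e1))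
      (lt_min (pos_iff_ne_zero.2 e2) (pos_iff_ne_zero.2 e3))
  · intro z
    have e : Cv.pt ζ c * ((1 + Cv.pt g₁ 1) * (1 + Cv.pt g₂ 1)) =
        Cv.pt ζ c + Cv.pt (ζ + g₁) c + (Cv.pt (ζ + g₂) c + Cv.pt (ζ + (g₁ + g₂)) c) := by
      rw [Cv.one_def]
      simp only [mul_add, add_mul, Cv.pt_mul_pt, add_zero, zero_add, mul_one]
    rw [e]
    simp only [Cv.add_v]
    have hg1 : g₁ ≠ 0 := by
      rintro rfl
      have := hind 0 0 1 0 (by simp)
      omega
    have hg2 : g₂ ≠ 0 := by
      rintro rfl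
      have := hind 0 0 0 1 (by simp)
      omega
    have hg12 : g₁ ≠ g₂ := by
      rintro rfl
      have := hind 1 0 0 1 (by simp)
      omega
    have hg3 : g₁ + g₂ ≠ 0 := by
      intro h0
      have := hind 1 1 0 0 (by simpa only [one_smul, zero_nsmul, add_zero] using h0)
      omega
    have c0 : c ≤ (kap μ h).v ζ := (min_le_left _ _).trans (min_le_left _ _)
    have c1 : c ≤ (kap μ h).v (ζ + g₁) := (min_le_left _ _).trans (min_le_right _ _)
    have c2 : c ≤ (kap μ h).v (ζ + g₂) := (min_le_right _ _).trans (min_le_left _ _)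
    have c3 : c ≤ (kap μ h).v (ζ + (g₁ + g₂)) := (min_le_right _ _).trans (min_le_right _ _)
    by_cases z0 : z = ζ
    · subst z0
      rw [Cv.pt_v_self, Cv.pt_v_ne, Cv.pt_v_ne, Cv.pt_v_ne]
      · simpa only [add_zero, ge_iff_le] using c0
      · simpa only [ne_eq, left_eq_add] using hg3
      · simpa using hg2
      · simpa using hg1
    by_cases z1 : z = ζ + g₁
    · subst z1
      rw [Cv.pt_v_self, Cv.pt_v_ne z0, Cv.pt_v_ne, Cv.pt_v_ne]
      · simpa only [zero_add, add_zero, ge_iff_le] using c1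
      · simpa only [ne_eq, add_right_inj, left_eq_add] using hg2
      · simpa using hg12
    by_cases z2 : z = ζ + g₂
    · subst z2
      rw [Cv.pt_v_self, Cv.pt_v_ne z0, Cv.pt_v_ne z1, Cv.pt_v_ne]
      · simpa only [add_zero, zero_add, ge_iff_le] using c2
      · simpa using hg1
    by_cases z3 : z = ζ + (g₁ + g₂)
    · subst z3
      rw [Cv.pt_v_self, Cv.pt_v_ne z0, Cv.pt_v_ne z1, Cv.pt_v_ne z2]
      simpa only [add_zero, zero_add, ge_iff_le] using c3
    · rw [Cv.pt_v_ne z0, Cv.pt_v_ne z1, Cv.pt_v_ne z2, Cv.pt_v_ne z3]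
      simp

lemma upG_tsum (h : Site d →+ ℤ) (k : ℕ) (φ : List (Dir d) → ℝ≥0∞) :
    ∑' x : (upG h).G k, φ x.1.toList = ∑' l : Up h k, φ l := by
  let e : (upG h).G k ≃ Up h k :=
    { toFun := fun x => ⟨x.1.toList, mem_upG.1 x.2⟩
      invFun := fun x => ⟨FreeMonoid.ofList x.1, mem_upG.2 x.2⟩
      left_inv := fun _ => rfl
      right_inv := fun _ => rfl }
  exact e.tsum_eq (fun x : Up h k => φ x)

/-- Mean number of sites of the irreducible upward paths. -/
lemma thin_up {h : Site d →+ ℤ} (hl : Lin μ h) {q : ℝ≥0∞} (hq : q ≠ 0) {k₀ : ℕ}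
    (hlow : ∀ k, k₀ ≤ k → q ≤ uu μ h k) :
    ∑' j, ∑' x : (upG h).I j, wt μ x.1.toList * ((exits 0 x.1.toList).card : ℝ≥0∞) ≠ ∞ := by
  obtain ⟨c₀, hc, L, C, s₀, hC, hI⟩ := hl
  have hU : ∀ k, (upG h).U (fun x => wt μ x.toList) k ≤ 1 := fun k => by
    rw [upG_U]; exact uu_le_one μ h k
  have hlow' : ∀ k, k₀ ≤ k → q ≤ (upG h).U (fun x => wt μ x.toList) k := fun k hk => by
    rw [upG_U]; exact hlow k hk
  refine Grading.thin (upG_mult μ h) (upG_add h)
    (Grading.tsum_f_eq_one (upG_mult μ h) hU hq hlow') hU hc (L := L) (C := C) (s₀ := s₀) hC ?_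
  intro s hs
  refine (hI s hs).trans (le_of_eq ?_)
  refine Finset.sum_congr rfl fun o _ => ?_
  exact (upG_tsum h (s + o)
    (fun l => wt μ l * (if (exits 0 l).card ≤ C * s then 1 else 0))).symm

lemma thin_up_op {h : Site d →+ ℤ} (hl : Lin μ h) {q : ℝ≥0∞} (hq : q ≠ 0) {k₀ : ℕ}
    (hlow : ∀ k, k₀ ≤ k → q ≤ uu μ h k) :
    ∑' j, ∑' x : (upG h).op.I j,
      wt μ x.1.unop.toList * ((exits 0 x.1.unop.toList).card : ℝ≥0∞) ≠ ∞ := by
  obtain ⟨c₀, hc, L, C, s₀, hC, hI⟩ := hl
  have hUe : ∀ k, (upG h).op.U (fun x => wt μ x.unop.toList) k = uu μ h k := fun k => by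
    rw [Grading.U_op (upG h) (fun x => wt μ x.toList), upG_U]
  have hU : ∀ k, (upG h).op.U (fun x => wt μ x.unop.toList) k ≤ 1 := fun k => by
    rw [hUe]; exact uu_le_one μ h k
  have hlow' : ∀ k, k₀ ≤ k → q ≤ (upG h).op.U (fun x => wt μ x.unop.toList) k := fun k hk => by
    rw [hUe]; exact hlow k hk
  have hM := (upG_mult μ h).op
  refine Grading.thin hM (upG_add h).op
    (Grading.tsum_f_eq_one hM hU hq hlow') hU hc (L := L) (C := C) (s₀ := s₀) hC ?_
  intro s hs
  refine (hI s hs).trans (le_of_eq ?_)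
  refine Finset.sum_congr rfl fun o _ => ?_
  rw [← upG_tsum h (s + o)
    (fun l => wt μ l * (if (exits 0 l).card ≤ C * s then 1 else 0))]
  exact ((upG h).tsum_op (s + o)
    (fun x => wt μ x.toList * (if (exits 0 x.toList).card ≤ C * s then 1 else 0))).symm

/-- The total mass of contacts is finite. -/
lemma contacts {h : Site d →+ ℤ} (h1 : Lin μ h) (h2 : Lin μ (-h)) {q₁ q₂ : ℝ≥0∞} (hq₁ : q₁ ≠ 0)
    (hq₂ : q₂ ≠ 0) {k₀ : ℕ} (hl₁ : ∀ k, k₀ ≤ k → q₁ ≤ uu μ h k)
    (hl₂ : ∀ k, k₀ ≤ k → q₂ ≤ uu μ (-h) k) : ∑' z, ∑' y, DK μ h z y ≠ ∞ := by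
  have E1 := thin_up_op μ h1 hq₁ hl₁
  have E2 := thin_up μ h2 hq₂ hl₂
  set e₁ := ∑' j, ∑' x : (upG h).op.I j,
      wt μ x.1.unop.toList * ((exits 0 x.1.unop.toList).card : ℝ≥0∞) with he₁
  set e₂ := ∑' j, ∑' x : (upG (-h)).I j,
      wt μ x.1.toList * ((exits 0 x.1.toList).card : ℝ≥0∞) with he₂
  -- bound for the pair statistic
  have hV : ∀ R i, i < R → (pairG h).V (W2 μ) (lev2 h) R i ≤ e₁ * e₂ := by
    intro R i hi
    have e : (pairG h).V (W2 μ) (lev2 h) R i = (upG h).op.V (fun x => wt μ x.unop.toList)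
        (fun x i => (lv h (-dsp x.unop.toList) x.unop.toList (-1 - i) : ℝ≥0∞)) R i *
        (upG (-h)).V (fun x => wt μ x.toList)
          (fun x i => (lv (-h) 0 x.toList i : ℝ≥0∞)) R i :=
      Grading.V_prod (upG h).op (upG (-h)) (fun x => wt μ x.unop.toList)
        (fun x => wt μ x.toList)
        (fun x i => (lv h (-dsp x.unop.toList) x.unop.toList (-1 - i) : ℝ≥0∞))
        (fun x i => (lv (-h) 0 x.toList i : ℝ≥0∞)) R i
    rw [e]
    refine mul_le_mul' ?_ ?_
    · refine (Grading.V_le (upG_mult μ h).op (fun k => ?_) (@upG_op_lev d h) hi).trans ?_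
      · rw [Grading.U_op (upG h) (fun x => wt μ x.toList), upG_U]; exact uu_le_one μ h k
      · refine ENNReal.tsum_le_tsum fun j => ENNReal.tsum_le_tsum fun x => ?_
        gcongr
        have hx : x.1.unop.toList ∈ Up h j := mem_upG_op.1 x.2.1
        have := sum_lv_tip h hx
        exact le_of_eq (by exact_mod_cast this)
    · refine (Grading.V_le (upG_mult μ (-h)) (fun k => ?_) (@upG_lev d (-h)) hi).trans ?_
      · rw [upG_U]; exact uu_le_one μ (-h) k
      · refine ENNReal.tsum_le_tsum fun j => ENNReal.tsum_le_tsum fun x => ?_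
        gcongr
        have hx : x.1.toList ∈ Up (-h) j := mem_upG.1 x.2.1
        have := sum_lv (-h) hx 0
        simp only [map_zero, zero_add] at this
        exact le_of_eq (by exact_mod_cast this)
  have hlow : ∀ k, k₀ ≤ k → q₁ * q₂ ≤ (pairG h).U (W2 μ) k := fun k hk => by
    rw [pairG_U]; exact mul_le_mul' (hl₁ k hk) (hl₂ k hk)
  have hfin := Grading.tsum_lev_le (pairG_mult μ h) hlow (@lev2_lev d h) hV
  have hle := tsum_DK_le μ h
  intro htop
  rw [htop, top_le_iff] at hle
  rw [hle, ENNReal.top_mul (by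
    simp only [ne_eq, mul_eq_zero, hq₁, hq₂, or_self, not_false_eq_true]), top_le_iff] at hfin
  exact ENNReal.mul_ne_top E1 E2 hfin

/-- The core theorem: thin paths in opposite directions are incompatible. -/
theorem core (hd : 3 ≤ d) (hμ : Elliptic μ) {h : Site d →+ ℤ} (hsurj : Function.Surjective h)
    (h1 : Lin μ h) (h2 : Lin μ (-h)) : False := by
  classical
  -- uniform lower bounds
  obtain ⟨c₁, hc₁, L₁, s₁, hI₁⟩ := h1.weak
  obtain ⟨c₂, hc₂, L₂, s₂, hI₂⟩ := h2.weak
  obtain ⟨J₁, hJ₁⟩ := uu_ne_zero μ hμ hsurj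
  obtain ⟨J₂, hJ₂⟩ := uu_ne_zero μ hμ (neg_surj hsurj)
  obtain ⟨q₁, hq₁, k₁, hl₁⟩ := uu_low μ hc₁ hI₁ hJ₁
  obtain ⟨q₂, hq₂, k₂, hl₂⟩ := uu_low μ hc₂ hI₂ hJ₂
  have hl₁' : ∀ k, max k₁ k₂ ≤ k → q₁ ≤ uu μ h k := fun k hk =>
    hl₁ k ((le_max_left _ _).trans hk)
  have hl₂' : ∀ k, max k₁ k₂ ≤ k → q₂ ≤ uu μ (-h) k := fun k hk =>
    hl₂ k ((le_max_right _ _).trans hk)
  have hΘ := contacts μ h1 h2 hq₁ hq₂ hl₁' hl₂'
  -- the law of the displacement has mass one
  have hU : ∀ k, (pairG h).U (W2 μ) k ≤ 1 := fun k => by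
    rw [pairG_U]
    calc uu μ h k * uu μ (-h) k ≤ 1 * 1 := mul_le_mul' (uu_le_one μ h k) (uu_le_one μ (-h) k)
      _ = 1 := one_mul 1
  have hlow : ∀ k, max k₁ k₂ ≤ k → q₁ * q₂ ≤ (pairG h).U (W2 μ) k := fun k hk => by
    rw [pairG_U]; exact mul_le_mul' (hl₁' k hk) (hl₂' k hk)
  have hq : q₁ * q₂ ≠ 0 := mul_ne_zero hq₁ hq₂
  have hmass : (kap μ h).mass = 1 := by
    rw [mass_kap]
    exact Grading.tsum_f_eq_one (pairG_mult μ h) hU hq hlow
  -- concentration
  obtain ⟨ζ, g₁, g₂, c, hc, hind, hdom⟩ := exists_cube μ hd hμ hsurj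
  have hconc := Cv.concentration (kap μ h) hmass hc hdom hind
  set C : ℝ≥0∞ := 1 / (4 * c) with hC
  have hCtop : C ≠ ∞ := by
    rw [hC]
    refine ENNReal.div_ne_top ENNReal.one_ne_top ?_
    simpa only [ne_eq, mul_eq_zero, OfNat.ofNat_ne_zero, false_or] using hc
  -- choice of the finite set
  set fy : Site d → ℝ≥0∞ := fun y => ∑' z, DK μ h z y with hfy
  have hfy1 : ∑' y, fy y ≠ ∞ := by
    rw [hfy, ENNReal.tsum_comm]; exact hΘ
  obtain ⟨Λ, hΛ⟩ : ∃ Λ : Finset (Site d), ∑' y : {y // y ∉ Λ}, fy y ≤ (16 * (C + 1))⁻¹ := by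
    have ht := ENNReal.tendsto_tsum_compl_atTop_zero hfy1
    have hpos : (0 : ℝ≥0∞) < (16 * (C + 1))⁻¹ := by
      rw [ENNReal.inv_pos]
      exact ENNReal.mul_ne_top (by simp) (ENNReal.add_ne_top.2 ⟨hCtop, by simp⟩)
    obtain ⟨Λ, h⟩ := (ht.eventually_lt_const hpos).exists
    exact ⟨Λ, h.le⟩
  have hDKh : ∀ z y, h y ≠ -1 → DK μ h z y = 0 := by
    intro z y hy
    simp only [DK]
    rw [ENNReal.tsum_eq_zero]
    intro p
    rw [if_neg, mul_zero]
    rintro ⟨h3, rfl⟩
    push Not at h3
    apply hy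
    rw [map_add, h_disp p.2.2.1, h3.1, add_zero]
  set Λ' := Λ.filter (fun y => h y = -1) with hΛ'
  obtain ⟨z₀, hz₀⟩ := hsurj (-1)
  let DN : Site d → Site d → ℝ≥0∞ := fun z y => if y ∈ Λ' then DK μ h z y else 0
  let DF : Site d → Site d → ℝ≥0∞ := fun z y => if y ∈ Λ' then 0 else DK μ h z y
  have hsplit : ∀ z y, NK μ h z y + DN z y + DF z y = (kap μ h).v (y - z) := by
    intro z y
    rw [← NK_add_DK]
    simp only [DN, DF]
    split_ifs <;> simp
  have hres := lemmaS (NK μ h) DN DF ?_ hCtop ?_ (Θ := ∑' z, ∑' y, DK μ h z y) ?_ hΘ Λ' ?_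
    (ε := (16 * (C + 1))⁻¹) ?_ ?_ z₀
  · obtain ⟨z, hz, hinf⟩ := hres
    have hz1 : h z = -1 := by
      rw [Finset.mem_insert] at hz
      rcases hz with rfl | hz
      · exact hz₀
      · exact (Finset.mem_filter.1 hz).2
    obtain ⟨L, hL⟩ := exists_bound h
    obtain ⟨l, hl, hl2⟩ := exists_conn hsurj hL hz1
    have h3 := green_le μ h hz1
    rw [hinf, top_le_iff] at h3
    have h4 := turning μ (c := l) (by rw [hl]; exact hz1) hl2
    rw [hl, h3, ENNReal.mul_top (wt_ne_zero μ hμ l)] at h4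
    simp only [top_le_iff, ENNReal.one_ne_top] at h4
  · intro z
    simp only [hsplit]
    rw [← hmass, Cv.mass]
    exact (Equiv.subRight z).tsum_eq (kap μ h).v
  · intro ν i y
    have e : (fun z y => NK μ h z y + DN z y + DF z y) = fun z y => (kap μ h).v (y - z) := by
      funext z y; exact hsplit z y
    rw [e]
    exact Cv.push_iter_le (kap μ h) (hconc i) ν y
  · refine ENNReal.tsum_le_tsum fun z => ENNReal.tsum_le_tsum fun y => ?_
    simp only [DN]
    split_ifs <;> simp
  · intro z y hy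
    simp only [DN, if_neg hy]
  · refine le_trans ?_ hΛ
    rw [ENNReal.tsum_comm]
    have e : ∑' y : {y // y ∉ Λ}, fy y = ∑' y, ({y | y ∉ Λ} : Set (Site d)).indicator fy y :=
      tsum_subtype ({y | y ∉ Λ} : Set (Site d)) fy
    rw [e]
    refine ENNReal.tsum_le_tsum fun y => ?_
    by_cases hy : y ∈ Λ
    · rw [ENNReal.tsum_eq_zero.2]
      · exact zero_le
      · intro z
        simp only [DF]
        split_ifs with h3
        · rfl
        · apply hDKh
          intro h4
          exact h3 (Finset.mem_filter.2 ⟨hy, h4⟩)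
    · rw [Set.indicator_of_mem (by exact hy)]
      refine ENNReal.tsum_le_tsum fun z => ?_
      simp only [DF]
      split_ifs <;> simp
  · have hC1 : C + 1 ≠ 0 := by simp only [ne_eq, add_eq_zero, one_ne_zero, and_false, not_false_eq_true]
    have hC2 : C + 1 ≠ ∞ := ENNReal.add_ne_top.2 ⟨hCtop, by simp⟩
    calc C * (16 * (C + 1))⁻¹ ≤ (C + 1) * (16 * (C + 1))⁻¹ := by gcongr; exact le_self_add
      _ = (C + 1) * ((16)⁻¹ * (C + 1)⁻¹) := by
          rw [ENNReal.mul_inv (Or.inl (by simp)) (Or.inl (by simp))]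
      _ = (C + 1) * (C + 1)⁻¹ * 16⁻¹ := by ring
      _ = 1 / 16 := by rw [ENNReal.mul_inv_cancel hC1 hC2, one_mul, one_div]

end

end Vale.Agent.P147
end

section

open MeasureTheory Filter
open scoped ENNReal

namespace Vale.Agent.P147

variable {d : ℕ}

/-- An event that depends on finitely many positions is measurable. -/
lemma measurableSet_local (n : ℕ) (P : (ℕ → Site d) → Prop)
    (hP : ∀ X Y : ℕ → Site d, (∀ i ≤ n, X i = Y i) → P X → P Y) : MeasurableSet {X | P X} := by
  classical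
  let ext : ((i : Finset.Iic n) → Site d) → (ℕ → Site d) :=
    fun g i => if hi : i ≤ n then g ⟨i, by simpa only [Finset.mem_Iic] using hi⟩ else 0
  have e : {X | P X} = ⋃ g : {g : (i : Finset.Iic n) → Site d // P (ext g)}, pc n (ext g.1) := by
    ext X
    simp only [Set.mem_ofPred_eq, Set.mem_iUnion, pc, Subtype.exists]
    constructor
    · intro hX
      refine ⟨fun i => X i, ?_, fun i hi => by simp only [hi, ↓reduceDIte, ext]⟩
      exact hP X _ (fun i hi => by simp only [hi, ↓reduceDIte, ext]) hX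
    · rintro ⟨g, hg, h⟩
      exact hP _ X (fun i hi => (h i hi).symm) hg
  rw [e]
  exact MeasurableSet.iUnion fun g => measurableSet_pc _ _

/-- Lists of steps of a given length. -/
def lists (d : ℕ) : ℕ → Finset (List (Dir d))
  | 0 => {[]}
  | n + 1 => (Finset.univ ×ˢ lists d n).image (fun p : Dir d × List (Dir d) => p.1 :: p.2)

lemma mem_lists {n : ℕ} {l : List (Dir d)} : l ∈ lists d n ↔ l.length = n := by
  induction n generalizing l with
  | zero => simp only [lists, Finset.mem_singleton, List.length_eq_zero_iff]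
  | succ n ih =>
    simp only [lists, Finset.mem_image, Finset.mem_product, Finset.mem_univ, true_and]
    constructor
    · rintro ⟨⟨u, l'⟩, hl', rfl⟩
      simp [ih.1 hl']
    · intro h
      cases l with
      | nil => simp at h
      | cons u l => exact ⟨(u, l), ih.2 (by simpa using h), rfl⟩

lemma sum_row (p : Row d) : ∑ u, ENNReal.ofReal (p.1 u) = 1 := by
  have h := p.2
  rw [← ENNReal.ofReal_sum_of_nonneg (fun u _ => h.1 u), h.2, ENNReal.ofReal_one]

lemma sum_qw (ω : Env d) (x : Site d) (n : ℕ) : ∑ l ∈ lists d n, qw ω x l = 1 := by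
  induction n generalizing x with
  | zero => simp [lists]
  | succ n ih =>
    rw [lists, Finset.sum_image]
    · rw [Finset.sum_product]
      simp only [qw_cons]
      simp only [← Finset.mul_sum, ih, mul_one]
      exact sum_row _
    · rintro ⟨u, l⟩ _ ⟨v, l'⟩ _ h
      simpa using h

/-- The walk makes unit steps from `x`. -/
def Good (x : Site d) : Set (ℕ → Site d) := {X | ∀ n, ∃ l ∈ lists d n, X ∈ cyl x l}

lemma measurableSet_good (x : Site d) : MeasurableSet (Good x) := by
  have : Good x = ⋂ n, ⋃ l ∈ lists d n, cyl x l := by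
    ext X; simp only [Good, Set.mem_ofPred_eq, Set.mem_iInter, Set.mem_iUnion, exists_prop]
  rw [this]
  exact MeasurableSet.iInter fun n => Finset.measurableSet_biUnion _ fun l _ =>
    measurableSet_cyl x l

lemma quenched_good (ω : Env d) (x : Site d) : quenched ω x (Good x)ᶜ = 0 := by
  have : (Good x)ᶜ = ⋃ n, (⋃ l ∈ lists d n, cyl x l)ᶜ := by
    ext X; simp only [Good, Set.mem_compl_iff, Set.mem_ofPred_eq, not_forall, not_exists, not_and, Set.compl_iUnion, Set.mem_iUnion, Set.mem_iInter]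
  rw [this, measure_iUnion_null_iff]
  intro n
  rw [prob_compl_eq_zero_iff (Finset.measurableSet_biUnion _ fun l _ => measurableSet_cyl x l)]
  rw [measure_biUnion_finset]
  · simp only [quenched_cyl]
    exact sum_qw ω x n
  · intro a ha b hb hab
    have hfree : Free ((lists d n : Finset (List (Dir d))) : Set (List (Dir d))) := by
      intro a ha b hb
      simp only [Finset.mem_coe, mem_lists, List.length_append] at ha hb
      have : b.length = 0 := by omega
      exact List.length_eq_zero_iff.1 this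
    exact cyl_disjoint hfree ha hb hab
  · intro l _
    exact measurableSet_cyl x l

lemma annealed_inter_good (μ : Measure (Row d)) (x : Site d) (A : Set (ℕ → Site d)) :
    annealed μ x A ≤ annealed μ x (A ∩ Good x) := by
  refine lintegral_mono fun ω => ?_
  calc quenched ω x A ≤ quenched ω x ((A ∩ Good x) ∪ (Good x)ᶜ) := by
        refine measure_mono ?_
        intro X hX
        by_cases hg : X ∈ Good x
        · exact Or.inl ⟨hX, hg⟩
        · exact Or.inr hg
    _ ≤ quenched ω x (A ∩ Good x) + quenched ω x (Good x)ᶜ := measure_union_le _ _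
    _ = quenched ω x (A ∩ Good x) := by rw [quenched_good, add_zero]

/-- Structure of good paths: segments are given by lists. -/
lemma good_segment {X : ℕ → Site d} {x : Site d} (hX : X ∈ Good x) {a : List (Dir d)}
    (ha : X ∈ cyl x a) {n : ℕ} (hn : a.length ≤ n) :
    ∃ l, (a ++ l).length = n ∧ X ∈ cyl x (a ++ l) := by
  obtain ⟨b, hb, hXb⟩ := hX n
  rw [mem_lists] at hb
  obtain ⟨c, rfl⟩ := cyl_inter ha hXb (by omega)
  exact ⟨c, hb, hXb⟩

lemma cyl_pos {X : ℕ → Site d} {x : Site d} {l : List (Dir d)} (hX : X ∈ cyl x l) {a b}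
    (hab : l = a ++ b) : X a.length = x + dsp a := by
  have := hX a.length (by rw [hab]; simp only [List.length_append, le_add_iff_nonneg_right, zero_le])
  rw [this, hab]; simp

lemma exits_card_le_visited {X : ℕ → Site d} {x : Site d} {a l : List (Dir d)}
    (hX : X ∈ cyl x (a ++ l)) :
    (exits 0 l).card ≤ (visited X (a ++ l).length).card := by
  rw [← card_exits_eq (x + dsp a)]
  refine Finset.card_le_card ?_
  intro y hy
  obtain ⟨b, c, hbc, _, rfl⟩ := mem_exits.1 hy
  rw [visited, Finset.mem_image]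
  refine ⟨(a ++ b).length, ?_, ?_⟩
  · rw [Finset.mem_range, hbc]; simp only [List.length_append, Order.lt_add_one_iff, add_le_add_iff_left, le_add_iff_nonneg_right, zero_le]
  · rw [cyl_pos hX (a := a ++ b) (b := c) (by rw [hbc]; simp), dsp_append, add_assoc]

lemma height_bound {h : Site d →+ ℤ} {L : ℕ} (hL : ∀ u : Dir d, |h (vec u)| ≤ L)
    (l : List (Dir d)) : |h (dsp l)| ≤ L * l.length := by
  induction l with
  | nil => simp
  | cons u l ih =>
    rw [dsp_cons, map_add, List.length_cons]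
    push_cast
    calc |h (vec u) + h (dsp l)| ≤ |h (vec u)| + |h (dsp l)| := abs_add_le _ _
      _ ≤ L + L * l.length := add_le_add (hL u) ih
      _ = L * (l.length + 1) := by ring

section events

variable (μ : Measure (Row d)) [IsProbabilityMeasure μ]

/-- The event that the height tends to infinity and dominates the number of visited sites. -/
def HE (h : Site d →+ ℤ) (C N : ℕ) : Set (ℕ → Site d) :=
  {X | (∀ K : ℕ, ∃ M : ℕ, ∀ n, M ≤ n → (K : ℤ) ≤ h (X n)) ∧
    ∀ n, N ≤ n → ((visited X n).card : ℤ) ≤ C * h (X n)}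

lemma measurableSet_HE (h : Site d →+ ℤ) (C N : ℕ) : MeasurableSet (HE h C N) := by
  have : HE h C N = (⋂ K : ℕ, ⋃ M : ℕ, ⋂ n : ℕ, {X | M ≤ n → (K : ℤ) ≤ h (X n)}) ∩
      ⋂ n : ℕ, {X | N ≤ n → ((visited X n).card : ℤ) ≤ C * h (X n)} := by
    ext X
    simp only [HE, Set.mem_ofPred_eq, Set.mem_inter_iff, Set.mem_iInter, Set.mem_iUnion]
  rw [this]
  refine MeasurableSet.inter ?_ ?_
  · refine MeasurableSet.iInter fun K => MeasurableSet.iUnion fun M => MeasurableSet.iInter
      fun n => ?_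
    refine measurableSet_local n _ fun X Y hXY hX hn => ?_
    rw [← hXY n le_rfl]; exact hX hn
  · refine MeasurableSet.iInter fun n => measurableSet_local n _ fun X Y hXY hX hn => ?_
    have e : visited Y n = visited X n := by
      refine Finset.image_congr ?_
      intro i hi
      exact (hXY i (by simpa only using Nat.lt_succ_iff.1 (by simpa using hi))).symm
    rw [e, ← hXY n le_rfl]; exact hX hn

/-- From positive probability of the event to the linear growth property. -/
theorem lin_of_event {h : Site d →+ ℤ} {C N : ℕ}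
    (hpos : annealed μ 0 (HE h C N) ≠ 0) : Lin μ h := by
  classical
  obtain ⟨L, hL⟩ := exists_bound h
  -- choose the beginning of the path
  let F : List (Dir d) → Set (ℕ → Site d) := fun a =>
    (HE h C N ∩ Good 0) ∩ (cyl 0 a ∩ {X | ∀ n, h (dsp a) ≤ h (X n)})
  have hFm : ∀ a, MeasurableSet (F a) := by
    intro a
    refine ((measurableSet_HE h C N).inter (measurableSet_good 0)).inter
      ((measurableSet_cyl 0 a).inter ?_)
    have : {X : ℕ → Site d | ∀ n, h (dsp a) ≤ h (X n)} = ⋂ n : ℕ, {X | h (dsp a) ≤ h (X n)} := by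
      ext X; simp only [Set.mem_ofPred_eq, Set.mem_iInter]
    rw [this]
    exact MeasurableSet.iInter fun n => measurableSet_local n _ fun X Y hXY hX => by
      rw [← hXY n le_rfl]; exact hX
  have hcover : HE h C N ∩ Good 0 ⊆ ⋃ a, F a := by
    rintro X ⟨hX, hg⟩
    -- a time of global minimum
    obtain ⟨t, ht⟩ : ∃ t, ∀ n, h (X t) ≤ h (X n) := by
      obtain ⟨M, hM⟩ := hX.1 (h (X 0)).toNat
      obtain ⟨t, ht, hmin⟩ := Finset.exists_min_image (Finset.range (M + 1))
        (fun n => h (X n)) ⟨0, by simp only [Finset.mem_range, lt_add_iff_pos_left, Order.lt_add_one_iff, zero_le]⟩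
      refine ⟨t, fun n => ?_⟩
      rcases Nat.lt_or_ge n (M + 1) with hn | hn
      · exact hmin n (by simpa only [Finset.mem_range, Order.lt_add_one_iff] using hn)
      · have h1 := hmin 0 (by simp only [Finset.mem_range, lt_add_iff_pos_left, Order.lt_add_one_iff, zero_le])
        have h2 := hM n (by omega)
        have h3 := Int.self_le_toNat (h (X 0))
        linarith only [h1, h2, h3]
    obtain ⟨a, ha, hXa⟩ := hg t
    rw [mem_lists] at ha
    refine Set.mem_iUnion.2 ⟨a, ⟨hX, hg⟩, hXa, fun n => ?_⟩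
    have : X t = 0 + dsp a := by
      rw [← ha]; exact cyl_pos hXa (b := []) (by simp)
    rw [zero_add] at this
    rw [← this]
    exact ht n
  obtain ⟨a, ha⟩ : ∃ a, annealed μ 0 (F a) ≠ 0 := by
    by_contra hcon
    push Not at hcon
    apply hpos
    refine le_antisymm ?_ zero_le
    calc annealed μ 0 (HE h C N) ≤ annealed μ 0 (HE h C N ∩ Good 0) := annealed_inter_good μ 0 _
      _ ≤ annealed μ 0 (⋃ a, F a) := annealed_mono μ 0 hcover
      _ ≤ ∑' a, annealed μ 0 (F a) := annealed_iUnion_le μ 0 hFm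
      _ = 0 := by simp only [hcon, tsum_zero]
  -- the constants
  set s₀ := (L + 1) * (N + 1) + (h (dsp a)).natAbs with hs₀
  refine ⟨annealed μ 0 (F a), ha, L + 1, 2 * C + 1, s₀, by omega, fun s hs => ?_⟩
  have hsub : F a ⊆ ⋃ p : (Σ o : Fin (L + 1),
      {l : Up h (s + o) // (exits 0 (l : List (Dir d))).card ≤ (2 * C + 1) * s}),
        cyl 0 (a ++ (p.2.1 : List (Dir d))) := by
    rintro X ⟨⟨hX, hg⟩, hXa, hmin⟩
    -- first passage time
    have hex : ∃ n, a.length ≤ n ∧ h (dsp a) + s ≤ h (X n) := by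
      obtain ⟨M, hM⟩ := hX.1 (h (dsp a) + s).toNat
      refine ⟨max M a.length, le_max_right _ _, ?_⟩
      have h1 := hM (max M a.length) (le_max_left _ _)
      have h2 := Int.self_le_toNat (h (dsp a) + s)
      linarith only [h1, h2]
    obtain ⟨hτ1, hτ2⟩ := Nat.find_spec hex
    have hτmin := fun n hn => Nat.find_min hex (m := n) hn
    set τ := Nat.find hex with hτ
    obtain ⟨l, hl, hXl⟩ := good_segment hg hXa hτ1
    have hha : h (dsp a) ≤ 0 := by
      have h1 := hmin 0
      have h2 : X 0 = 0 := by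
        have := cyl_pos hXa (a := []) (b := a) (by simp)
        simpa using this
      rw [h2, map_zero] at h1
      exact h1
    have hXτ : X τ = dsp a + dsp l := by
      have := cyl_pos hXl (a := a ++ l) (b := []) (by simp)
      rw [hl, zero_add, dsp_append] at this
      exact this
    have hpos' : ∀ b c, l = b ++ c → X (a.length + b.length) = dsp a + dsp b := by
      intro b c hbc
      have := cyl_pos hXl (a := a ++ b) (b := c) (by rw [hbc]; simp)
      rw [zero_add, dsp_append, List.length_append] at this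
      exact this
    have hlen : a.length + l.length = τ := by rw [← hl, List.length_append]
    -- the last step
    have hs1 : 1 ≤ s := by
      have : 0 < (L + 1) * (N + 1) := by (clear * -; positivity)
      (clear * - hs hex hha this; omega)
    have hlne : l ≠ [] := by
      rintro rfl
      rw [hXτ] at hτ2
      simp only [dsp_nil, add_zero] at hτ2
      omega
    have htop : h (dsp l) < s + (L + 1 : ℕ) := by
      obtain ⟨l', u, rfl⟩ : ∃ l' u, l = l' ++ [u] := by
        rcases List.eq_nil_or_concat l with h0 | ⟨l', u, h0⟩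
        · exact absurd h0 hlne
        · exact ⟨l', u, by rw [h0, List.concat_eq_append]⟩
      have h1 := hτmin (a.length + l'.length) (by
        rw [← hlen, List.length_append]; simp)
      push Not at h1
      have h2 := h1 (by omega)
      rw [hpos' l' [u] rfl, map_add] at h2
      have h3 := (abs_le.1 (hL u)).2
      rw [dsp_append, map_add]
      simp only [dsp_cons, dsp_nil, add_zero]
      push_cast
      linarith only [h2, h3]
    have hbot : (s : ℤ) ≤ h (dsp l) := by
      rw [hXτ, map_add] at hτ2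
      linarith only [hτ2]
    obtain ⟨o, ho⟩ : ∃ o : ℕ, h (dsp l) = ((s + o : ℕ) : ℤ) := ⟨(h (dsp l) - s).toNat, by
      push_cast; omega⟩
    have hoL : o < L + 1 := by
      rw [ho] at htop
      push_cast at htop
      omega
    have hlUp : l ∈ Up h (s + o) := by
      refine ⟨fun b c hbc => ?_, fun b c hbc hc => ?_, ho⟩
      · have h1 := hmin (a.length + b.length)
        rw [hpos' b c hbc, map_add] at h1
        linarith only [h1]
      · have hlt : a.length + b.length < τ := by
          rw [← hlen, hbc, List.length_append]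
          have : 0 < c.length := List.length_pos_iff.2 hc
          omega
        have h1 := hτmin _ hlt
        push Not at h1
        have h2 := h1 (by omega)
        rw [hpos' b c hbc, map_add] at h2
        push_cast
        linarith only [h2]
    -- number of sites
    have hτN : N ≤ τ := by
      have h1 := height_bound hL (a ++ l)
      rw [hl] at h1
      have h2 := (abs_le.1 h1).2
      rw [dsp_append, map_add] at h2
      by_contra hlt
      push Not at hlt
      have h4 : (τ : ℤ) ≤ N := by exact_mod_cast hlt.le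
      have h5 : (L : ℤ) * τ ≤ L * N := by
        exact mul_le_mul_of_nonneg_left h4 (by (clear * -; positivity))
      have h6 : ((s₀ : ℕ) : ℤ) ≤ s := by exact_mod_cast hs
      have h7 : ((s₀ : ℕ) : ℤ) = (L + 1) * (N + 1) + ((h (dsp a)).natAbs : ℤ) := by
        rw [hs₀]; push_cast; ring
      have h8 : -((h (dsp a)).natAbs : ℤ) ≤ h (dsp a) := by (clear * - hex hha; omega)
      linarith
    have hcard : (exits 0 l).card ≤ (2 * C + 1) * s := by
      have h1 := exits_card_le_visited hXl
      rw [hl] at h1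
      have h2 := hX.2 τ hτN
      rw [hXτ, map_add, ho] at h2
      have h3 : ((exits 0 l).card : ℤ) ≤ ((visited X τ).card : ℤ) := by exact_mod_cast h1
      have h4 : (o : ℤ) ≤ s := by
        have : L + 1 ≤ s := by
          have : (L + 1) * 1 ≤ (L + 1) * (N + 1) := Nat.mul_le_mul le_rfl (by omega)
          omega
        have : o ≤ s := by omega
        exact_mod_cast this
      have h5 : ((exits 0 l).card : ℤ) ≤ ((2 * C + 1) * s : ℕ) := by
        push_cast at h2 ⊢
        have h6 : (C : ℤ) * (h (dsp a) + (s + o)) ≤ C * (2 * s) := by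
          refine mul_le_mul_of_nonneg_left ?_ (by (clear * -; positivity))
          linarith only [hha, h4]
        have h7 : (0 : ℤ) ≤ s := by (clear * - hs1; positivity)
        nlinarith only [h1, h2, h6]
      exact_mod_cast h5
    exact Set.mem_iUnion.2 ⟨⟨⟨o, hoL⟩, ⟨⟨l, hlUp⟩, hcard⟩⟩, hXl⟩
  calc annealed μ 0 (F a) ≤ _ := annealed_mono μ 0 hsub
    _ ≤ ∑' p : (Σ o : Fin (L + 1),
      {l : Up h (s + o) // (exits 0 (l : List (Dir d))).card ≤ (2 * C + 1) * s}),
        annealed μ 0 (cyl 0 (a ++ (p.2.1 : List (Dir d)))) :=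
        annealed_iUnion_le μ 0 fun p => measurableSet_cyl _ _
    _ ≤ ∑' p : (Σ o : Fin (L + 1),
      {l : Up h (s + o) // (exits 0 (l : List (Dir d))).card ≤ (2 * C + 1) * s}),
        wt μ (p.2.1 : List (Dir d)) := by
        refine ENNReal.tsum_le_tsum fun p => ?_
        rw [annealed_cyl']
        exact wt_append_le_right μ _ _
    _ = ∑ o : Fin (L + 1), ∑' l : {l : Up h (s + o) //
        (exits 0 (l : List (Dir d))).card ≤ (2 * C + 1) * s}, wt μ (l.1 : List (Dir d)) := by
        rw [ENNReal.tsum_sigma', tsum_fintype]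
    _ = ∑ o : Fin (L + 1), ∑' l : Up h (s + o), wt μ l *
        (if (exits 0 (l : List (Dir d))).card ≤ (2 * C + 1) * s then 1 else 0) := by
        refine Finset.sum_congr rfl fun o _ => ?_
        have e := tsum_subtype {l : Up h (s + o) |
          (exits 0 (l : List (Dir d))).card ≤ (2 * C + 1) * s} (fun l => wt μ (l : List (Dir d)))
        refine e.trans (tsum_congr fun l => ?_)
        by_cases hc : (exits 0 (l : List (Dir d))).card ≤ (2 * C + 1) * s
        · rw [Set.indicator_of_mem (by exact hc), if_pos hc, mul_one]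
        · rw [Set.indicator_of_notMem (by exact hc), if_neg hc, mul_zero]
    _ = ∑ o ∈ Finset.range (L + 1), ∑' l : Up h (s + o), wt μ l *
        (if (exits 0 (l : List (Dir d))).card ≤ (2 * C + 1) * s then 1 else 0) :=
        Fin.sum_univ_eq_sum_range (fun o => ∑' l : Up h (s + o), wt μ l *
          (if (exits 0 (l : List (Dir d))).card ≤ (2 * C + 1) * s then 1 else 0)) (L + 1)

end events

end Vale.Agent.P147
end

section

open MeasureTheory Filter
open scoped ENNReal

namespace Vale.Agent.P147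

variable {d : ℕ}

/-- The `ℓ¹` norm of a site. -/
def l1 (x : Site d) : ℕ := ∑ i, (x i).natAbs

lemma l1_vec (u : Dir d) : l1 (vec u) = 1 := by
  rw [l1, Finset.sum_eq_single u.1]
  · simp only [vec, Pi.single_eq_same]
    split_ifs <;> rfl
  · intro j _ hj
    simp only [vec, Int.reduceNeg, Pi.single_eq_of_ne hj, Int.natAbs_zero]
  · simp only [Finset.mem_univ, not_true_eq_false, Int.natAbs_eq_zero, IsEmpty.forall_iff]

lemma l1_add_le (x y : Site d) : l1 (x + y) ≤ l1 x + l1 y := by
  rw [l1, l1, l1, ← Finset.sum_add_distrib]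
  exact Finset.sum_le_sum fun i _ => Int.natAbs_add_le _ _

lemma good_start {X : ℕ → Site d} (hX : X ∈ Good 0) : X 0 = 0 := by
  obtain ⟨l, hl, hXl⟩ := hX 0
  rw [mem_lists, List.length_eq_zero_iff] at hl
  subst hl
  have := cyl_pos hXl (a := []) (b := []) (by simp)
  simpa using this

lemma good_step {X : ℕ → Site d} (hX : X ∈ Good 0) (n : ℕ) : ∃ u : Dir d, X (n + 1) = X n + vec u := by
  obtain ⟨a, ha, hXa⟩ := hX n
  rw [mem_lists] at ha
  obtain ⟨l, hl, hXl⟩ := good_segment hX hXa (n := n + 1) (by omega)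
  have hl1 : l.length = 1 := by
    rw [List.length_append] at hl; omega
  obtain ⟨u, rfl⟩ := List.length_eq_one_iff.1 hl1
  refine ⟨u, ?_⟩
  have h1 := cyl_pos hXa (a := a) (b := []) (by simp)
  have h2 := cyl_pos hXl (a := a ++ [u]) (b := []) (by simp)
  rw [ha] at h1
  rw [hl] at h2
  rw [h1, h2, dsp_append]
  simp

lemma l1_le_visited {X : ℕ → Site d} (hX : X ∈ Good 0) (n : ℕ) :
    l1 (X n) ≤ (visited X n).card := by
  have key : ∀ n, ∀ m ≤ l1 (X n), ∃ i ≤ n, l1 (X i) = m := by
    intro n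
    induction n with
    | zero =>
      intro m hm
      rw [good_start hX] at hm
      have : m = 0 := by simpa only [l1, Pi.zero_apply, Int.natAbs_zero, Finset.sum_const_zero, nonpos_iff_eq_zero] using hm
      exact ⟨0, le_rfl, by rw [good_start hX, this]; simp only [l1, Pi.zero_apply, Int.natAbs_zero, Finset.sum_const_zero]⟩
    | succ n ih =>
      intro m hm
      obtain ⟨u, hu⟩ := good_step hX n
      by_cases hmn : m ≤ l1 (X n)
      · obtain ⟨i, hi, him⟩ := ih m hmn
        exact ⟨i, by omega, him⟩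
      · have h1 := l1_add_le (X n) (vec u)
        rw [l1_vec, ← hu] at h1
        exact ⟨n + 1, le_rfl, by omega⟩
  have h2 : Finset.range (l1 (X n) + 1) ⊆ (visited X n).image l1 := by
    intro m hm
    rw [Finset.mem_range] at hm
    obtain ⟨i, hi, him⟩ := key n m (by omega)
    rw [Finset.mem_image]
    exact ⟨X i, Finset.mem_image.2 ⟨i, by simp; omega, rfl⟩, him⟩
  have h3 := (Finset.card_le_card h2).trans Finset.card_image_le
  rw [Finset.card_range] at h3
  omega

/-- Real bilinear pairing is additive in the direction. -/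
lemma inner_neg (x : Site d) (v : Fin d → ℝ) : inner x (-v) = -inner x v := by
  simp only [inner, Pi.neg_apply, mul_neg, Finset.sum_neg_distrib]

/-- The integer functional with coefficients `m`. -/
def intHom (m : Fin d → ℤ) : Site d →+ ℤ where
  toFun x := ∑ i, x i * m i
  map_zero' := by simp
  map_add' x y := by simp [add_mul, Finset.sum_add_distrib]

lemma intHom_close {v : Fin d → ℝ} {D : ℝ} {c : Fin d → ℤ} (hc : ∀ i, |D * v i - c i| ≤ 1 / 2)
    (x : Site d) : |D * inner x v - (intHom c x : ℝ)| ≤ (l1 x : ℝ) / 2 := by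
  have e : D * inner x v - (intHom c x : ℝ) = ∑ i, (x i : ℝ) * (D * v i - c i) := by
    simp only [intHom, inner, AddMonoidHom.coe_mk, ZeroHom.coe_mk]
    push_cast
    rw [Finset.mul_sum, ← Finset.sum_sub_distrib]
    refine Finset.sum_congr rfl fun i _ => ?_
    ring
  rw [e]
  calc |∑ i, (x i : ℝ) * (D * v i - c i)|
      ≤ ∑ i, |(x i : ℝ) * (D * v i - c i)| := Finset.abs_sum_le_sum_abs _ _
    _ ≤ ∑ i, ((x i).natAbs : ℝ) * (1 / 2) := by
        refine Finset.sum_le_sum fun i _ => ?_
        rw [abs_mul]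
        refine mul_le_mul ?_ (hc i) (abs_nonneg _) (by (clear * -; positivity))
        rw [Nat.cast_natAbs, Int.cast_abs]
    _ = (l1 x : ℝ) / 2 := by
        rw [← Finset.sum_mul, l1]
        push_cast
        ring

/-- A nonzero integer functional is a multiple of a surjective one. -/
lemma exists_surj {h' : Site d →+ ℤ} (hne : ∃ x, h' x ≠ 0) :
    ∃ (h : Site d →+ ℤ) (g : ℕ), Function.Surjective h ∧ 0 < g ∧ ∀ x, h' x = g * h x := by
  obtain ⟨a, ha⟩ := Int.subgroup_cyclic h'.range
  have hdvd : ∀ x, ((a.natAbs : ℕ) : ℤ) ∣ h' x := by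
    intro x
    have h1 : h' x ∈ h'.range := ⟨x, rfl⟩
    rw [ha, AddSubgroup.mem_closure_singleton] at h1
    obtain ⟨n, hn⟩ := h1
    rw [Int.natAbs_dvd]
    exact ⟨n, by rw [← hn, smul_eq_mul, mul_comm]⟩
  have ha0 : a ≠ 0 := by
    rintro rfl
    obtain ⟨x, hx⟩ := hne
    have := hdvd x
    simp only [Int.natAbs_zero, CharP.cast_eq_zero, zero_dvd_iff] at this
    exact hx this
  have hg : 0 < a.natAbs := Int.natAbs_pos.2 ha0
  let h : Site d →+ ℤ :=
    { toFun := fun x => h' x / (a.natAbs : ℤ)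
      map_zero' := by simp only [map_zero, Nat.cast_natAbs, Int.cast_abs, Int.cast_eq, EuclideanDomain.zero_div]
      map_add' := fun x y => by rw [map_add, Int.add_ediv_of_dvd_left (hdvd x)] }
  have hmul : ∀ x, h' x = (a.natAbs : ℕ) * h x := fun x =>
    (Int.mul_ediv_cancel' (hdvd x)).symm
  refine ⟨h, a.natAbs, ?_, hg, hmul⟩
  have hmem : ((a.natAbs : ℕ) : ℤ) ∈ h'.range := by
    rw [ha, AddSubgroup.mem_closure_singleton]
    rcases Int.natAbs_eq a with h1 | h1
    · exact ⟨1, by rw [one_smul]; exact h1⟩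
    · exact ⟨-1, by rw [neg_smul, one_smul]; omega⟩
  obtain ⟨y, hy⟩ := hmem
  have hy1 : h y = 1 := by
    have h2 := hmul y
    rw [hy] at h2
    have h3 : ((a.natAbs : ℕ) : ℤ) ≠ 0 := by exact_mod_cast hg.ne'
    have h4 : ((a.natAbs : ℕ) : ℤ) * 1 = (a.natAbs : ℕ) * h y := by rw [mul_one]; exact h2
    exact (mul_left_cancel₀ h3 h4).symm
  intro k
  exact ⟨k • y, by rw [map_zsmul, hy1]; simp⟩

/-- Quantified version. -/
def TE (v : Fin d → ℝ) (m N : ℕ) : Set (ℕ → Site d) :=
  {X | (∀ K : ℕ, ∃ M : ℕ, ∀ n, M ≤ n → (K : ℝ) ≤ inner (X n) v) ∧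
    ∀ n, N ≤ n → ((visited X n).card : ℝ) ≤ (m + 1) * inner (X n) v}

lemma measurableSet_TE (v : Fin d → ℝ) (m N : ℕ) : MeasurableSet (TE v m N) := by
  have : TE v m N = (⋂ K : ℕ, ⋃ M : ℕ, ⋂ n : ℕ, {X | M ≤ n → (K : ℝ) ≤ inner (X n) v}) ∩
      ⋂ n : ℕ, {X | N ≤ n → ((visited X n).card : ℝ) ≤ (m + 1) * inner (X n) v} := by
    ext X
    simp only [TE, Set.mem_ofPred_eq, Set.mem_inter_iff, Set.mem_iInter, Set.mem_iUnion]
  rw [this]
  refine MeasurableSet.inter ?_ ?_
  · refine MeasurableSet.iInter fun K => MeasurableSet.iUnion fun M => MeasurableSet.iInter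
      fun n => ?_
    refine measurableSet_local n _ fun X Y hXY hX hn => ?_
    rw [← hXY n le_rfl]; exact hX hn
  · refine MeasurableSet.iInter fun n => measurableSet_local n _ fun X Y hXY hX hn => ?_
    have e : visited Y n = visited X n := by
      refine Finset.image_congr ?_
      intro i hi
      exact (hXY i (by simpa only using Nat.lt_succ_iff.1 (by simpa using hi))).symm
    rw [e, ← hXY n le_rfl]; exact hX hn

lemma thinEscape_subset (v : Fin d → ℝ) : ThinEscape v ⊆ ⋃ p : ℕ × ℕ, TE v p.1 p.2 := by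
  rintro X ⟨hX, c, hc, hev⟩
  obtain ⟨N, hN⟩ := eventually_atTop.1 hev
  obtain ⟨m, hm⟩ := exists_nat_one_div_lt hc
  refine Set.mem_iUnion.2 ⟨(m, N), fun K => ?_, fun n hn => ?_⟩
  · obtain ⟨M, hM⟩ := (tendsto_atTop_atTop.1 hX) K
    exact ⟨M, hM⟩
  · have h1 := hN n hn
    have hm1 : (0 : ℝ) < (m : ℝ) + 1 := by (clear * -; positivity)
    have h2 : 1 / ((m : ℝ) + 1) * ((visited X n).card : ℝ) ≤ inner (X n) v := by
      refine le_trans ?_ h1
      (clear * - hm; gcongr)
    rw [one_div, inv_mul_le_iff₀ hm1] at h2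
    exact h2

section final

variable (μ : Measure (Row d)) [IsProbabilityMeasure μ]

omit [IsProbabilityMeasure μ] in
lemma exists_TE {v : Fin d → ℝ} (hpos : annealed μ 0 (ThinEscape v) ≠ 0) :
    ∃ m N, annealed μ 0 (TE v m N) ≠ 0 := by
  by_contra hcon
  push Not at hcon
  apply hpos
  refine le_antisymm ?_ zero_le
  calc annealed μ 0 (ThinEscape v) ≤ annealed μ 0 (⋃ p : ℕ × ℕ, TE v p.1 p.2) :=
        annealed_mono μ 0 (thinEscape_subset v)
    _ ≤ ∑' p : ℕ × ℕ, annealed μ 0 (TE v p.1 p.2) :=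
        annealed_iUnion_le μ 0 fun p => measurableSet_TE v _ _
    _ = 0 := by simp [hcon]

lemma TE_subset {v : Fin d → ℝ} {m m' N : ℕ} (hm : m ≤ m') {h : Site d →+ ℤ} {g : ℕ} (hg : 0 < g)
    {c : Fin d → ℤ} (hc : ∀ i, |((m' : ℝ) + 1) * v i - c i| ≤ 1 / 2)
    (hh : ∀ x, intHom c x = g * h x) :
    TE v m N ∩ Good 0 ⊆ HE h (2 * g) N := by
  rintro X ⟨⟨hX1, hX2⟩, hgood⟩
  have hgr : (0 : ℝ) < g := by exact_mod_cast hg
  have hD : (1 : ℝ) ≤ (m' : ℝ) + 1 := by
    have : (0 : ℝ) ≤ m' := by (clear * -; positivity)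
    linarith only []
  have key : ∀ n, N ≤ n → ((m' : ℝ) + 1) * inner (X n) v / 2 ≤ g * (h (X n) : ℝ) ∧
      ((visited X n).card : ℝ) ≤ ((m' : ℝ) + 1) * inner (X n) v ∧ 0 ≤ inner (X n) v := by
    intro n hn
    have h1 := hX2 n hn
    have hm1 : (0 : ℝ) < (m : ℝ) + 1 := by (clear * -; positivity)
    have hin : 0 ≤ inner (X n) v := by
      by_contra hneg
      push Not at hneg
      have : ((m : ℝ) + 1) * inner (X n) v < 0 := mul_neg_of_pos_of_neg hm1 hneg
      have h3 : (0 : ℝ) ≤ ((visited X n).card : ℝ) := by (clear * -; positivity)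
      linarith only [h1, this]
    have hmm : (m : ℝ) ≤ m' := by exact_mod_cast hm
    have h2 : ((visited X n).card : ℝ) ≤ ((m' : ℝ) + 1) * inner (X n) v :=
      h1.trans (by (clear * - hmm hin; gcongr))
    have h3 := intHom_close hc (X n)
    rw [hh] at h3
    have h4 : (l1 (X n) : ℝ) ≤ ((visited X n).card : ℝ) := by
      exact_mod_cast l1_le_visited hgood n
    have h5 := (abs_le.1 h3).2
    push_cast at h5
    exact ⟨by linarith only [h2, h4, h5], h2, hin⟩
  constructor
  · intro K
    obtain ⟨M, hM⟩ := hX1 (2 * g * K)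
    refine ⟨max M N, fun n hn => ?_⟩
    obtain ⟨k1, _, k3⟩ := key n ((le_max_right _ _).trans hn)
    have h1 := hM n ((le_max_left _ _).trans hn)
    push_cast at h1
    have h2 : (g : ℝ) * K ≤ g * (h (X n) : ℝ) := by
      calc (g : ℝ) * K ≤ inner (X n) v / 2 := by linarith only [h1]
        _ ≤ ((m' : ℝ) + 1) * inner (X n) v / 2 := by nlinarith
        _ ≤ _ := k1
    have h3 := le_of_mul_le_mul_left h2 hgr
    exact_mod_cast h3
  · intro n hn
    obtain ⟨k1, k2, _⟩ := key n hn
    have : ((visited X n).card : ℝ) ≤ 2 * g * (h (X n) : ℝ) := by linarith only [k1, k2]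
    exact_mod_cast this

/-- The thin-tube theorem. -/
theorem thin_tube (hd : 3 ≤ d) (hμ : Elliptic μ) (v : Fin d → ℝ) :
    annealed μ 0 (ThinEscape v) = 0 ∨ annealed μ 0 (ThinEscape (-v)) = 0 := by
  by_contra hcon
  push Not at hcon
  obtain ⟨m₁, N₁, h1⟩ := exists_TE μ hcon.1
  obtain ⟨m₂, N₂, h2⟩ := exists_TE μ hcon.2
  set m := max m₁ m₂ with hm
  set c : Fin d → ℤ := fun i => round (((m : ℝ) + 1) * v i) with hc
  have hc1 : ∀ i, |((m : ℝ) + 1) * v i - c i| ≤ 1 / 2 := fun i => abs_sub_round _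
  have hc2 : ∀ i, |((m : ℝ) + 1) * (-v) i - ((-c) i : ℤ)| ≤ 1 / 2 := by
    intro i
    have h3 := hc1 i
    rw [← abs_neg] at h3
    refine le_of_eq_of_le ?_ h3
    congr 1
    simp only [Pi.neg_apply, Int.cast_neg]
    ring
  -- the functional is not zero
  have hne : ∃ x, intHom c x ≠ 0 := by
    by_contra hz
    push Not at hz
    apply h1
    refine le_antisymm ((annealed_inter_good μ 0 _).trans ?_) zero_le
    have hempty : TE v m₁ N₁ ∩ Good 0 = ∅ := by
      rw [Set.eq_empty_iff_forall_notMem]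
      rintro X ⟨⟨hX1, hX2⟩, hgood⟩
      obtain ⟨M, hM⟩ := hX1 1
      have k1 := hM (max M N₁) (le_max_left _ _)
      have k2 := hX2 (max M N₁) (le_max_right _ _)
      have k3 := intHom_close hc1 (X (max M N₁))
      rw [hz] at k3
      have k4 : (l1 (X (max M N₁)) : ℝ) ≤ ((visited X (max M N₁)).card : ℝ) := by
        exact_mod_cast l1_le_visited hgood _
      have k5 := (abs_le.1 k3).2
      have k6 : (m₁ : ℝ) ≤ m := by
        exact_mod_cast le_max_left m₁ m₂
      have k7 : (0 : ℝ) ≤ m := by (clear * -; positivity)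
      push_cast at k1 k5
      nlinarith only [k2, k4, k1, k5, k6]
    rw [hempty]
    simp only [annealed, measure_empty, lintegral_const, measure_univ, mul_one, Std.le_refl]
  obtain ⟨h, g, hsurj, hg, hmul⟩ := exists_surj hne
  have hmul2 : ∀ x, intHom (-c) x = g * (-h) x := by
    intro x
    have e : intHom (-c) x = -intHom c x := by
      simp only [intHom, Pi.neg_apply, mul_neg, Finset.sum_neg_distrib, AddMonoidHom.coe_mk, ZeroHom.coe_mk]
    rw [e, hmul, AddMonoidHom.neg_apply]
    ring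
  have hs1 := TE_subset (N := N₁) (le_max_left m₁ m₂) hg hc1 hmul
  have hs2 := TE_subset (N := N₂) (le_max_right m₁ m₂) hg hc2 hmul2
  refine core μ hd hμ hsurj ?_ ?_
  · refine lin_of_event μ (C := 2 * g) (N := N₁) fun h0 => h1 ?_
    exact le_antisymm (((annealed_inter_good μ 0 _).trans (annealed_mono μ 0 hs1)).trans h0.le)
      zero_le
  · refine lin_of_event μ (C := 2 * g) (N := N₂) fun h0 => h2 ?_
    exact le_antisymm (((annealed_inter_good μ 0 _).trans (annealed_mono μ 0 hs2)).trans h0.le)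
      zero_le

/-- A walk with a velocity that has positive inner product with `v` is thin. -/
lemma speed_subset {v w : Fin d → ℝ} (hw : 0 < ∑ i, w i * v i) : Speed w ⊆ ThinEscape v := by
  intro X hX
  set q := ∑ i, w i * v i with hq
  have h1 : Tendsto (fun n : ℕ => ∑ i, ((X n i : ℝ) / n) * v i) atTop (nhds q) := by
    refine tendsto_finsetSum _ fun i _ => Tendsto.mul_const _ ?_
    exact (tendsto_pi_nhds.1 hX) i
  have h2 : ∀ᶠ n : ℕ in atTop, q / 2 < ∑ i, ((X n i : ℝ) / n) * v i :=
    h1.eventually_const_lt (by linarith only [hw])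
  have h3 : ∀ᶠ n : ℕ in atTop, q / 2 * n ≤ inner (X n) v := by
    filter_upwards [h2, eventually_ge_atTop 1] with n hn hn1
    have hn0 : (0 : ℝ) < n := by exact_mod_cast hn1
    have e : inner (X n) v = (∑ i, ((X n i : ℝ) / n) * v i) * n := by
      rw [inner, Finset.sum_mul]
      refine Finset.sum_congr rfl fun i _ => ?_
      (clear * - hn1; field_simp)
    rw [e]
    (clear * - hn hn1; gcongr)
  have h4 : ∀ᶠ n : ℕ in atTop, q / 4 * ((visited X n).card : ℝ) ≤ inner (X n) v := by
    filter_upwards [h3, eventually_ge_atTop 1] with n hn hn1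
    have hn1' : (1 : ℝ) ≤ n := by exact_mod_cast hn1
    have hc : ((visited X n).card : ℝ) ≤ n + 1 := by
      have : (visited X n).card ≤ n + 1 := by
        refine Finset.card_image_le.trans ?_
        simp
      exact_mod_cast this
    have hq0 : 0 < q / 4 := by (clear * - hw; positivity)
    nlinarith only [hn, hw, hn1', hc]
  refine ⟨?_, q / 4, by (clear * - hw; positivity), h4⟩
  refine tendsto_atTop_mono' atTop h3 ?_
  exact Tendsto.const_mul_atTop (by positivity) tendsto_natCast_atTop_atTop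

/-- Two opposite nonzero velocities are impossible. -/
theorem opposite_speeds (hd : 3 ≤ d) (hμ : Elliptic μ) {w : Fin d → ℝ} (hw : w ≠ 0) {c : ℝ}
    (hc : 0 < c) : annealed μ 0 (Speed w) = 0 ∨ annealed μ 0 (Speed (-(c • w))) = 0 := by
  have hpos : 0 < ∑ i, w i * w i := by
    obtain ⟨i, hi⟩ : ∃ i, w i ≠ 0 := by
      by_contra hcon
      push Not at hcon
      exact hw (funext hcon)
    exact Finset.sum_pos' (fun j _ => mul_self_nonneg _)
      ⟨i, Finset.mem_univ i, mul_self_pos.2 hi⟩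
  have h1 : Speed w ⊆ ThinEscape w := speed_subset hpos
  have h2 : Speed (-(c • w)) ⊆ ThinEscape (-w) := by
    refine speed_subset ?_
    have e : ∑ i, (-(c • w)) i * (-w) i = c * ∑ i, w i * w i := by
      rw [Finset.mul_sum]
      refine Finset.sum_congr rfl fun i _ => ?_
      simp only [Pi.neg_apply, Pi.smul_apply, smul_eq_mul]
      ring
    rw [e]
    (clear * - hc hpos; positivity)
  rcases thin_tube μ hd hμ w with h | h
  · left
    exact le_antisymm ((annealed_mono μ 0 h1).trans h.le) zero_le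
  · right
    exact le_antisymm ((annealed_mono μ 0 h2).trans h.le) zero_le

end final

end Vale.Agent.P147
end
end
end

section

section

/-! Definitions for the one-sided theorem. -/

open MeasureTheory Filter
open scoped ENNReal

namespace Vale.Agent.P147

variable {d : ℕ}

/-- Time shift of a path. -/
def tl (n : ℕ) (X : ℕ → Site d) : ℕ → Site d := fun k => X (k + n)

/-- Space translation of a path. -/
def tr (z : Site d) (X : ℕ → Site d) : ℕ → Site d := fun k => X k + z

/-- Invariance under space translations. -/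
def TInv (A : Set (ℕ → Site d)) : Prop := ∀ (z : Site d) (X : ℕ → Site d), tr z X ∈ A ↔ X ∈ A

/-- Invariance under the time shift. -/
def SInv (A : Set (ℕ → Site d)) : Prop := ∀ X : ℕ → Site d, tl 1 X ∈ A ↔ X ∈ A

/-- The path escapes upwards. -/
def Esc (h : Site d →+ ℤ) : Set (ℕ → Site d) := {X | Tendsto (fun n => h (X n)) atTop atTop}

/-- The path stays at or above its starting height. -/
def StayUp (h : Site d →+ ℤ) : Set (ℕ → Site d) := {X | ∀ n, h (X 0) ≤ h (X n)}

/-- Escape upwards without ever going below the starting height. -/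
def UpS (h : Site d →+ ℤ) : Set (ℕ → Site d) := StayUp h ∩ Esc h

/-- The first passage at height `≥ k`. -/
def FP (h : Site d →+ ℤ) (k : ℕ) : Set (List (Dir d)) :=
  {l | (∀ a b, l = a ++ b → b ≠ [] → h (dsp a) < k) ∧ (k : ℤ) ≤ h (dsp l)}

/-- The walk from `0` reaches height `k`, and the path after the first passage is in `A`. -/
def RA (h : Site d →+ ℤ) (A : Set (ℕ → Site d)) (k : ℕ) : Set (ℕ → Site d) :=
  ⋃ l ∈ FP h k, cyl 0 l ∩ tl l.length ⁻¹' A

/-- The annealed law. -/
noncomputable def annM (μ : Measure (Row d)) (x : Site d) : Measure (ℕ → Site d) :=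
  (envLaw μ).bind (fun ω => quenched ω x)

/-- Sum of the quenched weights of the upward paths of height `k` that end at the origin. -/
noncomputable def BB (h : Site d →+ ℤ) (k : ℕ) (ω : Env d) : ℝ≥0∞ :=
  ∑' l : Up h k, qw ω (-dsp (l : List (Dir d))) l

open Classical in
/-- Law of the displacement of upward paths of height `k`. -/
noncomputable def UD (μ : Measure (Row d)) (h : Site d →+ ℤ) (k : ℕ) (z : Site d) : ℝ≥0∞ :=
  ∑' l : Up h k, wt μ l * (if dsp (l : List (Dir d)) = z then 1 else 0)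

lemma annM_apply (μ : Measure (Row d)) (x : Site d) {A : Set (ℕ → Site d)}
    (hA : MeasurableSet A) : annM μ x A = annealed μ x A := by
  rw [annM, Measure.bind_apply hA (measurable_quenched x).aemeasurable]
  rfl

instance (μ : Measure (Row d)) [IsProbabilityMeasure μ] (x : Site d) :
    IsProbabilityMeasure (annM μ x) := by
  constructor
  rw [annM_apply μ x MeasurableSet.univ]
  simp [annealed]

lemma measurable_tl (n : ℕ) : Measurable (tl n : (ℕ → Site d) → (ℕ → Site d)) :=
  measurable_pi_lambda _ fun k => measurable_pi_apply (k + n)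

lemma measurable_tr (z : Site d) : Measurable (tr z : (ℕ → Site d) → (ℕ → Site d)) :=
  measurable_pi_lambda _ fun k =>
    (measurable_of_countable (fun y : Site d => y + z)).comp (measurable_pi_apply k)

lemma measurableSet_stayUp (h : Site d →+ ℤ) : MeasurableSet (StayUp h) := by
  have : StayUp h = ⋂ n : ℕ, {X | h (X 0) ≤ h (X n)} := by ext X; simp only [StayUp, Set.mem_ofPred_eq, Set.mem_iInter]
  rw [this]
  exact MeasurableSet.iInter fun n => measurableSet_local n _ fun X Y hXY hX => by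
    rw [← hXY n le_rfl, ← hXY 0 (by omega)]; exact hX

lemma measurableSet_esc (h : Site d →+ ℤ) : MeasurableSet (Esc h) := by
  have : Esc h = ⋂ K : ℤ, ⋃ M : ℕ, ⋂ n : ℕ, {X | M ≤ n → K ≤ h (X n)} := by
    ext X
    simp only [Esc, Set.mem_ofPred_eq, tendsto_atTop_atTop, Set.mem_iInter, Set.mem_iUnion]
  rw [this]
  refine MeasurableSet.iInter fun K => MeasurableSet.iUnion fun M => MeasurableSet.iInter
      fun n => ?_
  refine measurableSet_local n _ fun X Y hXY hX hn => ?_
  rw [← hXY n le_rfl]; exact hX hn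

lemma measurableSet_upS (h : Site d →+ ℤ) : MeasurableSet (UpS h) :=
  (measurableSet_stayUp h).inter (measurableSet_esc h)

lemma tinv_stayUp (h : Site d →+ ℤ) : TInv (StayUp h) := by
  intro z X
  simp only [StayUp, Set.mem_ofPred_eq, tr, map_add, add_le_add_iff_right]

lemma tinv_esc (h : Site d →+ ℤ) : TInv (Esc h) := by
  intro z X
  simp only [Esc, Set.mem_ofPred_eq, tr, map_add]
  constructor
  · intro hX
    have := tendsto_atTop_add_const_right atTop (-h z) hX
    simpa only [add_neg_cancel_right] using this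
  · intro hX
    exact tendsto_atTop_add_const_right atTop (h z) hX

lemma tinv_inter {A B : Set (ℕ → Site d)} (hA : TInv A) (hB : TInv B) : TInv (A ∩ B) :=
  fun z X => and_congr (hA z X) (hB z X)

lemma tinv_upS (h : Site d →+ ℤ) : TInv (UpS h) := tinv_inter (tinv_stayUp h) (tinv_esc h)

lemma sinv_esc (h : Site d →+ ℤ) : SInv (Esc h) := by
  intro X
  exact tendsto_add_atTop_iff_nat (f := fun n => h (X n)) 1

lemma sinv_tl {A : Set (ℕ → Site d)} (hA : SInv A) (n : ℕ) (X : ℕ → Site d) :
    tl n X ∈ A ↔ X ∈ A := by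
  induction n with
  | zero => rfl
  | succ n ih =>
    rw [← ih, ← hA (tl n X)]
    have : tl 1 (tl n X) = tl (n + 1) X := by
      funext k; simp only [tl]; congr 1; omega
    rw [this]

end Vale.Agent.P147
end
end

section

section

set_option linter.all false

open MeasureTheory Filter
open scoped ENNReal

namespace Vale.Agent.P147

variable {d : ℕ}

lemma mk_nonneg (x : Site d) (l : List (Dir d)) : (fun n => x + dsp (l.take n)) ∈ cyl x l :=
  fun _ _ => rfl

lemma mk_pc {ν ν' : Measure (ℕ → Site d)} (x : Site d)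
    (hg : ν (Good x)ᶜ = 0) (hg' : ν' (Good x)ᶜ = 0)
    (h : ∀ l : List (Dir d), ν (cyl x l) = ν' (cyl x l)) (n : ℕ) (g : ℕ → Site d) :
    ν (pc n g) = ν' (pc n g) := by
  by_cases hl : ∃ l ∈ lists d n, ∀ i ≤ n, g i = x + dsp (l.take i)
  · obtain ⟨l, hl, hgl⟩ := hl
    rw [mem_lists] at hl
    have : pc n g = cyl x l := by
      ext X
      simp only [pc, cyl, Set.mem_ofPred_eq, hl]
      exact forall_congr' fun i => forall_congr' fun hi => by rw [hgl i hi]
    rw [this]
    exact h l
  · have hsub : pc n g ⊆ (Good x)ᶜ := by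
      intro X hX hgX
      obtain ⟨l, hl', hXl⟩ := hgX n
      apply hl
      refine ⟨l, hl', fun i hi => ?_⟩
      rw [← hX i hi]
      exact hXl i (by rw [mem_lists.1 hl']; exact hi)
    rw [measure_mono_null hsub hg, measure_mono_null hsub hg']

lemma mk_cylinder {ν ν' : Measure (ℕ → Site d)}
    (h : ∀ n g, ν (pc n g) = ν' (pc n g)) {s : Set (ℕ → Site d)}
    (hs : s ∈ measurableCylinders (fun _ : ℕ => Site d)) : ν s = ν' s := by
  rw [MeasureTheory.mem_measurableCylinders] at hs
  obtain ⟨I, T, hT, rfl⟩ := hs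
  set n := I.sup id with hn
  have hsub : ∀ i ∈ I, i ∈ Finset.Iic n := fun i hi => by
    simp only [Finset.mem_Iic]
    exact Finset.le_sup (f := id) hi
  set T' : Set ((i : Finset.Iic n) → Site d) :=
    {g | (fun i : I => g ⟨i, hsub i i.2⟩) ∈ T} with hT'
  have e : cylinder I T = Preorder.frestrictLe (π := fun _ : ℕ => Site d) n ⁻¹' T' := by
    ext X
    simp only [cylinder, Set.mem_preimage, hT', Set.mem_ofPred_eq]
    rfl
  rw [e]
  have e2 : Preorder.frestrictLe (π := fun _ : ℕ => Site d) n ⁻¹' T' =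
      ⋃ g : T', Preorder.frestrictLe (π := fun _ : ℕ => Site d) n ⁻¹' {g.1} := by
    ext X; simp only [Set.mem_preimage, Set.iUnion_coe_set, Set.biUnion_preimage_singleton]
  have hm : ∀ g : (i : Finset.Iic n) → Site d,
      Preorder.frestrictLe (π := fun _ : ℕ => Site d) n ⁻¹' {g} =
        pc n (fun i => if hi : i ≤ n then g ⟨i, by simpa only [Finset.mem_Iic] using hi⟩ else 0) := by
    intro g
    rw [← frestrictLe_preimage]
    congr 2
    funext i
    have := i.2
    simp only [Finset.mem_Iic] at this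
    simp [this]
  have e3 : ∀ κ : Measure (ℕ → Site d),
      κ (Preorder.frestrictLe (π := fun _ : ℕ => Site d) n ⁻¹' T') =
      ∑' g : T', κ (pc n (fun i => if hi : i ≤ n then g.1 ⟨i, by simpa only [Finset.mem_Iic] using hi⟩ else 0)) := by
    intro κ
    rw [e2, measure_iUnion]
    · simp only [hm]
    · intro g g' hgg
      refine Disjoint.preimage _ ?_
      rw [Set.disjoint_singleton]
      exact fun h => hgg (Subtype.ext h)
    · intro g
      rw [hm]
      exact measurableSet_pc _ _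
  rw [e3, e3]
  exact tsum_congr fun g => h _ _

/-- Two finite measures on nearest neighbour paths that agree on cylinders are equal. -/
theorem measure_ext_cyl {ν ν' : Measure (ℕ → Site d)} [IsFiniteMeasure ν] (x : Site d)
    (hg : ν (Good x)ᶜ = 0) (hg' : ν' (Good x)ᶜ = 0)
    (h : ∀ l : List (Dir d), ν (cyl x l) = ν' (cyl x l)) : ν = ν' := by
  refine MeasureTheory.ext_of_generate_finite (measurableCylinders (fun _ : ℕ => Site d))
    (MeasureTheory.generateFrom_measurableCylinders).symm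
    MeasureTheory.isPiSystem_measurableCylinders
    (fun s hs => mk_cylinder (mk_pc x hg hg' h) hs)
    (mk_cylinder (mk_pc x hg hg' h) (MeasureTheory.univ_mem_measurableCylinders _))

lemma mk_tl {X : ℕ → Site d} (x : Site d) (l l' : List (Dir d)) :
    X ∈ cyl x (l ++ l') ↔ X ∈ cyl x l ∧ tl l.length X ∈ cyl (x + dsp l) l' := by
  constructor
  · intro hX
    refine ⟨fun n hn => ?_, fun n hn => ?_⟩
    · rw [hX n (by rw [List.length_append]; omega), List.take_append_of_le_length hn]
    · unfold tl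
      rw [hX (n + l.length) (by rw [List.length_append]; omega), add_comm n l.length,
        List.take_length_add_append, dsp_append, add_assoc]
  · rintro ⟨h1, h2⟩ n hn
    rw [List.length_append] at hn
    rcases Nat.le_total n l.length with h | h
    · rw [h1 n h, List.take_append_of_le_length h]
    · obtain ⟨m, rfl⟩ : ∃ m, n = m + l.length := ⟨n - l.length, by omega⟩
      have := h2 m (by omega)
      unfold tl at this
      rw [this, add_comm m l.length, List.take_length_add_append, dsp_append, add_assoc]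

lemma mk_good_tl {X : ℕ → Site d} {x : Site d} {l : List (Dir d)} (hX : X ∈ Good x)
    (hl : X ∈ cyl x l) : tl l.length X ∈ Good (x + dsp l) := by
  intro n
  obtain ⟨l', h1, h2⟩ := good_segment hX hl (n := l.length + n) (by omega)
  rw [List.length_append] at h1
  exact ⟨l', mem_lists.2 (by omega), ((mk_tl x l l').1 h2).2⟩

/-- The Markov property. -/
theorem quenched_markov (ω : Env d) (x : Site d) (l : List (Dir d)) {A : Set (ℕ → Site d)}
    (hA : MeasurableSet A) :
    quenched ω x (cyl x l ∩ tl l.length ⁻¹' A) = qw ω x l * quenched ω (x + dsp l) A := by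
  have happ : ∀ B : Set (ℕ → Site d), MeasurableSet B →
      (((quenched ω x).restrict (cyl x l)).map (tl l.length)) B
        = quenched ω x (cyl x l ∩ tl l.length ⁻¹' B) := by
    intro B hB
    rw [Measure.map_apply (measurable_tl _) hB,
      Measure.restrict_apply ((measurable_tl _) hB), Set.inter_comm]
  have key : ((quenched ω x).restrict (cyl x l)).map (tl l.length)
      = qw ω x l • quenched ω (x + dsp l) := by
    refine measure_ext_cyl (x + dsp l) ?_ ?_ ?_
    · rw [happ _ (measurableSet_good _).compl]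
      refine measure_mono_null ?_ (quenched_good ω x)
      rintro X ⟨h1, h2⟩ h3
      exact h2 (mk_good_tl h3 h1)
    · rw [Measure.smul_apply, quenched_good, smul_zero]
    · intro l'
      rw [happ _ (measurableSet_cyl _ _), Measure.smul_apply, quenched_cyl, smul_eq_mul,
        ← qw_append, ← quenched_cyl]
      congr 1
      ext X
      rw [mk_tl]
      rfl
  rw [← happ A hA, key, Measure.smul_apply, smul_eq_mul]

/-- Space translations. -/
theorem quenched_shift (ω : Env d) (x z : Site d) {A : Set (ℕ → Site d)}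
    (hA : MeasurableSet A) :
    quenched (shift z ω) x A = quenched ω (x + z) (tr (-z) ⁻¹' A) := by
  have hcyl : ∀ l : List (Dir d), tr (-z) ⁻¹' (cyl x l) = cyl (x + z) l := by
    intro l
    ext X
    simp only [Set.mem_preimage, cyl, Set.mem_ofPred_eq, tr]
    refine forall_congr' fun n => forall_congr' fun _ => ?_
    constructor
    · intro h
      have h' : X n = x + dsp (l.take n) + z := by rw [← h]; abel
      rw [h']; abel
    · intro h
      rw [h]; abel
  have hgood : tr (-z) ⁻¹' (Good x) = Good (x + z) := by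
    ext X
    simp only [Set.mem_preimage, Good, Set.mem_ofPred_eq]
    refine forall_congr' fun n => exists_congr fun l => and_congr_right fun _ => ?_
    rw [← hcyl l]
    rfl
  have key : quenched (shift z ω) x = (quenched ω (x + z)).map (tr (-z)) := by
    refine measure_ext_cyl x (quenched_good _ _) ?_ ?_
    · rw [Measure.map_apply (measurable_tr _) (measurableSet_good _).compl, Set.preimage_compl,
        hgood, quenched_good]
    · intro l
      rw [Measure.map_apply (measurable_tr _) (measurableSet_cyl _ _), hcyl, quenched_cyl,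
        quenched_cyl, qw_shift]
  rw [key, Measure.map_apply (measurable_tr _) hA]

open Classical in
/-- Probability of an event which depends on the first `m` steps. -/
lemma mk_fin (ω : Env d) (x : Site d) (m : ℕ) {S : Set (ℕ → Site d)}
    (hS : ∀ X Y : ℕ → Site d, (∀ i ≤ m, X i = Y i) → X ∈ S → Y ∈ S) :
    quenched ω x S = ∑ l ∈ (lists d m).filter (fun l => cyl x l ⊆ S), qw ω x l := by
  have hmem : ∀ l, l ∈ (lists d m).filter (fun l => cyl x l ⊆ S) ↔
      l.length = m ∧ cyl x l ⊆ S := by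
    intro l
    rw [Finset.mem_filter, mem_lists]
  have h1 : quenched ω x (⋃ l ∈ (lists d m).filter (fun l => cyl x l ⊆ S), cyl x l)
      = ∑ l ∈ (lists d m).filter (fun l => cyl x l ⊆ S), qw ω x l := by
    rw [measure_biUnion_finset]
    · simp only [quenched_cyl]
    · intro a ha b hb hab
      have hfree : Free ((lists d m : Finset (List (Dir d))) : Set (List (Dir d))) := by
        intro a ha b hb
        simp only [Finset.mem_coe, mem_lists, List.length_append] at ha hb
        have : b.length = 0 := by omega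
        exact List.length_eq_zero_iff.1 this
      exact cyl_disjoint hfree (Finset.mem_coe.2 (Finset.mem_filter.1 (Finset.mem_coe.1 ha)).1)
        (Finset.mem_coe.2 (Finset.mem_filter.1 (Finset.mem_coe.1 hb)).1) hab
    · intro l _
      exact measurableSet_cyl x l
  rw [← h1]
  refine le_antisymm ?_ (measure_mono ?_)
  · calc quenched ω x S ≤ quenched ω x
          ((⋃ l ∈ (lists d m).filter (fun l => cyl x l ⊆ S), cyl x l) ∪ (Good x)ᶜ) := by
          refine measure_mono fun X hX => ?_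
          by_cases hg : X ∈ Good x
          · left
            obtain ⟨l, hl, hXl⟩ := hg m
            rw [mem_lists] at hl
            refine Set.mem_iUnion₂.2 ⟨l, (hmem l).2 ⟨hl, fun Y hY => ?_⟩, hXl⟩
            refine hS X Y (fun i hi => ?_) hX
            rw [hXl i (by omega), hY i (by omega)]
          · exact Or.inr hg
      _ ≤ _ + quenched ω x (Good x)ᶜ := measure_union_le _ _
      _ = _ := by rw [quenched_good, add_zero]
  · exact Set.iUnion₂_subset fun l hl => ((hmem l).1 hl).2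

lemma mk_local (h : Site d →+ ℤ) (x : Site d) {ω ω' : Env d}
    (hω : ∀ y, h x ≤ h y → ω y = ω' y) (l₀ : List (Dir d)) :
    quenched ω x (cyl x l₀ ∩ {X | ∀ n, h x ≤ h (X n)})
      = quenched ω' x (cyl x l₀ ∩ {X | ∀ n, h x ≤ h (X n)}) := by
  classical
  set S : ℕ → Set (ℕ → Site d) := fun m =>
    cyl x l₀ ∩ {X | ∀ n ≤ m + l₀.length, h x ≤ h (X n)} with hS
  have hloc : ∀ m, ∀ X Y : ℕ → Site d, (∀ i ≤ m + l₀.length, X i = Y i) → X ∈ S m → Y ∈ S m := by
    rintro m X Y hXY ⟨h1, h2⟩
    refine ⟨fun n hn => ?_, fun n hn => ?_⟩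
    · rw [← hXY n (by omega)]; exact h1 n hn
    · rw [← hXY n hn]; exact h2 n hn
  have hmeas : ∀ m, MeasurableSet (S m) := fun m =>
    measurableSet_local (m + l₀.length) (fun X => X ∈ S m) (hloc m)
  have hanti : Antitone S := by
    rintro a b hab X ⟨h1, h2⟩
    exact ⟨h1, fun n hn => h2 n (by omega)⟩
  have hint : cyl x l₀ ∩ {X | ∀ n, h x ≤ h (X n)} = ⋂ m, S m := by
    ext X
    simp only [hS, Set.mem_inter_iff, Set.mem_iInter, Set.mem_ofPred_eq]
    constructor
    · rintro ⟨h1, h2⟩ m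
      exact ⟨h1, fun n _ => h2 n⟩
    · intro H
      exact ⟨(H 0).1, fun n => (H n).2 n (by omega)⟩
  have heq : ∀ m, quenched ω x (S m) = quenched ω' x (S m) := by
    intro m
    rw [mk_fin ω x _ (hloc m), mk_fin ω' x _ (hloc m)]
    refine Finset.sum_congr rfl fun l hl => ?_
    rw [Finset.mem_filter, mem_lists] at hl
    refine qw_congr fun y hy => hω y ?_
    obtain ⟨a, b, hab, _, rfl⟩ := mem_exits.1 hy
    have h1 := hl.2 (mk_nonneg x l)
    have h2 := h1.2 a.length (by rw [← hl.1, hab, List.length_append]; omega)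
    rw [hab] at h2
    simpa only [map_add, le_add_iff_nonneg_right, ge_iff_le, List.take_left'] using h2
  have t1 := tendsto_measure_iInter_atTop (μ := quenched ω x)
    (fun m => (hmeas m).nullMeasurableSet) hanti ⟨0, measure_ne_top _ _⟩
  have t2 := tendsto_measure_iInter_atTop (μ := quenched ω' x)
    (fun m => (hmeas m).nullMeasurableSet) hanti ⟨0, measure_ne_top _ _⟩
  have e : (quenched ω x) ∘ S = (quenched ω' x) ∘ S := funext heq
  rw [e] at t1
  rw [hint]
  exact tendsto_nhds_unique t1 t2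

/-- The probability of an event on which the path stays above `h x` depends only on the
environment at heights at least `h x`. -/
theorem quenched_local (h : Site d →+ ℤ) (x : Site d) {ω ω' : Env d}
    (hω : ∀ y, h x ≤ h y → ω y = ω' y) {A : Set (ℕ → Site d)} (hA : MeasurableSet A)
    (hsub : A ⊆ StayUp h) : quenched ω x A = quenched ω' x A := by
  set K : Set (ℕ → Site d) := {X | ∀ n, h x ≤ h (X n)} with hK
  have hKm : MeasurableSet K := by
    have : K = ⋂ n : ℕ, {X : ℕ → Site d | h x ≤ h (X n)} := by ext X; simp only [hK, Set.mem_ofPred_eq, Set.mem_iInter]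
    rw [this]
    exact MeasurableSet.iInter fun n => measurableSet_local n _ fun X Y hXY hX => by
      rw [← hXY n le_rfl]; exact hX
  have key : (quenched ω x).restrict K = (quenched ω' x).restrict K := by
    refine measure_ext_cyl x ?_ ?_ ?_
    · exact le_antisymm ((Measure.restrict_apply_le _ _).trans (quenched_good ω x).le) zero_le
    · exact le_antisymm ((Measure.restrict_apply_le _ _).trans (quenched_good ω' x).le) zero_le
    · intro l
      rw [Measure.restrict_apply (measurableSet_cyl x l),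
        Measure.restrict_apply (measurableSet_cyl x l)]
      exact mk_local h x hω l
  have hAK : ∀ ω : Env d, quenched ω x A = (quenched ω x).restrict K A := by
    intro ω
    rw [Measure.restrict_apply hA]
    refine le_antisymm ?_ (measure_mono Set.inter_subset_left)
    calc quenched ω x A ≤ quenched ω x ((A ∩ K) ∪ (Good x)ᶜ) := by
          refine measure_mono fun X hX => ?_
          by_cases hg : X ∈ Good x
          · left
            refine ⟨hX, fun n => ?_⟩
            have h0 : X 0 = x := by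
              obtain ⟨l, _, hXl⟩ := hg 0
              simpa using hXl 0 (by omega)
            have := hsub hX n
            rwa [h0] at this
          · exact Or.inr hg
      _ ≤ quenched ω x (A ∩ K) + quenched ω x (Good x)ᶜ := measure_union_le _ _
      _ = _ := by rw [quenched_good, add_zero]
  rw [hAK ω, hAK ω', key]

end Vale.Agent.P147
end
end

section

section

open MeasureTheory Filter
open scoped ENNReal

namespace Vale.Agent.P147

variable {d : ℕ} (μ : Measure (Row d)) [IsProbabilityMeasure μ]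

/-- A translation invariant event has the same annealed probability from every point. -/
theorem annealed_tinv (x : Site d) {A : Set (ℕ → Site d)} (hA : MeasurableSet A) (hT : TInv A) :
    annealed μ x A = annealed μ 0 A := by
  have h1 : ∀ ω : Env d, quenched (shift x ω) 0 A = quenched ω x A := by
    intro ω
    rw [quenched_shift ω 0 x hA, zero_add]
    congr 1
    ext X
    exact hT (-x) X
  have h2 := (measurePreserving_shift μ x).lintegral_comp (measurable_quenched_apply 0 hA)
  simp only [h1] at h2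
  exact h2

/-- The sigma-algebra of the rows at the sites of a set. -/
abbrev freshAlg (S : Set (Site d)) : MeasurableSpace (Env d) :=
  ⨆ y ∈ S, MeasurableSpace.comap (fun ω : Env d => ω y) inferInstance

omit [IsProbabilityMeasure μ] in
lemma freshAlg_le (S : Set (Site d)) : freshAlg S ≤ (inferInstance : MeasurableSpace (Env d)) := by
  refine iSup₂_le fun y _ => ?_
  exact (measurable_pi_apply y).comap_le

lemma freshAlg_measurable [Nonempty (Row d)] {S : Set (Site d)} {F : Env d → ℝ≥0∞}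
    (hF : Measurable F) (hloc : ∀ ω ω' : Env d, (∀ y ∈ S, ω y = ω' y) → F ω = F ω') :
    Measurable[freshAlg S] F := by
  classical
  let p0 : Row d := Classical.arbitrary _
  let m : Env d → Env d := fun ω y => if y ∈ S then ω y else p0
  have hm : Measurable[freshAlg S] m := by
    refine @measurable_pi_lambda (Env d) (Site d) (fun _ => Row d) (freshAlg S) _ m fun y => ?_
    by_cases hy : y ∈ S
    · have e : (fun ω : Env d => m ω y) = fun ω : Env d => ω y := by
        funext ω; simp [m, hy]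
      rw [e]
      refine measurable_iff_comap_le.2 ?_
      exact le_iSup₂ (f := fun (y : Site d) (_ : y ∈ S) =>
        MeasurableSpace.comap (fun ω : Env d => ω y) inferInstance) y hy
    · have e : (fun ω : Env d => m ω y) = fun _ : Env d => p0 := by
        funext ω; simp [m, hy]
      rw [e]
      exact measurable_const
  have e : F = F ∘ m := by
    funext ω
    exact hloc ω (m ω) fun y hy => by simp [m, hy]
  rw [e]
  exact hF.comp hm

lemma freshAlg_indep {S T : Set (Site d)} (hST : Disjoint S T) :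
    ProbabilityTheory.Indep (freshAlg S) (freshAlg T) (envLaw μ) := by
  have hind : ProbabilityTheory.iIndepFun (fun (i : Site d) (ω : Env d) => ω i) (envLaw μ) :=
    ProbabilityTheory.iIndepFun_infinitePi (P := fun _ : Site d => μ) (X := fun _ p => p)
      (fun _ => measurable_id)
  exact ProbabilityTheory.indep_iSup_of_disjoint
    (fun y => (measurable_pi_apply y).comap_le) hind hST

/-- Functions of the environment below a height and quenched probabilities of events above this
height are independent. -/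
theorem lintegral_fresh (h : Site d →+ ℤ) (x : Site d) {A : Set (ℕ → Site d)}
    (hA : MeasurableSet A) (hT : TInv A) (hsub : A ⊆ StayUp h) (F : Env d → ℝ≥0∞)
    (hF : Measurable F) (hloc : ∀ ω ω' : Env d, (∀ y, h y < h x → ω y = ω' y) → F ω = F ω') :
    ∫⁻ ω, F ω * quenched ω x A ∂(envLaw μ) = (∫⁻ ω, F ω ∂(envLaw μ)) * annealed μ 0 A := by
  have : Nonempty (Row d) := nonempty_of_isProbabilityMeasure μ
  have hdisj : Disjoint {y : Site d | h y < h x} {y : Site d | h x ≤ h y} := by
    rw [Set.disjoint_left]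
    intro y (h1 : h y < h x) (h2 : h x ≤ h y)
    exact absurd h1 (not_lt.2 h2)
  have h1 : Measurable[freshAlg {y : Site d | h y < h x}] F :=
    freshAlg_measurable hF fun ω ω' hω => hloc ω ω' hω
  have h2 : Measurable[freshAlg {y : Site d | h x ≤ h y}] (fun ω : Env d => quenched ω x A) :=
    freshAlg_measurable (measurable_quenched_apply x hA) fun ω ω' hω =>
      quenched_local h x hω hA hsub
  have h3 := ProbabilityTheory.lintegral_mul_eq_lintegral_mul_lintegral_of_independent_measurableSpace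
    (freshAlg_le _) (freshAlg_le _) (freshAlg_indep μ hdisj) h1 h2
  rw [← annealed_tinv μ x hA hT]
  exact h3

/-- Decomposition of an event after a list of steps with fresh end point. -/
theorem annealed_fresh (h : Site d →+ ℤ) {l : List (Dir d)}
    (hl : ∀ a b, l = a ++ b → b ≠ [] → h (dsp a) < h (dsp l)) {A : Set (ℕ → Site d)}
    (hA : MeasurableSet A) (hT : TInv A) (hsub : A ⊆ StayUp h) :
    annealed μ 0 (cyl 0 l ∩ tl l.length ⁻¹' A) = wt μ l * annealed μ 0 A := by
  rw [wt, ← lintegral_fresh μ h (dsp l) hA hT hsub (fun ω => qw ω 0 l) (measurable_qw 0 l)]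
  · rw [annealed]
    refine lintegral_congr fun ω => ?_
    rw [quenched_markov ω 0 l hA, zero_add]
  · intro ω ω' hω
    refine qw_congr fun y hy => hω y ?_
    obtain ⟨a, b, hab, hb, rfl⟩ := mem_exits.1 hy
    rw [zero_add]
    exact hl a b hab hb

/-- If the walk escapes and `B` holds with positive probability, then this also happens without
going below the starting height. -/
theorem upS_pos (h : Site d →+ ℤ) {B : Set (ℕ → Site d)} (hB : MeasurableSet B) (hT : TInv B)
    (hS : SInv B) (hpos : annealed μ 0 (Esc h ∩ B) ≠ 0) : annealed μ 0 (UpS h ∩ B) ≠ 0 := by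
  intro h0
  apply hpos
  have hUB : MeasurableSet (UpS h ∩ B) := (measurableSet_upS h).inter hB
  have hTUB : TInv (UpS h ∩ B) := tinv_inter (tinv_upS h) hT
  have hm : ∀ l : List (Dir d), MeasurableSet (cyl 0 l ∩ tl l.length ⁻¹' (UpS h ∩ B)) :=
    fun l => (measurableSet_cyl 0 l).inter (measurable_tl l.length hUB)
  have hcover : (Esc h ∩ B) ∩ Good 0 ⊆ ⋃ l : List (Dir d),
      cyl 0 l ∩ tl l.length ⁻¹' (UpS h ∩ B) := by
    rintro X ⟨⟨hX, hXB⟩, hg⟩
    obtain ⟨t, ht⟩ : ∃ t, ∀ n, h (X t) ≤ h (X n) := by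
      obtain ⟨M, hM⟩ := (tendsto_atTop_atTop.1 hX) (h (X 0))
      obtain ⟨t, _, hmin⟩ := Finset.exists_min_image (Finset.range (M + 1))
        (fun n => h (X n)) ⟨0, by simp only [Finset.mem_range, lt_add_iff_pos_left, Order.lt_add_one_iff, zero_le]⟩
      refine ⟨t, fun n => ?_⟩
      rcases Nat.lt_or_ge n (M + 1) with hn | hn
      · exact hmin n (by simpa only [Finset.mem_range, Order.lt_add_one_iff] using hn)
      · have h1 := hmin 0 (by simp only [Finset.mem_range, lt_add_iff_pos_left, Order.lt_add_one_iff, zero_le])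
        have h2 := hM n (by omega)
        linarith only [h1, h2]
    obtain ⟨l, hl, hXl⟩ := hg t
    rw [mem_lists] at hl
    refine Set.mem_iUnion.2 ⟨l, hXl, ?_⟩
    rw [Set.mem_preimage, hl]
    refine ⟨⟨fun n => ?_, (sinv_tl (sinv_esc h) t X).2 hX⟩, (sinv_tl hS t X).2 hXB⟩
    simp only [tl, zero_add]
    exact ht _
  have hz : ∀ l : List (Dir d), annealed μ 0 (cyl 0 l ∩ tl l.length ⁻¹' (UpS h ∩ B)) = 0 := by
    intro l
    refine le_antisymm ?_ zero_le
    calc annealed μ 0 (cyl 0 l ∩ tl l.length ⁻¹' (UpS h ∩ B))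
        ≤ annealed μ (dsp l) (UpS h ∩ B) := by
          refine lintegral_mono fun ω => ?_
          beta_reduce
          rw [quenched_markov ω 0 l hUB, zero_add]
          calc qw ω 0 l * quenched ω (dsp l) (UpS h ∩ B)
              ≤ 1 * quenched ω (dsp l) (UpS h ∩ B) := by gcongr; exact qw_le_one _ _ _
            _ = _ := one_mul _
      _ = 0 := by rw [annealed_tinv μ (dsp l) hUB hTUB, h0]
  refine le_antisymm ?_ zero_le
  calc annealed μ 0 (Esc h ∩ B) ≤ annealed μ 0 ((Esc h ∩ B) ∩ Good 0) := annealed_inter_good μ 0 _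
    _ ≤ annealed μ 0 (⋃ l : List (Dir d), cyl 0 l ∩ tl l.length ⁻¹' (UpS h ∩ B)) :=
        annealed_mono μ 0 hcover
    _ ≤ ∑' l : List (Dir d), annealed μ 0 (cyl 0 l ∩ tl l.length ⁻¹' (UpS h ∩ B)) :=
        annealed_iUnion_le μ 0 hm
    _ = 0 := by simp only [hz, tsum_zero]

end Vale.Agent.P147
end
end

section

section

open MeasureTheory Filter
open scoped ENNReal

namespace Vale.Agent.P147

variable {d : ℕ} (μ : Measure (Row d)) [IsProbabilityMeasure μ]

lemma measurable_BB (h : Site d →+ ℤ) (k : ℕ) : Measurable (BB h k : Env d → ℝ≥0∞) :=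
  Measurable.tsum fun _ => measurable_qw _ _

/-- Up along `l`, and then down to `-∞` without going above the end of `l`. -/
def turnEv (h : Site d →+ ℤ) (l : List (Dir d)) : Set (ℕ → Site d) :=
  cyl 0 l ∩ tl l.length ⁻¹' (UpS (-h))

lemma measurableSet_turnEv (h : Site d →+ ℤ) (l : List (Dir d)) : MeasurableSet (turnEv h l) :=
  (measurableSet_cyl 0 l).inter (measurable_tl _ (measurableSet_upS (-h)))

lemma turnEv_not_lt {h : Site d →+ ℤ} {k k' : ℕ} {l l' : List (Dir d)} (hl : l ∈ Up h k)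
    (hl' : l' ∈ Up h k') {X : ℕ → Site d} (h1 : X ∈ turnEv h l) (h2 : X ∈ turnEv h l') :
    ¬ k < k' := by
  intro hlt
  have e1 : X l.length = dsp l := by
    have := cyl_pos h1.1 (a := l) (b := []) (by simp)
    simpa using this
  have e2 : X l'.length = dsp l' := by
    have := cyl_pos h2.1 (a := l') (b := []) (by simp)
    simpa using this
  rcases le_or_gt l.length l'.length with hle | hlt'
  · have h3 := h1.2.1 (l'.length - l.length)
    simp only [tl, zero_add, AddMonoidHom.neg_apply, neg_le_neg_iff] at h3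
    rw [Nat.sub_add_cancel hle, e1, e2, hl.2.2, hl'.2.2] at h3
    omega
  · have h3 := cyl_pos h1.1 (a := l.take l'.length) (b := l.drop l'.length) (by simp)
    rw [List.length_take, min_eq_left hlt'.le, zero_add, e2] at h3
    have h4 := hl.2.1 (l.take l'.length) (l.drop l'.length) (by simp) (by
      intro h0
      rw [List.drop_eq_nil_iff] at h0
      omega)
    rw [← h3, hl'.2.2] at h4
    omega

lemma turnEv_disjoint {h : Site d →+ ℤ} {p q : Σ k : ℕ, Up h k} (hpq : p ≠ q) :
    Disjoint (turnEv h (p.2 : List (Dir d))) (turnEv h (q.2 : List (Dir d))) := by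
  rcases p with ⟨k, l, hl⟩
  rcases q with ⟨k', l', hl'⟩
  rw [Set.disjoint_left]
  intro X h1 h2
  simp only at h1 h2
  have h3 := turnEv_not_lt hl hl' h1 h2
  have h4 := turnEv_not_lt hl' hl h2 h1
  have h5 : k = k' := by omega
  subst h5
  have h6 : l ≠ l' := by
    rintro rfl
    exact hpq rfl
  exact Set.disjoint_left.1 (cyl_disjoint (Up_free h k) hl hl' h6) h1.1 h2.1

lemma lintegral_turnEv (h : Site d →+ ℤ) (l : List (Dir d)) :
    ∫⁻ ω, qw ω (-dsp l) l * quenched ω 0 (UpS (-h)) ∂(envLaw μ) =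
      ∫⁻ ω, quenched ω 0 (turnEv h l) ∂(envLaw μ) := by
  have hm : Measurable (fun ω : Env d => qw ω (-dsp l) l * quenched ω 0 (UpS (-h))) :=
    (measurable_qw _ _).mul (measurable_quenched_apply 0 (measurableSet_upS (-h)))
  rw [← (measurePreserving_shift μ (dsp l)).lintegral_comp hm]
  refine lintegral_congr fun ω => ?_
  rw [qw_shift, neg_add_cancel, quenched_shift ω 0 (dsp l) (measurableSet_upS (-h)), turnEv,
    quenched_markov ω 0 l (measurableSet_upS (-h))]
  congr 2
  ext X
  exact tinv_upS (-h) _ X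

/-- The turning inequality: the events of going up to height exactly `k`, and then down to `-∞`
without going above `k`, are disjoint. -/
theorem turning_sum (h : Site d →+ ℤ) :
    ∑' k, ∫⁻ ω, BB h k ω * quenched ω 0 (UpS (-h)) ∂(envLaw μ) ≤ 1 := by
  have h1 : ∀ k, ∫⁻ ω, BB h k ω * quenched ω 0 (UpS (-h)) ∂(envLaw μ) =
      ∑' l : Up h k, ∫⁻ ω, quenched ω 0 (turnEv h (l : List (Dir d))) ∂(envLaw μ) := by
    intro k
    simp only [← lintegral_turnEv, BB, ← ENNReal.tsum_mul_right]
    exact lintegral_tsum fun l => ((measurable_qw _ _).mul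
      (measurable_quenched_apply 0 (measurableSet_upS (-h)))).aemeasurable
  simp only [h1]
  rw [← ENNReal.tsum_sigma' (f := fun p : Σ k : ℕ, Up h k =>
    ∫⁻ ω, quenched ω 0 (turnEv h (p.2 : List (Dir d))) ∂(envLaw μ)),
    ← lintegral_tsum fun p : Σ k : ℕ, Up h k =>
      (measurable_quenched_apply 0 (measurableSet_turnEv h _)).aemeasurable]
  calc ∫⁻ ω, ∑' p : Σ k : ℕ, Up h k, quenched ω 0 (turnEv h (p.2 : List (Dir d))) ∂(envLaw μ)
      ≤ ∫⁻ _, 1 ∂(envLaw μ) := by
        refine lintegral_mono fun ω => ?_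
        rw [← measure_iUnion (fun p q hpq => turnEv_disjoint hpq)
          fun p => measurableSet_turnEv h _]
        exact prob_le_one
    _ = 1 := by simp only [lintegral_const, measure_univ, mul_one]

end Vale.Agent.P147
end
end

section

section

open MeasureTheory Filter
open scoped ENNReal

namespace Vale.Agent.P147

variable {d : ℕ} (μ : Measure (Row d)) [IsProbabilityMeasure μ]

/-- Environments in which no site of height at least `m` allows an escape that never goes below
its starting height. -/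
def NoUp (h : Site d →+ ℤ) (m : ℤ) : Set (Env d) :=
  {ω | ∀ x : Site d, m ≤ h x → quenched ω x (UpS h) = 0}

lemma measurableSet_noUp (h : Site d →+ ℤ) (m : ℤ) : MeasurableSet (NoUp h m) := by
  have : NoUp h m = ⋂ x : Site d, ⋂ _ : m ≤ h x,
      (fun ω : Env d => quenched ω x (UpS h)) ⁻¹' {0} := by
    ext ω; simp only [NoUp, Set.mem_ofPred_eq, Set.mem_iInter, Set.mem_preimage, Set.mem_singleton_iff]
  rw [this]
  exact MeasurableSet.iInter fun x => MeasurableSet.iInter fun _ =>
    measurable_quenched_apply x (measurableSet_upS h) (MeasurableSet.singleton _)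

lemma upS_subset_stayUp (h : Site d →+ ℤ) : UpS h ⊆ StayUp h := Set.inter_subset_left

lemma noUp_local (h : Site d →+ ℤ) (m : ℤ) {ω ω' : Env d} (hω : ∀ y, m ≤ h y → ω y = ω' y) :
    ω ∈ NoUp h m ↔ ω' ∈ NoUp h m := by
  simp only [NoUp, Set.mem_ofPred_eq]
  refine forall_congr' fun x => forall_congr' fun hx => ?_
  rw [quenched_local h x (fun y hy => hω y (hx.trans hy)) (measurableSet_upS h)
    (upS_subset_stayUp h)]

lemma noUp_mono (h : Site d →+ ℤ) {m m' : ℤ} (hm : m ≤ m') : NoUp h m ⊆ NoUp h m' :=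
  fun _ hω x hx => hω x (hm.trans hx)

lemma shift_preimage_noUp (h : Site d →+ ℤ) {z : Site d} {m : ℤ} (hz : h z = m) :
    shift z ⁻¹' NoUp h 0 = NoUp h m := by
  have key : ∀ (ω : Env d) (x : Site d),
      quenched (shift z ω) x (UpS h) = quenched ω (x + z) (UpS h) := by
    intro ω x
    rw [quenched_shift ω x z (measurableSet_upS h)]
    congr 1
    ext X
    exact tinv_upS h (-z) X
  ext ω
  simp only [Set.mem_preimage, NoUp, Set.mem_ofPred_eq, key]
  constructor
  · intro H x hx
    have := H (x - z) (by rw [map_sub, hz]; omega)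
    simpa only [sub_add_cancel] using this
  · intro H x hx
    exact H (x + z) (by rw [map_add, hz]; omega)

lemma measure_noUp (h : Site d →+ ℤ) (hsurj : Function.Surjective h) (m : ℤ) :
    envLaw μ (NoUp h m) = envLaw μ (NoUp h 0) := by
  obtain ⟨z, hz⟩ := hsurj m
  rw [← shift_preimage_noUp h hz]
  exact (measurePreserving_shift μ z).measure_preimage (measurableSet_noUp h 0).nullMeasurableSet

/-- The Kolmogorov 0-1 law for the tail event. -/
lemma noUp_zero_or_one (h : Site d →+ ℤ) :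
    envLaw μ (⋃ m : ℕ, NoUp h m) = 0 ∨ envLaw μ (⋃ m : ℕ, NoUp h m) = 1 := by
  classical
  have : Nonempty (Row d) := nonempty_of_isProbabilityMeasure μ
  let p0 : Row d := Classical.arbitrary _
  let s : Site d → MeasurableSpace (Env d) :=
    fun y => MeasurableSpace.comap (fun ω : Env d => ω y) inferInstance
  have hind : ProbabilityTheory.iIndep s (envLaw μ) :=
    ProbabilityTheory.iIndepFun_infinitePi (P := fun _ : Site d => μ) (X := fun _ p => p)
      (fun _ => measurable_id)
  refine ProbabilityTheory.measure_zero_or_one_of_measurableSet_limsup (s := s)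
    (m0 := inferInstance) (f := Filter.comap h atTop)
    (p := fun t => ∃ M : ℤ, ∀ y ∈ t, h y < M) (ns := fun a : ℤ => {y | h y < a})
    (fun y => (measurable_pi_apply y).comap_le) hind ?_ ?_ ?_ ?_ ?_
  · rintro t ⟨M, hM⟩
    rw [Filter.mem_comap]
    refine ⟨Set.Ici M, Filter.Ici_mem_atTop M, fun y hy hyt => ?_⟩
    have := hM y hyt
    simp only [Set.mem_preimage, Set.mem_Ici] at hy
    omega
  · intro a b
    refine ⟨max a b, fun y hy => ?_, fun y hy => ?_⟩
    · exact lt_of_lt_of_le (show h y < a from hy) (le_max_left _ _)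
    · exact lt_of_lt_of_le (show h y < b from hy) (le_max_right _ _)
  · intro a
    exact ⟨a, fun y hy => hy⟩
  · intro y
    exact ⟨h y + 1, by simp only [Order.lt_add_one_iff, Set.mem_ofPred_eq, Std.le_refl]⟩
  · rw [Filter.limsup_eq_iInf_iSup]
    simp only [MeasurableSpace.measurableSet_iInf]
    intro u hu
    rw [Filter.mem_comap] at hu
    obtain ⟨t, ht, htu⟩ := hu
    obtain ⟨M, hM⟩ := Filter.mem_atTop_sets.1 ht
    have hMu : ∀ y, M ≤ h y → y ∈ u := fun y hy => htu (hM _ hy)
    have hun : (⋃ m : ℕ, NoUp h m) = ⋃ m : ℕ, NoUp h ((M.toNat + m : ℕ) : ℤ) := by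
      refine Set.Subset.antisymm ?_ ?_
      · refine Set.iUnion_subset fun m => ?_
        refine Set.Subset.trans (noUp_mono h ?_)
          (Set.subset_iUnion (fun m : ℕ => NoUp h ((M.toNat + m : ℕ) : ℤ)) m)
        push_cast
        omega
      · exact Set.iUnion_subset fun m => Set.subset_iUnion (fun m : ℕ => NoUp h m) (M.toNat + m)
    rw [hun]
    refine MeasurableSet.iUnion fun m => ?_
    obtain ⟨r, hrdef⟩ : ∃ r : Env d → Env d, ∀ ω y, r ω y = if M ≤ h y then ω y else p0 :=
      ⟨fun ω y => if M ≤ h y then ω y else p0, fun _ _ => rfl⟩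
    have hr : @Measurable _ _ (⨆ i ∈ u, s i) inferInstance r := by
      refine @measurable_pi_lambda _ _ _ (⨆ i ∈ u, s i) _ _ fun y => ?_
      by_cases hy : M ≤ h y
      · simp only [hrdef, hy, if_true]
        have h1 : @Measurable _ _ (s y) inferInstance (fun ω : Env d => ω y) :=
          comap_measurable _
        exact h1.mono (le_iSup₂_of_le y (hMu y hy) le_rfl) le_rfl
      · simp only [hrdef, hy, if_false]
        exact @measurable_const _ _ _ (⨆ i ∈ u, s i) p0
    have he : NoUp h ((M.toNat + m : ℕ) : ℤ) = r ⁻¹' NoUp h ((M.toNat + m : ℕ) : ℤ) := by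
      have hMm : M ≤ ((M.toNat + m : ℕ) : ℤ) := by omega
      refine Set.ext fun ω => ?_
      exact noUp_local h _ (ω := ω) (ω' := r ω) fun y hy => by
        rw [hrdef ω y, if_pos (hMm.trans hy)]
    rw [he]
    exact hr (measurableSet_noUp h _)

/-- If escape has positive annealed probability, then almost every environment allows an escape
from the origin that never goes below height `0`. -/
theorem upS_ae_pos (hμ : Elliptic μ) {h : Site d →+ ℤ} (hsurj : Function.Surjective h)
    (hpos : annealed μ 0 (Esc h) ≠ 0) : ∀ᵐ ω ∂(envLaw μ), quenched ω 0 (UpS h) ≠ 0 := by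
  have hae : ∀ᵐ ω ∂(envLaw μ), ∀ x : Site d, ∀ u : Dir d, 0 < (ω x).1 u := by
    rw [ae_all_iff]
    intro x
    have := (measurePreserving_eval_infinitePi (fun _ : Site d => μ) x).quasiMeasurePreserving
    exact this.ae hμ
  have hup : annealed μ 0 (UpS h) ≠ 0 := by
    have := upS_pos μ h (B := Set.univ) MeasurableSet.univ (fun _ _ => Iff.rfl)
      (fun _ => Iff.rfl) (by simpa using hpos)
    simpa using this
  -- the union has measure zero
  have hunion : envLaw μ (⋃ m : ℕ, NoUp h m) = envLaw μ (NoUp h 0) := by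
    have hmono : Monotone fun m : ℕ => NoUp h (m : ℤ) := fun a b hab =>
      noUp_mono h (by exact_mod_cast hab)
    rw [hmono.measure_iUnion]
    simp only [measure_noUp μ h hsurj]
    exact ciSup_const
  have hzero : envLaw μ (NoUp h 0) = 0 := by
    rcases noUp_zero_or_one μ h with h0 | h1
    · rw [← hunion, h0]
    · exfalso
      rw [hunion] at h1
      have h2 : ∀ᵐ ω ∂(envLaw μ), ω ∈ NoUp h 0 := by
        rw [← prob_compl_eq_zero_iff (measurableSet_noUp h 0)] at h1
        exact measure_eq_zero_iff_ae_notMem.1 h1 |>.mono fun ω hω => by simpa using hω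
      refine hup ?_
      rw [annealed, lintegral_eq_zero_iff (measurable_quenched_apply 0 (measurableSet_upS h))]
      filter_upwards [h2] with ω hω
      exact hω 0 (by simp)
  have hnot : ∀ᵐ ω ∂(envLaw μ), ω ∉ NoUp h 0 := measure_eq_zero_iff_ae_notMem.1 hzero
  filter_upwards [hae, hnot] with ω hell hω
  simp only [NoUp, Set.mem_ofPred_eq, not_forall] at hω
  obtain ⟨x, hx, hGx⟩ := hω
  obtain ⟨L, hL⟩ := exists_bound h
  obtain ⟨l, hl, hpath⟩ := exists_path h (L := L) (B := 2 * L + h x + 1) hL (by (clear * - hx; omega))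
    (dist1 0 x) 0 x rfl (by simp) (by rw [map_zero]; omega) hx (by omega)
  have hqw : ∀ (l : List (Dir d)) (y : Site d), qw ω y l ≠ 0 := by
    intro l
    induction l with
    | nil => intro y; simp
    | cons u l ih =>
      intro y
      rw [qw_cons]
      exact mul_ne_zero (by simpa only [ne_eq, ENNReal.ofReal_eq_zero, not_le] using hell y u) (ih _)
  have hsub : cyl 0 l ∩ tl l.length ⁻¹' UpS h ⊆ UpS h := by
    rintro X ⟨hX, hX2⟩
    refine ⟨?_, (sinv_tl (sinv_esc h) l.length X).1 hX2.2⟩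
    intro n
    have h0 : X 0 = 0 := by
      have := hX 0 (by omega)
      simpa using this
    have hlow : ∀ k ≤ l.length, 0 ≤ h (X k) := by
      intro k hk
      rw [hX k hk]
      exact (hpath (l.take k) (l.drop k) (List.take_append_drop k l).symm).1
    rw [h0, map_zero]
    rcases le_total n l.length with hn | hn
    · exact hlow n hn
    · have h1 := hX2.1 (n - l.length)
      simp only [tl, Nat.zero_add] at h1
      rw [Nat.sub_add_cancel hn] at h1
      exact (hlow l.length le_rfl).trans h1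
  intro hcon
  have h1 : quenched ω 0 (cyl 0 l ∩ tl l.length ⁻¹' UpS h) = 0 :=
    measure_mono_null hsub hcon
  rw [quenched_markov ω 0 l (measurableSet_upS h), hl] at h1
  rcases mul_eq_zero.1 h1 with h2 | h2
  · exact hqw l 0 h2
  · exact hGx h2

end Vale.Agent.P147
end
end

section

section

open MeasureTheory Filter Topology
open scoped ENNReal

namespace Vale.Agent.P147

variable {d : ℕ} (μ : Measure (Row d)) [IsProbabilityMeasure μ]

/-- Abstract contradiction. -/
theorem contra {h : Site d →+ ℤ} {q' C' : ℝ≥0∞} (hq' : q' ≠ 0) (hC' : C' ≠ ∞)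
    (hsm : ∀ k₁ : ℕ, ∃ k, k₁ ≤ k ∧ ∃ G : Set (List (Dir d)),
      G ⊆ Up h k ∧ q' ≤ ∑' l : G, wt μ l ∧
      ∫⁻ ω, (∑' l : G, qw ω (-dsp (l : List (Dir d))) l) ^ 2 ∂(envLaw μ) ≤ C')
    (hpos : ∀ᵐ ω ∂(envLaw μ), quenched ω 0 (UpS (-h)) ≠ 0)
    (hti : ∑' k, ∫⁻ ω, BB h k ω * quenched ω 0 (UpS (-h)) ∂(envLaw μ) ≤ 1) : False := by
  classical
  set g : Env d → ℝ≥0∞ := fun ω => quenched ω 0 (UpS (-h)) with hg
  have hgm : Measurable g := measurable_quenched_apply 0 (measurableSet_upS (-h))
  -- finiteness of `q'`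
  have hqt : q' ≠ ∞ := by
    obtain ⟨k, _, G, hG, h1, _⟩ := hsm 0
    have h2 : ∑' l : G, wt μ l ≤ 1 := by
      refine le_trans ?_ (uu_le_one μ h k)
      exact ENNReal.tsum_comp_le_tsum_of_injective
        (f := fun l : G => (⟨l.1, hG l.2⟩ : Up h k))
        (fun a b hab => Subtype.ext (congrArg (fun x : Up h k => x.1) hab))
        (fun l : Up h k => wt μ l)
    exact ne_top_of_le_ne_top ENNReal.one_ne_top (h1.trans h2)
  have hq4 : q' / 4 ≠ 0 := by
    simp [ENNReal.div_eq_zero_iff, hq']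
  -- choose `T`
  obtain ⟨T, hT0, hTt, hT⟩ : ∃ T : ℝ≥0∞, T ≠ 0 ∧ T ≠ ∞ ∧ C' / T ≤ q' / 4 := by
    refine ⟨C' / (q' / 4) + 1, by simp only [ne_eq, add_eq_zero, ENNReal.div_eq_zero_iff, one_ne_zero, and_false, not_false_eq_true], ?_, ?_⟩
    · exact ENNReal.add_ne_top.2 ⟨ENNReal.div_ne_top hC' hq4, ENNReal.one_ne_top⟩
    · rw [ENNReal.div_le_iff (by simp only [ne_eq, add_eq_zero, ENNReal.div_eq_zero_iff, one_ne_zero, and_false, not_false_eq_true])
        (ENNReal.add_ne_top.2 ⟨ENNReal.div_ne_top hC' hq4, ENNReal.one_ne_top⟩), mul_add]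
      refine le_trans (le_of_eq ?_) le_self_add
      rw [ENNReal.mul_div_cancel hq4 (ENNReal.div_ne_top hqt (by simp))]
  -- choose `δ`
  have hA : Tendsto (fun n : ℕ => envLaw μ {ω | g ω < ((n : ℝ≥0∞) + 1)⁻¹}) atTop (𝓝 0) := by
    have h1 : ⋂ n : ℕ, {ω | g ω < ((n : ℝ≥0∞) + 1)⁻¹} = {ω | g ω = 0} := by
      ext ω
      simp only [Set.mem_iInter, Set.mem_ofPred_eq]
      constructor
      · intro hω
        by_contra h0
        obtain ⟨n, hn⟩ := ENNReal.exists_inv_nat_lt h0
        have h2 := hω n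
        have h3 : ((n : ℝ≥0∞) + 1)⁻¹ ≤ (n : ℝ≥0∞)⁻¹ := ENNReal.inv_le_inv.2 le_self_add
        exact absurd (h2.trans_le h3) (not_lt.2 hn.le)
      · intro hω n
        rw [hω, ENNReal.inv_pos]
        exact ENNReal.add_ne_top.2 ⟨ENNReal.natCast_ne_top n, ENNReal.one_ne_top⟩
    have h0 : envLaw μ {ω | g ω = 0} = 0 := by
      have := hpos
      rw [ae_iff] at this
      convert this using 2
      ext ω
      simp only [hg, Set.mem_ofPred_eq, ne_eq, Decidable.not_not]
    rw [← h0, ← h1]
    refine tendsto_measure_iInter_atTop ?_ ?_ ⟨0, measure_ne_top _ _⟩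
    · intro n
      exact (measurableSet_lt hgm measurable_const).nullMeasurableSet
    · intro n m hnm ω hω
      have h2 : ((m : ℝ≥0∞) + 1)⁻¹ ≤ ((n : ℝ≥0∞) + 1)⁻¹ := by
        rw [ENNReal.inv_le_inv]
        (clear * - hnm; gcongr)
      exact lt_of_lt_of_le hω h2
  obtain ⟨n, hn⟩ : ∃ n : ℕ, T * envLaw μ {ω | g ω < ((n : ℝ≥0∞) + 1)⁻¹} ≤ q' / 4 := by
    have h1 : Tendsto (fun n : ℕ => T * envLaw μ {ω | g ω < ((n : ℝ≥0∞) + 1)⁻¹}) atTop
        (𝓝 (T * 0)) := ENNReal.Tendsto.const_mul hA (Or.inr hTt)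
    rw [mul_zero] at h1
    obtain ⟨n, hn⟩ := (h1.eventually_lt_const (pos_iff_ne_zero.2 hq4)).exists
    exact ⟨n, hn.le⟩
  set δ : ℝ≥0∞ := ((n : ℝ≥0∞) + 1)⁻¹ with hδ
  have hn1 : (n : ℝ≥0∞) + 1 ≠ ∞ :=
    ENNReal.add_ne_top.2 ⟨ENNReal.natCast_ne_top n, ENNReal.one_ne_top⟩
  have hδ0 : δ ≠ 0 := by rw [hδ, ne_eq, ENNReal.inv_eq_zero]; exact hn1
  have hδt : δ ≠ ∞ := by rw [hδ, ne_eq, ENNReal.inv_eq_top]; simp only [add_eq_zero, Nat.cast_eq_zero, one_ne_zero, and_false, not_false_eq_true]
  -- choose `k`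
  have hterm : Tendsto (fun k => ∫⁻ ω, BB h k ω * g ω ∂(envLaw μ)) atTop (𝓝 0) :=
    ENNReal.tendsto_atTop_zero_of_tsum_ne_top (ne_top_of_le_ne_top ENNReal.one_ne_top hti)
  obtain ⟨k₁, hk₁⟩ := eventually_atTop.1 (hterm.eventually_lt_const
    (pos_iff_ne_zero.2 (mul_ne_zero hδ0 hq4)))
  obtain ⟨k, hk, G, hG, hmean, hsq⟩ := hsm k₁
  have hB := (hk₁ k hk).le
  set B : Env d → ℝ≥0∞ := fun ω => ∑' l : G, qw ω (-dsp (l : List (Dir d))) l with hBdef
  have hBm : Measurable B := Measurable.tsum fun _ => measurable_qw _ _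
  have hBle : ∀ ω, B ω ≤ BB h k ω := by
    intro ω
    exact ENNReal.tsum_comp_le_tsum_of_injective
        (f := fun l : G => (⟨l.1, hG l.2⟩ : Up h k))
        (fun a b hab => Subtype.ext (congrArg (fun x : Up h k => x.1) hab))
        (fun l : Up h k => qw ω (-dsp (l : List (Dir d))) l)
  have hEB : ∫⁻ ω, B ω ∂(envLaw μ) = ∑' l : G, wt μ l := by
    rw [hBdef, lintegral_tsum fun _ => (measurable_qw _ _).aemeasurable]
    refine tsum_congr fun l => ?_
    rw [lintegral_qw]
  have hpt : ∀ ω, B ω ≤ δ⁻¹ * (BB h k ω * g ω) + (B ω ^ 2 / T +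
      T * {ω | g ω < δ}.indicator 1 ω) := by
    intro ω
    by_cases h1 : g ω < δ
    · refine le_trans ?_ le_add_self
      rw [Set.indicator_of_mem (show ω ∈ {ω | g ω < δ} from h1)]
      rcases le_total (B ω) T with h2 | h2
      · refine le_trans h2 (le_trans ?_ le_add_self)
        simp
      · refine le_trans ?_ le_self_add
        rw [ENNReal.le_div_iff_mul_le (Or.inl hT0) (Or.inl hTt), sq]
        (clear * - h2; gcongr)
    · refine le_trans ?_ le_self_add
      push Not at h1
      calc B ω = δ⁻¹ * (B ω * δ) := by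
            rw [mul_comm (B ω), ← mul_assoc, ENNReal.inv_mul_cancel hδ0 hδt, one_mul]
        _ ≤ δ⁻¹ * (BB h k ω * g ω) := by
            gcongr
            exact hBle ω
  have hfinal : q' ≤ q' / 4 + (q' / 4 + q' / 4) := by
    calc q' ≤ ∫⁻ ω, B ω ∂(envLaw μ) := hmean.trans hEB.ge
      _ ≤ ∫⁻ ω, δ⁻¹ * (BB h k ω * g ω) + (B ω ^ 2 / T +
          T * {ω | g ω < δ}.indicator 1 ω) ∂(envLaw μ) := lintegral_mono hpt
      _ = δ⁻¹ * ∫⁻ ω, BB h k ω * g ω ∂(envLaw μ) + ((∫⁻ ω, B ω ^ 2 ∂(envLaw μ)) / T +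
          T * envLaw μ {ω | g ω < δ}) := by
          have m1 : Measurable fun ω => BB h k ω * g ω := (measurable_BB h k).mul hgm
          have m2 : Measurable fun ω => B ω ^ 2 := hBm.pow_const 2
          have m3 : Measurable ({ω | g ω < δ}.indicator (1 : Env d → ℝ≥0∞)) :=
            measurable_one.indicator (measurableSet_lt hgm measurable_const)
          rw [lintegral_add_left (m1.const_mul δ⁻¹), lintegral_const_mul _ m1,
            lintegral_add_left (m2.div_const T), lintegral_const_mul T m3,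
            lintegral_indicator_one (measurableSet_lt hgm measurable_const)]
          congr 2
          simp only [div_eq_mul_inv]
          rw [lintegral_mul_const _ m2]
      _ ≤ q' / 4 + (q' / 4 + q' / 4) := by
          refine add_le_add ?_ (add_le_add ?_ hn)
          · calc δ⁻¹ * ∫⁻ ω, BB h k ω * g ω ∂(envLaw μ) ≤ δ⁻¹ * (δ * (q' / 4)) := by (clear * - hB; gcongr)
              _ = q' / 4 := by
                rw [← mul_assoc, ENNReal.inv_mul_cancel hδ0 hδt, one_mul]
          · refine le_trans ?_ hT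
            exact ENNReal.div_le_div_right hsq T
  -- contradiction
  have hq'4 : q' = q' / 4 + (q' / 4 + q' / 4) + q' / 4 := by
    have h4 : q' = 4 * (q' / 4) := by
      rw [ENNReal.mul_div_cancel (by simp) (by simp)]
    conv_lhs => rw [h4]
    ring
  have h5 : q' / 4 ≠ ∞ := ENNReal.div_ne_top hqt (by simp)
  have h6 : q' / 4 + (q' / 4 + q' / 4) < q' := by
    conv_rhs => rw [hq'4]
    exact ENNReal.lt_add_right (ENNReal.add_ne_top.2 ⟨h5, ENNReal.add_ne_top.2 ⟨h5, h5⟩⟩) hq4
  exact absurd hfinal (not_le.2 h6)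

end Vale.Agent.P147
end
end

section

section

open MeasureTheory Filter Topology
open scoped ENNReal

namespace Vale.Agent.P147

variable {d : ℕ} (μ : Measure (Row d)) [IsProbabilityMeasure μ]

lemma FP_free (h : Site d →+ ℤ) (k : ℕ) : Free (FP h k) := by
  intro a ha b hb
  by_contra hne
  have h1 := hb.1 a b rfl hne
  have h2 := ha.2
  omega

/-- A nearest neighbour path that reaches height `k` has a first passage list. -/
lemma mem_RA_univ {h : Site d →+ ℤ} {k : ℕ} {X : ℕ → Site d} (hX : X ∈ Good 0)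
    (hk : ∃ n, (k : ℤ) ≤ h (X n)) : X ∈ RA h Set.univ k := by
  classical
  obtain ⟨l, hl, hXl⟩ := hX (Nat.find hk)
  rw [mem_lists] at hl
  simp only [RA, Set.mem_iUnion, Set.preimage_univ, Set.inter_univ]
  refine ⟨l, ⟨fun a b hab hb => ?_, ?_⟩, hXl⟩
  · have h1 := cyl_pos hXl hab
    rw [zero_add] at h1
    rw [← h1]
    have h2 : a.length < Nat.find hk := by
      rw [← hl, hab, List.length_append]
      have := List.length_pos_iff.2 hb
      omega
    have := Nat.find_min hk h2
    omega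
  · have h1 := cyl_pos hXl (a := l) (b := []) (by simp)
    rw [zero_add, hl] at h1
    rw [← h1]
    exact Nat.find_spec hk

lemma measurableSet_RA (h : Site d →+ ℤ) {A : Set (ℕ → Site d)} (hA : MeasurableSet A) (k : ℕ) :
    MeasurableSet (RA h A k) :=
  MeasurableSet.iUnion fun l => MeasurableSet.iUnion fun _ =>
    (measurableSet_cyl 0 l).inter (measurable_tl l.length hA)

omit [IsProbabilityMeasure μ] in
lemma annM_RA_inter (h : Site d →+ ℤ) {A : Set (ℕ → Site d)} (hA : MeasurableSet A) (k : ℕ)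
    {G : Set (ℕ → Site d)} (hG : MeasurableSet G) :
    annM μ 0 (RA h A k ∩ G) = ∑' l : FP h k,
      annM μ 0 ((cyl 0 (l : List (Dir d)) ∩ tl (l : List (Dir d)).length ⁻¹' A) ∩ G) := by
  have e : RA h A k ∩ G = ⋃ l : FP h k,
      ((cyl 0 (l : List (Dir d)) ∩ tl (l : List (Dir d)).length ⁻¹' A) ∩ G) := by
    ext X
    simp only [RA, Set.mem_inter_iff, Set.mem_iUnion, Subtype.exists, exists_prop]
    constructor
    · rintro ⟨⟨l, hl, h1⟩, h2⟩
      exact ⟨l, hl, h1, h2⟩
    · rintro ⟨l, hl, h1, h2⟩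
      exact ⟨⟨l, hl, h1⟩, h2⟩
  rw [e, measure_iUnion]
  · intro a b hab
    have := cyl_disjoint (FP_free h k) (x := 0) a.2 b.2 (fun h => hab (Subtype.ext h))
    exact this.mono (fun X hX => hX.1.1) (fun X hX => hX.1.1)
  · intro l
    exact ((measurableSet_cyl 0 _).inter (measurable_tl _ hA)).inter hG

lemma fp_local (h : Site d →+ ℤ) {A : Set (ℕ → Site d)}
    (hA : MeasurableSet A) (hT : TInv A) (hsub : A ⊆ StayUp h) {G : Set (ℕ → Site d)}
    (hG : MeasurableSet G) {n : ℕ}
    (hloc : ∀ X Y : ℕ → Site d, (∀ i ≤ n, X i = Y i) → X ∈ G → Y ∈ G) :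
    ∀ᶠ k : ℕ in atTop, annM μ 0 (RA h A k ∩ G) =
      annM μ 0 (RA h Set.univ k ∩ G) * annealed μ 0 A := by
  obtain ⟨L, hL⟩ := exists_bound h
  filter_upwards [eventually_gt_atTop (L * n)] with k hk
  rw [annM_RA_inter μ h hA k hG, annM_RA_inter μ h MeasurableSet.univ k hG,
    ← ENNReal.tsum_mul_right]
  refine tsum_congr fun l => ?_
  have hlen : n ≤ (l : List (Dir d)).length := by
    by_contra hlt
    have h1 := height_bound hL (l : List (Dir d))
    have h2 := l.2.2
    have h3 : ((L : ℤ) * (l : List (Dir d)).length) ≤ L * n := by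
      have h31 : (l : List (Dir d)).length ≤ n := by omega
      have h32 : ((l : List (Dir d)).length : ℤ) ≤ n := by exact_mod_cast h31
      exact mul_le_mul_of_nonneg_left h32 (by (clear * -; positivity))
    have h4 := le_abs_self (h (dsp (l : List (Dir d))))
    have h5 : ((L * n : ℕ) : ℤ) < k := by exact_mod_cast hk
    push_cast at h5
    linarith only [hk, h1, h2, h3, h4]
  by_cases hc : ∃ X ∈ cyl 0 (l : List (Dir d)), X ∈ G
  · obtain ⟨X, hX, hXG⟩ := hc
    have hsubG : cyl 0 (l : List (Dir d)) ⊆ G := by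
      intro Y hY
      refine hloc X Y (fun i hi => ?_) hXG
      rw [hX i (hi.trans hlen), hY i (hi.trans hlen)]
    rw [Set.inter_eq_left.2 (Set.inter_subset_left.trans hsubG),
      Set.inter_eq_left.2 (Set.inter_subset_left.trans hsubG)]
    simp only [Set.preimage_univ, Set.inter_univ]
    rw [annM_apply μ 0 ((measurableSet_cyl 0 _).inter (measurable_tl _ hA)),
      annM_apply μ 0 (measurableSet_cyl 0 _), annealed_cyl', annealed_fresh μ h ?_ hA hT hsub]
    intro a b hab hb
    exact lt_of_lt_of_le (l.2.1 a b hab hb) l.2.2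
  · have e : ∀ A : Set (ℕ → Site d),
        (cyl 0 (l : List (Dir d)) ∩ tl (l : List (Dir d)).length ⁻¹' A) ∩ G = ∅ := by
      intro A
      ext X
      simp only [Set.mem_inter_iff, Set.mem_empty_iff_false, iff_false]
      rintro ⟨⟨h1, _⟩, h2⟩
      exact hc ⟨X, h1, h2⟩
    rw [e, e]
    simp

lemma cylinder_local {G : Set (ℕ → Site d)}
    (hG : G ∈ measurableCylinders (fun _ : ℕ => Site d)) :
    ∃ n : ℕ, ∀ X Y : ℕ → Site d, (∀ i ≤ n, X i = Y i) → X ∈ G → Y ∈ G := by
  rw [mem_measurableCylinders] at hG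
  obtain ⟨I, T, _, rfl⟩ := hG
  refine ⟨I.sup id, fun X Y hXY hX => ?_⟩
  have : (fun i : I => Y i) = fun i : I => X i := by
    funext i
    exact (hXY i (Finset.le_sup (f := id) i.2)).symm
  simp only [cylinder, Set.mem_preimage] at hX ⊢
  convert hX using 1
  exact this

/-- Asymptotic independence of the path after the first passage at a high level. -/
theorem fp_limit (h : Site d →+ ℤ) {A : Set (ℕ → Site d)}
    (hA : MeasurableSet A) (hT : TInv A) (hsub : A ⊆ StayUp h) {G : Set (ℕ → Site d)}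
    (hG : MeasurableSet G) :
    Tendsto (fun k => (annM μ 0 (RA h A k ∩ G)).toReal -
      (annealed μ 0 A).toReal * (annM μ 0 (RA h Set.univ k ∩ G)).toReal) atTop (𝓝 0) := by
  have hp0 : 0 ≤ (annealed μ 0 A).toReal := ENNReal.toReal_nonneg
  have hp1 : (annealed μ 0 A).toReal ≤ 1 := by
    rw [← annM_apply μ 0 hA]
    exact ENNReal.toReal_le_of_le_ofReal zero_le_one (by simpa only [ENNReal.ofReal_one] using prob_le_one)
  have hbase : ∀ G : Set (ℕ → Site d), MeasurableSet G →
      (∃ n : ℕ, ∀ X Y : ℕ → Site d, (∀ i ≤ n, X i = Y i) → X ∈ G → Y ∈ G) →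
      Tendsto (fun k => (annM μ 0 (RA h A k ∩ G)).toReal -
      (annealed μ 0 A).toReal * (annM μ 0 (RA h Set.univ k ∩ G)).toReal) atTop (𝓝 0) := by
    rintro G hG ⟨n, hloc⟩
    refine tendsto_const_nhds.congr' ?_
    filter_upwards [fp_local μ h hA hT hsub hG hloc] with k hk
    rw [hk, ENNReal.toReal_mul]
    ring
  have huniv := hbase Set.univ MeasurableSet.univ ⟨0, fun _ _ _ _ => Set.mem_univ _⟩
  refine MeasurableSpace.induction_on_inter
    (C := fun G _ => Tendsto (fun k => (annM μ 0 (RA h A k ∩ G)).toReal -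
      (annealed μ 0 A).toReal * (annM μ 0 (RA h Set.univ k ∩ G)).toReal) atTop (𝓝 0))
    (generateFrom_measurableCylinders (α := fun _ : ℕ => Site d)).symm
    isPiSystem_measurableCylinders ?_ ?_ ?_ ?_ G hG
  · simp only [Set.inter_empty, measure_empty, ENNReal.toReal_zero, mul_zero, sub_self, tendsto_const_nhds_iff]
  · intro t ht
    exact hbase t (MeasurableSet.of_mem_measurableCylinders ht) (cylinder_local ht)
  · intro t ht ih
    have hdiff : ∀ (B : Set (ℕ → Site d)), MeasurableSet B →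
        (annM μ 0 (B ∩ tᶜ)).toReal = (annM μ 0 (B ∩ Set.univ)).toReal -
          (annM μ 0 (B ∩ t)).toReal := by
      intro B hB
      rw [Set.inter_univ, ← measure_inter_add_sdiff B ht (μ := annM μ 0),
        ENNReal.toReal_add (measure_ne_top _ _) (measure_ne_top _ _), Set.sdiff_eq]
      ring
    have := huniv.sub ih
    rw [sub_zero] at this
    refine this.congr fun k => ?_
    rw [hdiff _ (measurableSet_RA h hA k), hdiff _ (measurableSet_RA h MeasurableSet.univ k)]
    ring
  · intro f hdisj hf ih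
    have hsum : Summable fun i => (annM μ 0 (f i)).toReal := by
      refine ENNReal.summable_toReal ?_
      rw [← measure_iUnion hdisj hf]
      exact measure_ne_top _ _
    have hU : ∀ (B : Set (ℕ → Site d)), MeasurableSet B →
        Summable (fun i => (annM μ 0 (B ∩ f i)).toReal) ∧
        (annM μ 0 (B ∩ ⋃ i, f i)).toReal = ∑' i, (annM μ 0 (B ∩ f i)).toReal := by
      intro B hB
      have e : annM μ 0 (B ∩ ⋃ i, f i) = ∑' i, annM μ 0 (B ∩ f i) := by
        rw [Set.inter_iUnion, measure_iUnion]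
        · intro i j hij
          exact (hdisj hij).mono Set.inter_subset_right Set.inter_subset_right
        · exact fun i => hB.inter (hf i)
      refine ⟨ENNReal.summable_toReal ?_, ?_⟩
      · rw [← e]; exact measure_ne_top _ _
      · rw [e, ENNReal.tsum_toReal_eq fun i => measure_ne_top _ _]
    have key : Tendsto (fun k => ∑' i, ((annM μ 0 (RA h A k ∩ f i)).toReal -
      (annealed μ 0 A).toReal * (annM μ 0 (RA h Set.univ k ∩ f i)).toReal)) atTop
        (𝓝 (∑' _ : ℕ, (0 : ℝ))) := by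
      refine tendsto_tsum_of_dominated_convergence (hsum.mul_left 2) ih ?_
      refine Eventually.of_forall fun k i => ?_
      have h1 : ∀ B : Set (ℕ → Site d), (annM μ 0 (B ∩ f i)).toReal ≤ (annM μ 0 (f i)).toReal :=
        fun B => ENNReal.toReal_mono (measure_ne_top _ _) (measure_mono Set.inter_subset_right)
      have h2 := h1 (RA h A k)
      have h3 := h1 (RA h Set.univ k)
      have h4 : 0 ≤ (annM μ 0 (RA h A k ∩ f i)).toReal := ENNReal.toReal_nonneg
      have h5 : 0 ≤ (annM μ 0 (RA h Set.univ k ∩ f i)).toReal := ENNReal.toReal_nonneg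
      have h6 : (annealed μ 0 A).toReal * (annM μ 0 (RA h Set.univ k ∩ f i)).toReal ≤
          1 * (annM μ 0 (f i)).toReal := mul_le_mul hp1 h3 h5 zero_le_one
      have h7 := mul_nonneg hp0 h5
      rw [Real.norm_eq_abs, abs_le]
      constructor <;> linarith only [h2, h4, h6, h7]
    rw [tsum_zero] at key
    refine key.congr fun k => ?_
    obtain ⟨s1, e1⟩ := hU _ (measurableSet_RA h hA k)
    obtain ⟨s2, e2⟩ := hU _ (measurableSet_RA h MeasurableSet.univ k)
    rw [e1, e2, ← tsum_mul_left, ← Summable.tsum_sub s1 (s2.mul_left _)]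

/-- If the weights of `T_k` inside `G` tend to zero, and `G` is contained in every `T_k` up to
the null set of bad paths, then `G` is null. -/
lemma null_of_tendsto (h : Site d →+ ℤ) {G : Set (ℕ → Site d)} (hG : MeasurableSet G)
    (hsub : ∀ X ∈ G, ∀ k : ℕ, ∃ n, (k : ℤ) ≤ h (X n)) {c : ℝ} (hc : c ≠ 0)
    (hlim : Tendsto (fun k => c * (annM μ 0 (RA h Set.univ k ∩ G)).toReal) atTop (𝓝 0)) :
    annealed μ 0 G = 0 := by
  have h1 : ∀ k : ℕ, (annealed μ 0 G).toReal ≤ (annM μ 0 (RA h Set.univ k ∩ G)).toReal := by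
    intro k
    refine ENNReal.toReal_mono (measure_ne_top _ _) ?_
    refine (annealed_inter_good μ 0 G).trans ?_
    rw [annM_apply μ 0 ((measurableSet_RA h MeasurableSet.univ k).inter hG)]
    refine annealed_mono μ 0 ?_
    rintro X ⟨hX, hXg⟩
    exact ⟨mem_RA_univ hXg (hsub X hX k), hX⟩
  have h2 : Tendsto (fun k => (annM μ 0 (RA h Set.univ k ∩ G)).toReal) atTop (𝓝 0) := by
    have := hlim.const_mul c⁻¹
    rw [mul_zero] at this
    refine this.congr fun k => ?_
    rw [← mul_assoc, inv_mul_cancel₀ hc, one_mul]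
  have h3 : (annealed μ 0 G).toReal ≤ 0 := ge_of_tendsto' h2 h1
  have h4 : (annealed μ 0 G).toReal = 0 := le_antisymm h3 ENNReal.toReal_nonneg
  rcases (ENNReal.toReal_eq_zero_iff _).1 h4 with h5 | h5
  · exact h5
  · rw [← annM_apply μ 0 hG] at h5
    exact absurd h5 (measure_ne_top _ _)

lemma esc_unbounded {h : Site d →+ ℤ} {X : ℕ → Site d} (hX : X ∈ Esc h) (k : ℤ) :
    ∃ n, k ≤ h (X n) :=
  (((tendsto_atTop.1 hX) k).exists)

/-- Invariant events are trivial given escape in a direction. -/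
theorem zero_one_given (h : Site d →+ ℤ) {B : Set (ℕ → Site d)} (hB : MeasurableSet B)
    (hT : TInv B) (hS : SInv B) :
    annealed μ 0 (Esc h ∩ B) = 0 ∨ annealed μ 0 (Esc h \ B) = 0 := by
  by_cases hb : annealed μ 0 (UpS h ∩ B) = 0
  · left
    by_contra hne
    exact upS_pos μ h hB hT hS hne hb
  · right
    have hA : MeasurableSet (UpS h ∩ B) := (measurableSet_upS h).inter hB
    have hTA : TInv (UpS h ∩ B) := tinv_inter (tinv_upS h) hT
    have hsub : UpS h ∩ B ⊆ StayUp h := fun X hX => hX.1.1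
    have h1 := fp_limit μ h hA hTA hsub hB
    have h2 := fp_limit μ h hA hTA hsub MeasurableSet.univ
    have hb' : (annealed μ 0 (UpS h ∩ B)).toReal ≠ 0 := by
      rw [← annM_apply μ 0 hA] at hb ⊢
      exact (ENNReal.toReal_ne_zero).2 ⟨hb, measure_ne_top _ _⟩
    have hEm : MeasurableSet (Esc h \ B) := (measurableSet_esc h).diff hB
    refine null_of_tendsto μ h hEm (fun X hX k => esc_unbounded hX.1 k) hb' ?_
    -- the part of `RA` outside `B`
    have h3 := h1.sub h2
    rw [sub_zero] at h3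
    have h4 : Tendsto (fun k => (annealed μ 0 (UpS h ∩ B)).toReal *
        (annM μ 0 (RA h Set.univ k \ B)).toReal) atTop (𝓝 0) := by
      refine h3.congr fun k => ?_
      have e1 : RA h (UpS h ∩ B) k ∩ B = RA h (UpS h ∩ B) k ∩ Set.univ := by
        rw [Set.inter_univ, Set.inter_eq_left]
        intro X hX
        simp only [RA, Set.mem_iUnion] at hX
        obtain ⟨l, _, _, hX2⟩ := hX
        exact (sinv_tl hS l.length X).1 hX2.2
      have e2 : (annM μ 0 (RA h Set.univ k ∩ Set.univ)).toReal =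
          (annM μ 0 (RA h Set.univ k ∩ B)).toReal + (annM μ 0 (RA h Set.univ k \ B)).toReal := by
        rw [Set.inter_univ, ← ENNReal.toReal_add (measure_ne_top _ _) (measure_ne_top _ _),
          measure_inter_add_sdiff _ hB]
      rw [e1, e2]
      ring
    refine squeeze_zero (fun k => mul_nonneg ENNReal.toReal_nonneg ENNReal.toReal_nonneg)
      (fun k => ?_) h4
    refine mul_le_mul_of_nonneg_left ?_ ENNReal.toReal_nonneg
    refine ENNReal.toReal_mono (measure_ne_top _ _) (measure_mono ?_)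
    rintro X ⟨hX1, hX2⟩
    exact ⟨hX1, hX2.2⟩

/-- If escape upwards has positive probability, then unbounded heights imply escape. -/
theorem esc_of_unbounded (h : Site d →+ ℤ) (hpos : annealed μ 0 (Esc h) ≠ 0) :
    annealed μ 0 ({X | ∀ k : ℤ, ∃ n, k ≤ h (X n)} \ Esc h) = 0 := by
  have hp : annealed μ 0 (UpS h) ≠ 0 := by
    have := upS_pos μ h MeasurableSet.univ (B := Set.univ) (fun _ _ => by simp)
      (fun _ => by simp) (by simpa using hpos)
    simpa using this
  have hGm : MeasurableSet ({X : ℕ → Site d | ∀ k : ℤ, ∃ n, k ≤ h (X n)} \ Esc h) := by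
    refine MeasurableSet.diff ?_ (measurableSet_esc h)
    have : {X : ℕ → Site d | ∀ k : ℤ, ∃ n, k ≤ h (X n)} =
        ⋂ k : ℤ, ⋃ n : ℕ, {X | k ≤ h (X n)} := by
      ext X; simp only [Set.mem_ofPred_eq, Set.mem_iInter, Set.mem_iUnion]
    rw [this]
    refine MeasurableSet.iInter fun k => MeasurableSet.iUnion fun n => ?_
    exact measurableSet_local n _ fun X Y hXY hX => by rw [← hXY n le_rfl]; exact hX
  have hp' : (annealed μ 0 (UpS h)).toReal ≠ 0 := by
    rw [← annM_apply μ 0 (measurableSet_upS h)] at hp ⊢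
    exact (ENNReal.toReal_ne_zero).2 ⟨hp, measure_ne_top _ _⟩
  refine null_of_tendsto μ h hGm (fun X hX k => hX.1 k) hp' ?_
  have h1 := (fp_limit μ h (measurableSet_upS h) (tinv_upS h) (fun X hX => hX.1) hGm).neg
  rw [neg_zero] at h1
  refine h1.congr fun k => ?_
  have e : RA h (UpS h) k ∩ ({X | ∀ k : ℤ, ∃ n, k ≤ h (X n)} \ Esc h) = ∅ := by
    ext X
    simp only [Set.mem_inter_iff, Set.mem_empty_iff_false, iff_false]
    rintro ⟨hX, hX2⟩
    simp only [RA, Set.mem_iUnion] at hX
    obtain ⟨l, _, _, hX3⟩ := hX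
    exact hX2.2 ((sinv_tl (sinv_esc h) l.length X).1 hX3.2)
  rw [e]
  simp only [measure_empty, ENNReal.toReal_zero, zero_sub, neg_neg]

end Vale.Agent.P147
end
end

section

section

open MeasureTheory Filter Topology
open scoped ENNReal

namespace Vale.Agent.P147

variable {d : ℕ}

section Kal

open Classical in
/-- Number of proper starting segments with the property `P`. -/
noncomputable def kcnt (P : List (Dir d) → Prop) (l : List (Dir d)) : ℕ :=
  ((Finset.range l.length).filter (fun i => P (l.take i))).card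

/-- Lists with the property `P`, exactly `m` proper starting segments of which have this property,
that stay at heights at most `s`. -/
def KS (h : Site d →+ ℤ) (y : Site d) (s : ℤ) (P : List (Dir d) → Prop) (m : ℕ) :
    Set (List (Dir d)) :=
  {l | P l ∧ kcnt P l = m ∧ ∀ a b, l = a ++ b → h (y + dsp a) ≤ s}

open Classical in
lemma kcnt_take (P : List (Dir d) → Prop) {l : List (Dir d)} {i : ℕ} (hi : i ≤ l.length) :
    kcnt P (l.take i) = ((Finset.range i).filter (fun j => P (l.take j))).card := by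
  have hlen : (l.take i).length = i := by simp [hi]
  rw [kcnt, hlen]
  congr 1
  apply Finset.filter_congr
  intro j hj
  rw [Finset.mem_range] at hj
  rw [List.take_take, min_eq_left hj.le]

lemma kcnt_append_lt (P : List (Dir d) → Prop) {a b : List (Dir d)} (ha : P a) (hb : b ≠ []) :
    kcnt P a < kcnt P (a ++ b) := by
  classical
  have h1 : kcnt P a =
      ((Finset.range a.length).filter (fun j => P ((a ++ b).take j))).card := by
    have := kcnt_take P (l := a ++ b) (i := a.length) (by simp only [List.length_append, le_add_iff_nonneg_right, zero_le])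
    rwa [List.take_left] at this
  rw [h1, kcnt]
  apply Finset.card_lt_card
  rw [Finset.ssubset_iff_of_subset]
  · refine ⟨a.length, ?_, ?_⟩
    · rw [Finset.mem_filter, Finset.mem_range]
      refine ⟨?_, ?_⟩
      · have : 0 < b.length := List.length_pos_of_ne_nil hb
        simp [this]
      · rw [List.take_left]; exact ha
    · simp
  · intro j hj
    rw [Finset.mem_filter, Finset.mem_range] at hj ⊢
    exact ⟨by simp; omega, hj.2⟩

lemma kcnt_nest (P : List (Dir d) → Prop) {l : List (Dir d)} {m : ℕ} (hl : kcnt P l = m + 1) :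
    ∃ a v c, l = a ++ v :: c ∧ P a ∧ kcnt P a = m := by
  classical
  set F := (Finset.range l.length).filter (fun i => P (l.take i)) with hF
  have hcard : F.card = m + 1 := hl
  have hne : F.Nonempty := by rw [← Finset.card_pos, hcard]; omega
  set i := F.max' hne with hi
  have hiF : i ∈ F := F.max'_mem hne
  rw [hF, Finset.mem_filter, Finset.mem_range] at hiF
  have hdrop : l.drop i ≠ [] := by
    intro h0
    have := congrArg List.length h0
    simp only [List.length_drop, List.length_nil] at this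
    omega
  obtain ⟨v, c, hvc⟩ := List.exists_cons_of_ne_nil hdrop
  refine ⟨l.take i, v, c, ?_, hiF.2, ?_⟩
  · rw [← hvc, List.take_append_drop]
  · rw [kcnt_take P hiF.1.le]
    have : (Finset.range i).filter (fun j => P (l.take j)) = F.erase i := by
      ext j
      rw [Finset.mem_filter, Finset.mem_range, Finset.mem_erase, hF, Finset.mem_filter,
        Finset.mem_range]
      constructor
      · rintro ⟨h1, h2⟩
        exact ⟨h1.ne, by omega, h2⟩
      · rintro ⟨h1, h2, h3⟩
        refine ⟨lt_of_le_of_ne (F.le_max' j ?_) h1, h3⟩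
        rw [hF, Finset.mem_filter, Finset.mem_range]
        exact ⟨h2, h3⟩
    rw [this, Finset.card_erase_of_mem (by rw [hF, Finset.mem_filter, Finset.mem_range]
                                           exact hiF), hcard]
    rfl

lemma KS_free (h : Site d →+ ℤ) (y : Site d) (s : ℤ) (P : List (Dir d) → Prop) (m : ℕ) :
    Free (KS h y s P m) := by
  intro a ha b hb
  by_contra hne
  have := kcnt_append_lt P ha.1 hne
  rw [ha.2.1, hb.2.1] at this
  exact lt_irrefl _ this

lemma KS_nest {h : Site d →+ ℤ} {y : Site d} {s : ℤ} {P : List (Dir d) → Prop} {u : Dir d}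
    (hu : 0 < h (vec u)) (hP : ∀ l, P l → h (y + dsp l) = s) {m : ℕ} {l : List (Dir d)}
    (hl : l ∈ KS h y s P (m + 1)) :
    ∃ a ∈ KS h y s P m, ∃ v c, l = a ++ v :: c ∧ v ≠ u := by
  obtain ⟨a, v, c, hac, ha, hm⟩ := kcnt_nest P hl.2.1
  refine ⟨a, ⟨ha, hm, ?_⟩, v, c, hac, ?_⟩
  · intro a' b' hab
    exact hl.2.2 a' (b' ++ v :: c) (by rw [hac, hab, List.append_assoc])
  · rintro rfl
    have := hl.2.2 (a ++ [v]) c (by rw [hac]; simp)
    rw [dsp_append, ← add_assoc, map_add, hP a ha] at this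
    simp only [dsp_cons, dsp_nil, add_zero, add_le_iff_nonpos_right] at this
    omega

/-- Geometric decay. -/
lemma kal_null (ν : Measure (ℕ → Site d)) [IsProbabilityMeasure ν] {h : Site d →+ ℤ}
    {y : Site d} {s : ℤ} {P : List (Dir d) → Prop} {u : Dir d} (hu : 0 < h (vec u))
    (hP : ∀ l, P l → h (y + dsp l) = s) {p : ℝ≥0∞} (hp : p ≠ 0)
    (hν : ∀ l, P l → p * ν (cyl y l) ≤ ν (cyl y (l ++ [u]))) :
    ν (⋂ m, ⋃ l ∈ KS h y s P m, cyl y l) = 0 := by
  have hstep : ∀ m, ν (⋃ l ∈ KS h y s P (m + 1), cyl y l) ≤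
      (1 - p) * ν (⋃ l ∈ KS h y s P m, cyl y l) := by
    intro m
    have hsub : (⋃ l ∈ KS h y s P (m + 1), cyl y l) ⊆
        ⋃ a ∈ KS h y s P m, (cyl y a \ cyl y (a ++ [u])) := by
      intro X hX
      simp only [Set.mem_iUnion] at hX ⊢
      obtain ⟨l, hl, hXl⟩ := hX
      obtain ⟨a, ha, v, c, hac, hv⟩ := KS_nest hu hP hl
      refine ⟨a, ha, ?_, ?_⟩
      · intro n hn
        have := hXl n (by rw [hac]; simp only [List.length_append, List.length_cons]; omega)
        rw [this, hac, List.take_append_of_le_length hn]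
      · intro hXu
        have h1 : X (a ++ [u]).length = y + dsp (a ++ [u]) :=
          cyl_pos hXu (b := []) (by simp)
        have h2 : X (a ++ [v]).length = y + dsp (a ++ [v]) :=
          cyl_pos hXl (b := c) (by rw [hac]; simp)
        have h3 : (a ++ [u]).length = (a ++ [v]).length := by simp
        rw [h3, h2] at h1
        have h4 : vec v = vec u := by simpa only [dsp, List.map_append, List.map_cons, List.map_nil, List.sum_append, List.sum_cons, List.sum_nil,     add_zero, add_right_inj] using h1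
        exact hv (vec_injective h4)
    calc ν (⋃ l ∈ KS h y s P (m + 1), cyl y l)
        ≤ ν (⋃ a ∈ KS h y s P m, (cyl y a \ cyl y (a ++ [u]))) := measure_mono hsub
      _ ≤ ∑' a : KS h y s P m, ν (cyl y a \ cyl y (a ++ [u])) :=
          measure_biUnion_le ν (Set.to_countable _) _
      _ ≤ ∑' a : KS h y s P m, (1 - p) * ν (cyl y a) := by
          refine ENNReal.tsum_le_tsum fun a => ?_
          have hsub' : cyl y ((a : List (Dir d)) ++ [u]) ⊆ cyl y a := by
            intro X hX n hn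
            have := hX n (by simp only [List.length_append, List.length_cons, List.length_nil, zero_add]; omega)
            rw [this, List.take_append_of_le_length hn]
          rw [measure_sdiff hsub' (measurableSet_cyl _ _).nullMeasurableSet
            (measure_ne_top _ _), ENNReal.sub_mul (fun _ _ => measure_ne_top _ _), one_mul]
          exact tsub_le_tsub_left (hν a a.2.1) _
      _ = (1 - p) * ∑' a : KS h y s P m, ν (cyl y a) := ENNReal.tsum_mul_left
      _ = (1 - p) * ν (⋃ l ∈ KS h y s P m, cyl y l) := by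
          rw [measure_biUnion (Set.to_countable _)]
          · intro a ha b hb hab
            exact cyl_disjoint (KS_free h y s P m) ha hb hab
          · intro a _
            exact measurableSet_cyl _ _
  have hpow : ∀ m, ν (⋃ l ∈ KS h y s P m, cyl y l) ≤ (1 - p) ^ m := by
    intro m
    induction m with
    | zero => rw [pow_zero]; exact prob_le_one
    | succ m ih =>
      refine (hstep m).trans ?_
      rw [pow_succ']
      exact mul_le_mul_right ih _
  have hlt : 1 - p < 1 := ENNReal.sub_lt_self ENNReal.one_ne_top one_ne_zero hp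
  have htend := ENNReal.tendsto_pow_atTop_nhds_zero_of_lt_one hlt
  refine le_antisymm (ge_of_tendsto' htend fun m => ?_) zero_le
  exact (measure_mono (Set.iInter_subset _ m)).trans (hpow m)

lemma kal_meas (h : Site d →+ ℤ) (y : Site d) (s : ℤ) (P : List (Dir d) → Prop) :
    MeasurableSet (⋂ m, ⋃ l ∈ KS h y s P m, cyl y l) :=
  MeasurableSet.iInter fun _ => MeasurableSet.biUnion (Set.to_countable _)
    fun _ _ => measurableSet_cyl _ _

/-- Paths with infinitely many special times are covered. -/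
lemma kal_cover {h : Site d →+ ℤ} {y : Site d} {s : ℤ} {P : List (Dir d) → Prop}
    {X : ℕ → Site d} (hg : X ∈ Good y) (hs : ∀ n, h (X n) ≤ s)
    (hf : ∀ N, ∃ n, N ≤ n ∧ ∃ l : List (Dir d), l.length = n ∧ X ∈ cyl y l ∧ P l) :
    X ∈ ⋂ m, ⋃ l ∈ KS h y s P m, cyl y l := by
  classical
  have hL : ∀ n, ∃ l : List (Dir d), l.length = n ∧ X ∈ cyl y l := by
    intro n
    obtain ⟨l, hl, hXl⟩ := hg n
    exact ⟨l, mem_lists.1 hl, hXl⟩
  choose L hlen hcyl using hL
  have htake : ∀ {i n : ℕ}, i ≤ n → (L n).take i = L i := by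
    intro i n hin
    obtain ⟨c, hc⟩ := cyl_inter (hcyl i) (hcyl n) (by rw [hlen, hlen]; exact hin)
    rw [hc, List.take_append_of_le_length (by rw [hlen]), List.take_of_length_le (by rw [hlen])]
  have hinf : {n | P (L n)}.Infinite := by
    rw [Set.infinite_iff_exists_gt]
    intro N
    obtain ⟨n, hn, l, hl, hXl, hPl⟩ := hf (N + 1)
    refine ⟨n, ?_, by omega⟩
    have : l = L n := by
      obtain ⟨c, hc⟩ := cyl_inter (hcyl n) hXl (by rw [hlen, hl])
      have : c = [] := by
        have := congrArg List.length hc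
        simp [hlen, hl] at this
        exact this
      rw [hc, this, List.append_nil]
    rw [Set.mem_ofPred_eq, ← this]
    exact hPl
  rw [Set.mem_iInter]
  intro m
  simp only [Set.mem_iUnion]
  set n := Nat.nth (fun n => P (L n)) m with hn
  refine ⟨L n, ⟨?_, ?_, ?_⟩, hcyl n⟩
  · exact Nat.nth_mem_of_infinite hinf m
  · have h1 : Nat.count (fun n => P (L n)) n = m := Nat.count_nth_of_infinite hinf m
    rw [Nat.count_eq_card_filter_range] at h1
    rw [kcnt, hlen, ← h1]
    congr 1
    apply Finset.filter_congr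
    intro i hi
    rw [Finset.mem_range] at hi
    rw [htake hi.le]
  · intro a b hab
    rw [← cyl_pos (hcyl n) hab]
    exact hs _

/-- Either infinitely many new sites of height `s`, or a site of height `s` that is visited
infinitely often. -/
lemma kal_dich {h : Site d →+ ℤ} {s : ℤ} {X : ℕ → Site d} (hX : ∃ᶠ n in atTop, h (X n) = s) :
    (∀ N, ∃ n, N ≤ n ∧ h (X n) = s ∧ ∀ i < n, X i ≠ X n) ∨
      ∃ z, h z = s ∧ ∀ N, ∃ n, N ≤ n ∧ X n = z := by
  by_contra hcon
  rw [not_or] at hcon
  obtain ⟨h1, h2⟩ := hcon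
  push Not at h1 h2
  obtain ⟨N, hN⟩ := h1
  have h3 : ∀ n, h (X n) = s → ∃ i < N, X i = X n := by
    intro n
    induction n using Nat.strong_induction_on with
    | _ n ih =>
      intro hn
      by_cases hnN : n < N
      · exact ⟨n, hnN, rfl⟩
      · obtain ⟨i, hi, hXi⟩ := hN n (by omega) hn
        obtain ⟨j, hj, hXj⟩ := ih i hi (by rw [hXi]; exact hn)
        exact ⟨j, hj, hXj.trans hXi⟩
  have h4 : ∀ i, h (X i) = s → ∀ᶠ n in atTop, X n ≠ X i := by
    intro i hi
    obtain ⟨M, hM⟩ := h2 (X i) hi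
    exact eventually_atTop.2 ⟨M, fun n hn => hM n hn⟩
  have h5 : ∀ᶠ n in atTop, ∀ i ∈ Finset.range N, h (X i) = s → X n ≠ X i := by
    rw [eventually_all_finset]
    intro i _
    by_cases hi : h (X i) = s
    · filter_upwards [h4 i hi] with n hn _ using hn
    · exact Eventually.of_forall fun n h => absurd h hi
  obtain ⟨n, hn1, hn2⟩ := (hX.and_eventually h5).exists
  obtain ⟨i, hi, hXi⟩ := h3 n hn1
  exact hn2 i (Finset.mem_range.2 hi) (by rw [hXi]; exact hn1) hXi.symm

variable (μ : Measure (Row d)) [IsProbabilityMeasure μ]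

/-- The walk does not stay below a height that it visits infinitely often. -/
lemma kal_level (hμ : Elliptic μ) {h : Site d →+ ℤ} (hsurj : Function.Surjective h) (y : Site d)
    (s : ℤ) : annealed μ y {X | (∀ n, h (X n) ≤ s) ∧ ∃ᶠ n in atTop, h (X n) = s} = 0 := by
  obtain ⟨u, hu⟩ := exists_pos_step hsurj
  set Pb : List (Dir d) → Prop := fun l => h (y + dsp l) = s ∧ y + dsp l ∉ exits y l with hPb
  set Pz : {z : Site d // h z = s} → List (Dir d) → Prop := fun z l => y + dsp l = z with hPz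
  have hsub : {X | (∀ n, h (X n) ≤ s) ∧ ∃ᶠ n in atTop, h (X n) = s} ∩ Good y ⊆
      (⋂ m, ⋃ l ∈ KS h y s Pb m, cyl y l) ∪
        ⋃ z : {z : Site d // h z = s}, ⋂ m, ⋃ l ∈ KS h y s (Pz z) m, cyl y l := by
    rintro X ⟨⟨hX1, hX2⟩, hg⟩
    rcases kal_dich hX2 with h1 | ⟨z, hz, h1⟩
    · left
      refine kal_cover hg hX1 fun N => ?_
      obtain ⟨n, hn, hns, hnew⟩ := h1 N
      obtain ⟨l, hl, hXl⟩ := hg n
      rw [mem_lists] at hl
      have hend : X n = y + dsp l := by
        rw [← hl]; exact cyl_pos hXl (b := []) (by simp)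
      refine ⟨n, hn, l, hl, hXl, ?_, ?_⟩
      · rw [← hend]; exact hns
      · intro hmem
        obtain ⟨a, b, hab, hb, hya⟩ := mem_exits.1 hmem
        have h2 := cyl_pos hXl hab
        refine hnew a.length ?_ ?_
        · rw [← hl, hab]
          have : 0 < b.length := List.length_pos_of_ne_nil hb
          simp [this]
        · rw [h2, ← hya, hend]
    · right
      rw [Set.mem_iUnion]
      refine ⟨⟨z, hz⟩, kal_cover hg hX1 fun N => ?_⟩
      obtain ⟨n, hn, hnz⟩ := h1 N
      obtain ⟨l, hl, hXl⟩ := hg n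
      rw [mem_lists] at hl
      have hend : X n = y + dsp l := by
        rw [← hl]; exact cyl_pos hXl (b := []) (by simp)
      exact ⟨n, hn, l, hl, hXl, by rw [hPz]; exact hend.symm.trans hnz⟩
  have hb : annM μ y (⋂ m, ⋃ l ∈ KS h y s Pb m, cyl y l) = 0 := by
    refine kal_null (annM μ y) hu (p := wt μ [u]) (fun l hl => hl.1) (wt_ne_zero μ hμ [u]) ?_
    intro l hl
    rw [annM_apply μ y (measurableSet_cyl _ _), annM_apply μ y (measurableSet_cyl _ _),
      annealed_cyl', annealed_cyl', wt_append, mul_comm]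
    rw [exits_cons, exits_nil, Finset.disjoint_right]
    intro x hx
    rw [Finset.mem_insert, or_iff_left (Finset.notMem_empty _)] at hx
    rw [hx]
    intro hmem
    apply hl.2
    have := exits_add 0 y l
    rw [zero_add] at this
    rw [this, Finset.mem_image]
    exact ⟨dsp l, hmem, add_comm _ _⟩
  have hae : ∀ᵐ ω ∂(envLaw μ), ∀ x : Site d, ∀ u : Dir d, 0 < (ω x).1 u := by
    rw [ae_all_iff]
    intro x
    have := (measurePreserving_eval_infinitePi (fun _ : Site d => μ) x).quasiMeasurePreserving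
    exact this.ae hμ
  have hz : ∀ z : {z : Site d // h z = s},
      annM μ y (⋂ m, ⋃ l ∈ KS h y s (Pz z) m, cyl y l) = 0 := by
    intro z
    rw [annM_apply μ y (kal_meas _ _ _ _), annealed,
      lintegral_eq_zero_iff (measurable_quenched_apply y (kal_meas _ _ _ _))]
    filter_upwards [hae] with ω hω
    refine kal_null (quenched ω y) hu (p := ENNReal.ofReal ((ω z.1).1 u)) (fun l hl => ?_) ?_ ?_
    · rw [hPz] at hl
      rw [hl]; exact z.2
    · simpa only [ne_eq, ENNReal.ofReal_eq_zero, not_le] using hω z.1 u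
    · intro l hl
      rw [hPz] at hl
      rw [quenched_cyl, quenched_cyl, qw_append, hl]
      simp only [mul_comm, qw_cons, qw_nil, one_mul, Std.le_refl]
  have hmeas : MeasurableSet ((⋂ m, ⋃ l ∈ KS h y s Pb m, cyl y l) ∪
        ⋃ z : {z : Site d // h z = s}, ⋂ m, ⋃ l ∈ KS h y s (Pz z) m, cyl y l) :=
    (kal_meas _ _ _ _).union (MeasurableSet.iUnion fun _ => kal_meas _ _ _ _)
  refine le_antisymm ?_ zero_le
  calc annealed μ y {X | (∀ n, h (X n) ≤ s) ∧ ∃ᶠ n in atTop, h (X n) = s}
      ≤ annealed μ y _ := annealed_inter_good μ y _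
    _ ≤ annealed μ y _ := annealed_mono μ y hsub
    _ = annM μ y _ := (annM_apply μ y hmeas).symm
    _ = 0 := measure_union_null hb (measure_iUnion_null hz)

lemma kal_meas_le (h : Site d →+ ℤ) (n : ℕ) (s : ℤ) :
    MeasurableSet {X : ℕ → Site d | h (X n) ≤ s} :=
  measurableSet_local n _ fun X Y hXY hX => by rw [← hXY n le_rfl]; exact hX

lemma kal_meas_ge (h : Site d →+ ℤ) (n : ℕ) (s : ℤ) :
    MeasurableSet {X : ℕ → Site d | s ≤ h (X n)} :=
  measurableSet_local n _ fun X Y hXY hX => by rw [← hXY n le_rfl]; exact hX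

lemma kal_meas_eq (h : Site d →+ ℤ) (n : ℕ) (s : ℤ) :
    MeasurableSet {X : ℕ → Site d | h (X n) = s} :=
  measurableSet_local n _ fun X Y hXY hX => by rw [← hXY n le_rfl]; exact hX

lemma kal_meas_level (h : Site d →+ ℤ) (s : ℤ) :
    MeasurableSet {X : ℕ → Site d | (∀ n, h (X n) ≤ s) ∧ ∃ᶠ n in atTop, h (X n) = s} := by
  have : {X : ℕ → Site d | (∀ n, h (X n) ≤ s) ∧ ∃ᶠ n in atTop, h (X n) = s} =
      (⋂ n, {X : ℕ → Site d | h (X n) ≤ s}) ∩
        ⋂ N : ℕ, ⋃ n ∈ Set.Ici N, {X : ℕ → Site d | h (X n) = s} := by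
    ext X
    simp only [Set.mem_ofPred_eq, Set.mem_inter_iff, Set.mem_iInter, Set.mem_iUnion,
      frequently_atTop, Set.mem_Ici, exists_prop]
  rw [this]
  exact (MeasurableSet.iInter fun n => kal_meas_le h n s).inter
    (MeasurableSet.iInter fun N => MeasurableSet.biUnion (Set.to_countable _)
      fun n _ => kal_meas_eq h n s)

lemma kal_after (hμ : Elliptic μ) {h : Site d →+ ℤ} (hsurj : Function.Surjective h)
    (l : List (Dir d)) (s : ℤ) :
    annealed μ 0 (cyl 0 l ∩
      tl l.length ⁻¹' {X | (∀ n, h (X n) ≤ s) ∧ ∃ᶠ n in atTop, h (X n) = s}) = 0 := by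
  refine le_antisymm ?_ zero_le
  rw [annealed]
  calc ∫⁻ ω, quenched ω 0 (cyl 0 l ∩
        tl l.length ⁻¹' {X | (∀ n, h (X n) ≤ s) ∧ ∃ᶠ n in atTop, h (X n) = s}) ∂(envLaw μ)
      ≤ ∫⁻ ω, quenched ω (0 + dsp l)
          {X | (∀ n, h (X n) ≤ s) ∧ ∃ᶠ n in atTop, h (X n) = s} ∂(envLaw μ) := by
        refine lintegral_mono fun ω => ?_
        rw [quenched_markov ω 0 l (kal_meas_level h s)]
        exact mul_le_of_le_one_left zero_le (qw_le_one ω 0 l)
    _ = 0 := kal_level μ hμ hsurj (0 + dsp l) s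

lemma kal_meas_bdd (h : Site d →+ ℤ) :
    MeasurableSet {X : ℕ → Site d | ∃ k : ℤ, ∀ n, h (X n) ≤ k} := by
  have : {X : ℕ → Site d | ∃ k : ℤ, ∀ n, h (X n) ≤ k} =
      ⋃ k : ℤ, ⋂ n, {X : ℕ → Site d | h (X n) ≤ k} := by
    ext X
    simp only [Set.mem_ofPred_eq, Set.mem_iInter, Set.mem_iUnion]
  rw [this]
  exact MeasurableSet.iUnion fun k => MeasurableSet.iInter fun n => kal_meas_le h n k

lemma kal_meas_unbdd (h : Site d →+ ℤ) :
    MeasurableSet {X : ℕ → Site d | ∀ k : ℤ, ∃ n, k ≤ h (X n)} := by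
  have : {X : ℕ → Site d | ∀ k : ℤ, ∃ n, k ≤ h (X n)} =
      ⋂ k : ℤ, ⋃ n, {X : ℕ → Site d | k ≤ h (X n)} := by
    ext X
    simp only [Set.mem_ofPred_eq, Set.mem_iInter, Set.mem_iUnion]
  rw [this]
  exact MeasurableSet.iInter fun k => MeasurableSet.iUnion fun n => kal_meas_ge h n k

/-- The upper limit of the heights is attained. -/
lemma kal_limsup {h : Site d →+ ℤ} {X : ℕ → Site d} (hb : ∃ k : ℤ, ∀ n, h (X n) ≤ k)
    (hne : X ∉ Esc (-h)) :
    ∃ (s : ℤ) (N : ℕ), (∀ n, h (X (n + N)) ≤ s) ∧ ∃ᶠ n in atTop, h (X (n + N)) = s := by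
  obtain ⟨k, hk⟩ := hb
  have h1 : ∃ K : ℤ, ∃ᶠ n in atTop, K ≤ h (X n) := by
    by_contra hcon
    push Not at hcon
    apply hne
    rw [Esc, Set.mem_ofPred_eq, tendsto_atTop]
    intro b
    filter_upwards [hcon (-b)] with n hn
    simp only [AddMonoidHom.neg_apply]
    omega
  obtain ⟨K, hK⟩ := h1
  -- the least eventual upper bound
  have hex : ∃ s : ℤ, (∀ᶠ n in atTop, h (X n) ≤ s) ∧
      ∀ s' : ℤ, (∀ᶠ n in atTop, h (X n) ≤ s') → s ≤ s' := by
    refine Int.exists_least_of_bdd (P := fun s => ∀ᶠ n in atTop, h (X n) ≤ s) ⟨K, ?_⟩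
      ⟨k, Eventually.of_forall hk⟩
    intro z hz
    obtain ⟨n, hn1, hn2⟩ := (hK.and_eventually hz).exists
    exact hn1.trans hn2
  obtain ⟨s, hs, hmin⟩ := hex
  obtain ⟨N, hN⟩ := eventually_atTop.1 hs
  refine ⟨s, N, fun n => hN _ (by omega), ?_⟩
  have hfr : ∃ᶠ n in atTop, h (X n) = s := by
    intro hcon
    have : ∀ᶠ n in atTop, h (X n) ≤ s - 1 := by
      filter_upwards [hcon, hs] with n hn1 hn2
      have : h (X n) ≠ s := hn1
      omega
    have := hmin _ this
    omega
  rw [frequently_atTop] at hfr ⊢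
  intro a
  obtain ⟨b, hb1, hb2⟩ := hfr (a + N)
  refine ⟨b - N, by omega, ?_⟩
  rwa [Nat.sub_add_cancel (by omega)]

end Kal

variable (μ : Measure (Row d)) [IsProbabilityMeasure μ]

/-- Bounded heights imply escape downwards. -/
theorem esc_of_bounded (hμ : Elliptic μ) {h : Site d →+ ℤ} (hsurj : Function.Surjective h) :
    annealed μ 0 ({X | ∃ k : ℤ, ∀ n, h (X n) ≤ k} \ Esc (-h)) = 0 := by
  refine le_antisymm ?_ zero_le
  have hsub : ({X : ℕ → Site d | ∃ k : ℤ, ∀ n, h (X n) ≤ k} \ Esc (-h)) ∩ Good 0 ⊆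
      ⋃ p : ℤ × List (Dir d), cyl 0 p.2 ∩
        tl p.2.length ⁻¹' {X | (∀ n, h (X n) ≤ p.1) ∧ ∃ᶠ n in atTop, h (X n) = p.1} := by
    rintro X ⟨⟨hb, hne⟩, hg⟩
    obtain ⟨s, N, h1, h2⟩ := kal_limsup hb hne
    obtain ⟨l, hl, hXl⟩ := hg N
    rw [mem_lists] at hl
    rw [Set.mem_iUnion]
    refine ⟨(s, l), hXl, ?_⟩
    simp only [Set.mem_preimage, Set.mem_ofPred_eq, hl, tl]
    exact ⟨h1, h2⟩
  have hm : ∀ p : ℤ × List (Dir d), MeasurableSet (cyl 0 p.2 ∩
        tl p.2.length ⁻¹' {X : ℕ → Site d | (∀ n, h (X n) ≤ p.1) ∧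
          ∃ᶠ n in atTop, h (X n) = p.1}) := fun p =>
    (measurableSet_cyl _ _).inter (measurable_tl _ (kal_meas_level h p.1))
  calc annealed μ 0 ({X | ∃ k : ℤ, ∀ n, h (X n) ≤ k} \ Esc (-h))
      ≤ annealed μ 0 _ := annealed_inter_good μ 0 _
    _ ≤ annealed μ 0 _ := annealed_mono μ 0 hsub
    _ ≤ _ := annealed_iUnion_le μ 0 hm
    _ = 0 := by
        rw [ENNReal.tsum_eq_zero]
        intro p
        exact kal_after μ hμ hsurj p.2 p.1

/-- The sign-union law. -/
theorem sign_union (hμ : Elliptic μ) {h : Site d →+ ℤ} (hsurj : Function.Surjective h)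
    (hpos : annealed μ 0 (Esc h) ≠ 0) : annealed μ 0 (Esc h ∪ Esc (-h))ᶜ = 0 := by
  have h1 := esc_of_unbounded μ h hpos
  have h2 := esc_of_bounded μ hμ hsurj
  have hm1 : MeasurableSet ({X : ℕ → Site d | ∀ k : ℤ, ∃ n, k ≤ h (X n)} \ Esc h) :=
    (kal_meas_unbdd h).diff (measurableSet_esc h)
  have hm2 : MeasurableSet ({X : ℕ → Site d | ∃ k : ℤ, ∀ n, h (X n) ≤ k} \ Esc (-h)) :=
    (kal_meas_bdd h).diff (measurableSet_esc (-h))
  have hsub : (Esc h ∪ Esc (-h))ᶜ ⊆
      ({X : ℕ → Site d | ∀ k : ℤ, ∃ n, k ≤ h (X n)} \ Esc h) ∪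
        ({X : ℕ → Site d | ∃ k : ℤ, ∀ n, h (X n) ≤ k} \ Esc (-h)) := by
    intro X hX
    rw [Set.mem_compl_iff, Set.mem_union, not_or] at hX
    by_cases hb : ∀ k : ℤ, ∃ n, k ≤ h (X n)
    · exact Or.inl ⟨hb, hX.1⟩
    · push Not at hb
      obtain ⟨k, hk⟩ := hb
      exact Or.inr ⟨⟨k, fun n => (hk n).le⟩, hX.2⟩
  refine le_antisymm ?_ zero_le
  calc annealed μ 0 (Esc h ∪ Esc (-h))ᶜ ≤ annealed μ 0 _ := annealed_mono μ 0 hsub
    _ = annM μ 0 _ := (annM_apply μ 0 (hm1.union hm2)).symm
    _ = 0 := by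
        refine measure_union_null ?_ ?_
        · rw [annM_apply μ 0 hm1]; exact h1
        · rw [annM_apply μ 0 hm2]; exact h2

end Vale.Agent.P147
end
end

section

section

open MeasureTheory Filter Topology
open scoped ENNReal

namespace Vale.Agent.P147

/-! ### Infinite sums of convolution elements -/

namespace Cv

variable {G : Type*} [AddCommGroup G]

/-- Infinite sums. -/
noncomputable def ser (g : ℕ → Cv G) : Cv G := ⟨fun z => ∑' t, (g t).v z⟩

omit [AddCommGroup G] in
lemma ser_v (g : ℕ → Cv G) (z : G) : (ser g).v z = ∑' t, (g t).v z := rfl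

lemma mul_ser (f : Cv G) (g : ℕ → Cv G) : f * ser g = ser (fun t => f * g t) := by
  ext z
  simp only [mul_v, ser_v, ← ENNReal.tsum_mul_left]
  exact ENNReal.tsum_comm

omit [AddCommGroup G] in
lemma ser_succ (g : ℕ → Cv G) : ser g = g 0 + ser (fun t => g (t + 1)) := by
  ext z
  simp only [ser_v, add_v]
  exact tsum_eq_zero_add' ENNReal.summable

omit [AddCommGroup G] in
lemma ser_add (f g : ℕ → Cv G) : ser (fun t => f t + g t) = ser f + ser g := by
  ext z
  simp only [ser_v, add_v, ENNReal.tsum_add]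

omit [AddCommGroup G] in
lemma mass_ser (g : ℕ → Cv G) : mass (ser g) = ∑' t, mass (g t) := by
  simp only [mass, ser_v]
  exact ENNReal.tsum_comm

/-- Neumann series. -/
noncomputable def neu (f : Cv G) : Cv G := ser (fun j => f ^ j)

lemma neu_eq (f : Cv G) : neu f = 1 + f * neu f := by
  rw [neu, mul_ser]
  conv_lhs => rw [ser_succ]
  simp only [pow_zero, pow_succ']

lemma mass_neu (f : Cv G) : mass (neu f) = (1 - mass f)⁻¹ := by
  rw [neu, mass_ser]
  simp only [mass_pow]
  exact ENNReal.tsum_geometric _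

/-- The Neumann series of a sum, expanded with respect to the second summand. -/
noncomputable def tt (f g : Cv G) : Cv G := ser (fun t => g ^ t * neu f ^ (t + 1))

lemma tt_eq (f g : Cv G) : tt f g = 1 + (f + g) * tt f g := by
  have e1 : f * tt f g = f * neu f + ser (fun t => f * (g ^ (t + 1) * neu f ^ (t + 1 + 1))) := by
    rw [tt, mul_ser, ser_succ]
    simp
  have e2 : g * tt f g = ser (fun t => g ^ (t + 1) * neu f ^ (t + 1)) := by
    rw [tt, mul_ser]
    congr 1
    funext t
    ring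
  have e3 : tt f g = neu f + ser (fun t => g ^ (t + 1) * neu f ^ (t + 1 + 1)) := by
    rw [tt, ser_succ]
    simp
  have e4 : (fun t : ℕ => g ^ (t + 1) * neu f ^ (t + 1 + 1)) =
      fun t => f * (g ^ (t + 1) * neu f ^ (t + 1 + 1)) + g ^ (t + 1) * neu f ^ (t + 1) := by
    funext t
    conv_lhs => rw [pow_succ (neu f) (t + 1)]
    conv_lhs =>
      enter [2, 2]
      rw [neu_eq]
    ring
  rw [add_mul, e1, e2]
  calc tt f g = neu f + ser (fun t : ℕ => g ^ (t + 1) * neu f ^ (t + 1 + 1)) := e3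
    _ = (1 + f * neu f) + ser (fun t : ℕ => g ^ (t + 1) * neu f ^ (t + 1 + 1)) := by
        rw [← neu_eq]
    _ = (1 + f * neu f) + (ser (fun t => f * (g ^ (t + 1) * neu f ^ (t + 1 + 1))) +
          ser (fun t => g ^ (t + 1) * neu f ^ (t + 1))) := by rw [e4, ser_add]
    _ = _ := by
        rw [add_assoc, ← add_assoc (f * neu f)]

/-! ### Heights -/

section heights

variable (h : G →+ ℤ)

/-- All the mass is at height `k`. -/
def Supp (f : Cv G) (k : ℤ) : Prop := ∀ w, h w ≠ k → f.v w = 0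

variable {h}

lemma supp_pt (a : G) (c : ℝ≥0∞) : Supp h (pt a c) (h a) := by
  intro w hw
  refine pt_v_ne ?_ c
  rintro rfl
  exact hw rfl

lemma Supp.add {f g : Cv G} {k : ℤ} (hf : Supp h f k) (hg : Supp h g k) : Supp h (f + g) k := by
  intro w hw
  rw [add_v, hf w hw, hg w hw, add_zero]

lemma Supp.mul {f g : Cv G} {k l : ℤ} (hf : Supp h f k) (hg : Supp h g l) :
    Supp h (f * g) (k + l) := by
  intro w hw
  rw [mul_v, ENNReal.tsum_eq_zero]
  intro y
  by_cases hy : h y = k
  · rw [hg (w - y), mul_zero]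
    rw [map_sub, hy]
    omega
  · rw [hf y hy, zero_mul]

lemma Supp.pow {f : Cv G} {k : ℤ} (hf : Supp h f k) (n : ℕ) : Supp h (f ^ n) (n * k) := by
  induction n with
  | zero =>
    have := supp_pt (h := h) (0 : G) 1
    rw [map_zero] at this
    simpa [one_def] using this
  | succ n ih =>
    rw [pow_succ]
    have := ih.mul hf
    push_cast
    rwa [add_mul, one_mul]

variable (h)

/-- Mass at a given height. -/
noncomputable def hm (f : Cv G) (n : ℤ) : ℝ≥0∞ := ∑' y, f.v y * (if h y = n then 1 else 0)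

variable {h}

lemma tsum_hm_le (f : Cv G) (s : ℤ) : ∑' m : ℕ, hm h f ((m : ℤ) - s) ≤ mass f := by
  simp only [hm]
  rw [ENNReal.tsum_comm, mass]
  refine ENNReal.tsum_le_tsum fun y => ?_
  rw [ENNReal.tsum_mul_left]
  calc f.v y * ∑' m : ℕ, (if h y = (m : ℤ) - s then 1 else 0) ≤ f.v y * 1 := by
        gcongr
        by_cases hex : ∃ m : ℕ, h y = (m : ℤ) - s
        · obtain ⟨m, hm⟩ := hex
          rw [tsum_eq_single m]
          · simp [hm]
          · intro m' hm'
            rw [if_neg]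
            intro h2
            exact hm' (by omega)
        · push Not at hex
          simp only [hex, ↓reduceIte, tsum_zero, zero_le]
    _ = f.v y := mul_one _

lemma mul_v_le_hm {f g : Cv G} {b : ℝ≥0∞} {k : ℤ} (hg : ∀ z, g.v z ≤ b) (hs : Supp h g k)
    (z : G) : (f * g).v z ≤ b * hm h f (h z - k) := by
  rw [mul_v, hm, ← ENNReal.tsum_mul_left]
  refine ENNReal.tsum_le_tsum fun y => ?_
  split_ifs with hy
  · rw [mul_one, mul_comm b]
    gcongr
    exact hg _
  · rw [hs (z - y), mul_zero]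
    · simp
    · rw [map_sub]
      omega

end heights

/-! ### Three-dimensional cubes -/

/-- The factor `(t + 1) ^ (-3/2)`. -/
noncomputable def bb (t : ℕ) : ℝ≥0∞ := ((((t : ℝ≥0∞) + 1) ^ 3) ^ (1 / 2 : ℝ))⁻¹

lemma choose_three (t a b c : ℕ) :
    ((t.choose a * t.choose b * t.choose c : ℕ) : ℝ≥0∞) ≤ 8 ^ t * bb t := by
  have h1 : (t.choose a * t.choose b * t.choose c) ^ 2 * (t + 1) ^ 3 ≤ (8 ^ t) ^ 2 := by
    calc (t.choose a * t.choose b * t.choose c) ^ 2 * (t + 1) ^ 3
        = (t.choose a ^ 2 * (t + 1)) * (t.choose b ^ 2 * (t + 1)) *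
          (t.choose c ^ 2 * (t + 1)) := by ring
      _ ≤ 4 ^ t * 4 ^ t * 4 ^ t := by
          gcongr
          · exact choose_sq t a
          · exact choose_sq t b
          · exact choose_sq t c
      _ = (8 ^ t) ^ 2 := by
          rw [← mul_pow, ← mul_pow, ← pow_mul, mul_comm t 2, pow_mul]
          norm_num
  have h2 : ((t.choose a * t.choose b * t.choose c : ℕ) : ℝ≥0∞) ^ 2 * ((t : ℝ≥0∞) + 1) ^ 3 ≤
      (8 ^ t) ^ 2 := by exact_mod_cast h1
  have h3 := ENNReal.rpow_le_rpow h2 (z := 1 / 2) (by norm_num)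
  rw [ENNReal.mul_rpow_of_nonneg _ _ (by norm_num)] at h3
  have e : ∀ x : ℝ≥0∞, (x ^ 2) ^ (1 / 2 : ℝ) = x := by
    intro x
    rw [← ENNReal.rpow_natCast, ← ENNReal.rpow_mul]
    norm_num
  rw [e, e] at h3
  rw [bb, ← div_eq_mul_inv]
  refine (ENNReal.le_div_iff_mul_le (Or.inl ?_) (Or.inl ?_)).2 h3
  · simp only [one_div, ne_eq, ENNReal.rpow_eq_zero_iff, OfNat.ofNat_ne_zero, not_false_eq_true, pow_eq_zero_iff, add_eq_zero, Nat.cast_eq_zero, one_ne_zero, and_false, inv_pos, Nat.ofNat_pos, and_true, ENNReal.pow_eq_top_iff, ENNReal.add_eq_top, ENNReal.natCast_ne_top, ENNReal.one_ne_top, or_self, inv_neg'', false_and]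
  · refine ENNReal.rpow_ne_top_of_nonneg (by norm_num) ?_
    exact ENNReal.pow_ne_top (by simp)

lemma tsum_bb : ∑' t, bb t ≠ ∞ := by
  have h1 : Summable fun t : ℕ => ((t + 1 : ℕ) : ℝ) ^ (-(3 / 2) : ℝ) := by
    rw [summable_nat_add_iff (f := fun t : ℕ => (t : ℝ) ^ (-(3 / 2) : ℝ)) 1]
    exact Real.summable_nat_rpow.2 (by norm_num)
  have h2 : ∀ t : ℕ, bb t = ENNReal.ofReal (((t + 1 : ℕ) : ℝ) ^ (-(3 / 2) : ℝ)) := by
    intro t
    have hpos : (0 : ℝ) < ((t + 1 : ℕ) : ℝ) := by (clear * -; positivity)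
    rw [← ENNReal.ofReal_rpow_of_pos hpos, bb, ENNReal.ofReal_natCast,
      ← ENNReal.rpow_natCast, ← ENNReal.rpow_mul, ENNReal.rpow_neg]
    congr 2
    · push_cast; rfl
    · norm_num
  simp only [h2]
  exact h1.tsum_ofReal_ne_top

/-- The uniform bound for the powers of the three-dimensional cube. -/
lemma cube3_pow_le {ζ g₁ g₂ g₃ : G} (c : ℝ≥0∞)
    (hind : ∀ a b e a' b' e' : ℕ, a • g₁ + b • g₂ + e • g₃ = a' • g₁ + b' • g₂ + e' • g₃ →
      a = a' ∧ b = b' ∧ e = e')
    (t : ℕ) (z : G) :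
    ((pt ζ c * ((1 + pt g₁ 1) * (1 + pt g₂ 1) * (1 + pt g₃ 1))) ^ t).v z ≤
      (8 * c) ^ t * bb t := by
  have e1 : (1 + pt g₁ 1 : Cv G) ^ t * (1 + pt g₂ 1) ^ t * (1 + pt g₃ 1) ^ t =
      ∑ p ∈ (Finset.range (t + 1) ×ˢ Finset.range (t + 1)) ×ˢ Finset.range (t + 1),
        ((t.choose p.1.1 * t.choose p.1.2 * t.choose p.2 : ℕ) : Cv G) *
          pt (p.1.1 • g₁ + p.1.2 • g₂ + p.2 • g₃) 1 := by
    rw [one_add_pt_pow, one_add_pt_pow, one_add_pt_pow, Finset.sum_mul_sum,
      ← Finset.sum_product', Finset.sum_mul_sum, ← Finset.sum_product']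
    refine Finset.sum_congr rfl fun p _ => ?_
    calc _ = ((t.choose p.1.1 : ℕ) : Cv G) * ((t.choose p.1.2 : ℕ) : Cv G) *
          ((t.choose p.2 : ℕ) : Cv G) *
          (pt (p.1.1 • g₁) 1 * pt (p.1.2 • g₂) 1 * pt (p.2 • g₃) 1) := by ring
      _ = _ := by rw [pt_mul_pt, pt_mul_pt, mul_one, mul_one, Nat.cast_mul, Nat.cast_mul]
  have key : ∀ w : G, ((1 + pt g₁ 1 : Cv G) ^ t * (1 + pt g₂ 1) ^ t * (1 + pt g₃ 1) ^ t).v w ≤
      8 ^ t * bb t := by
    intro w
    rw [e1]
    simp only [sum_v, natCast_mul_v]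
    by_cases hex : ∃ p ∈ (Finset.range (t + 1) ×ˢ Finset.range (t + 1)) ×ˢ Finset.range (t + 1),
        w = p.1.1 • g₁ + p.1.2 • g₂ + p.2 • g₃
    · obtain ⟨p, hp, rfl⟩ := hex
      rw [Finset.sum_eq_single_of_mem p hp]
      · rw [pt_v_self, mul_one]
        exact choose_three _ _ _ _
      · intro q _ hq
        rw [pt_v_ne, mul_zero]
        intro h
        have := hind _ _ _ _ _ _ h
        exact hq (Prod.ext (Prod.ext this.1.symm this.2.1.symm) this.2.2.symm)
    · rw [Finset.sum_eq_zero]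
      · exact zero_le
      · intro p hp
        rw [pt_v_ne, mul_zero]
        intro h
        exact hex ⟨p, hp, h⟩
  rw [mul_pow, mul_pow, mul_pow, pt_pow, pt_mul_v]
  calc c ^ t * _ ≤ c ^ t * (8 ^ t * bb t) := by gcongr; exact key _
    _ = (8 * c) ^ t * bb t := by rw [mul_pow]; ring

/-- The main estimate. -/
theorem tt_bound {h : G →+ ℤ} (ψ : Cv G) (hψ : mass ψ = 1) {ζ g₁ g₂ g₃ : G} {c : ℝ≥0∞}
    (hc : c ≠ 0) (h1 : h g₁ = 0) (h2 : h g₂ = 0) (h3 : h g₃ = 0)
    (hind : ∀ a b e a' b' e' : ℕ, a • g₁ + b • g₂ + e • g₃ = a' • g₁ + b' • g₂ + e' • g₃ →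
      a = a' ∧ b = b' ∧ e = e')
    (hdom : ∀ z, (pt ζ c * ((1 + pt g₁ 1) * (1 + pt g₂ 1) * (1 + pt g₃ 1))).v z ≤ ψ.v z) :
    ∃ (T : Cv G) (s : ℕ → ℝ≥0∞), T = 1 + ψ * T ∧ ∑' m, s m ≠ ∞ ∧
      ∀ (m : ℕ) z, h z = m → T.v z ≤ s m := by
  set ρ : Cv G := pt ζ c * ((1 + pt g₁ 1) * (1 + pt g₂ 1) * (1 + pt g₃ 1)) with hρ
  set ψ' : Cv G := ⟨fun z => ψ.v z - ρ.v z⟩ with hψ'
  have hsum : ψ = ψ' + ρ := by
    ext z
    simp only [add_v, hψ']
    rw [tsub_add_cancel_of_le (hdom z)]
  have hmρ : mass ρ = 8 * c := by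
    rw [hρ, mass_mul, mass_mul, mass_mul, mass_add, mass_add, mass_add, mass_pt, mass_pt,
      mass_pt, mass_pt, mass_one]
    norm_num
    ring
  have hmass : mass ψ' + 8 * c = 1 := by
    rw [← hψ, hsum, mass_add, hmρ]
  have h8c : 8 * c ≠ 0 := by simpa only [ne_eq, mul_eq_zero, OfNat.ofNat_ne_zero, false_or] using hc
  have h8ct : 8 * c ≠ ∞ := by
    intro h
    rw [h] at hmass
    simp at hmass
  have hN : mass (neu ψ') = (8 * c)⁻¹ := by
    rw [mass_neu]
    congr 1
    rw [← hmass]
    refine ENNReal.add_sub_cancel_left ?_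
    intro h
    rw [h] at hmass
    simp at hmass
  have hs : Supp h ρ (h ζ) := by
    have e1 : ∀ g : G, h g = 0 → Supp h (1 + pt g 1) 0 := by
      intro g hg
      refine Supp.add ?_ ?_
      · have := supp_pt (h := h) (0 : G) 1
        rwa [map_zero] at this
      · have := supp_pt (h := h) g 1
        rwa [hg] at this
    have := (supp_pt (h := h) ζ c).mul (((e1 g₁ h1).mul (e1 g₂ h2)).mul (e1 g₃ h3))
    simpa using this
  refine ⟨tt ψ' ρ, fun m => ∑' t : ℕ, ((8 * c) ^ t * bb t) *
    hm h (neu ψ' ^ (t + 1)) ((m : ℤ) - t * h ζ), ?_, ?_, ?_⟩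
  · conv_rhs => rw [hsum]
    exact tt_eq ψ' ρ
  · rw [ENNReal.tsum_comm]
    have hle : ∑' (t : ℕ) (m : ℕ), ((8 * c) ^ t * bb t) *
        hm h (neu ψ' ^ (t + 1)) ((m : ℤ) - t * h ζ) ≤ ∑' t : ℕ, (8 * c)⁻¹ * bb t := by
      refine ENNReal.tsum_le_tsum fun t => ?_
      rw [ENNReal.tsum_mul_left]
      calc (8 * c) ^ t * bb t * ∑' m : ℕ, hm h (neu ψ' ^ (t + 1)) ((m : ℤ) - t * h ζ)
          ≤ (8 * c) ^ t * bb t * mass (neu ψ' ^ (t + 1)) := by
            gcongr
            exact tsum_hm_le _ _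
        _ = ((8 * c) ^ t * ((8 * c)⁻¹) ^ t) * ((8 * c)⁻¹ * bb t) := by
            rw [mass_pow, hN, pow_succ]; ring
        _ = (8 * c)⁻¹ * bb t := by
            rw [← mul_pow, ENNReal.mul_inv_cancel h8c h8ct, one_pow, one_mul]
    refine ne_top_of_le_ne_top ?_ hle
    rw [ENNReal.tsum_mul_left]
    exact ENNReal.mul_ne_top (ENNReal.inv_ne_top.2 h8c) tsum_bb
  · intro m z hz
    rw [tt, ser_v]
    refine ENNReal.tsum_le_tsum fun t => ?_
    rw [mul_comm, ← hz]
    exact mul_v_le_hm (fun z => cube3_pow_le c hind t z) (hs.pow t) z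

end Cv

variable {d : ℕ}

section

variable {h : Site d →+ ℤ}

/-- Irreducible upward paths with a prescribed displacement. -/
lemma exists_irr_to (hsurj : Function.Surjective h) {L : ℕ} (hL : ∀ u : Dir d, |h (vec u)| ≤ L)
    {k : ℕ} (hk : 2 * L ≤ k) (hk0 : 0 < k) {y : Site d} (hy : h y = k) :
    ∃ l ∈ Up h k, dsp l = y ∧ ∀ j, 0 < j → j < k →
      ∀ a ∈ Up h j, ∀ b ∈ Up h (k - j), l ≠ a ++ b := by
  obtain ⟨y₁, hy₁⟩ := hsurj (k - 1)
  have hkZ : (2 * L : ℤ) ≤ k := by exact_mod_cast hk
  have hk0Z : (0 : ℤ) < k := by exact_mod_cast hk0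
  obtain ⟨b₁, hb₁, hs₁⟩ := exists_path h (B := (k : ℤ)) hL hkZ _ 0 y₁ rfl (by simp)
    (by rw [map_zero]; exact hk0Z) (by rw [hy₁]; linarith only [hk0]) (by rw [hy₁]; linarith only [])
  obtain ⟨b₂, hb₂, hs₂⟩ := exists_path h (B := (k : ℤ)) hL hkZ _ y₁ 0 rfl
    (by rw [hy₁]; linarith only [hk0]) (by rw [hy₁]; linarith only []) (by simp) (by rw [map_zero]; exact hk0Z)
  obtain ⟨b₃, hb₃, hd₃⟩ := exists_up hsurj hL hk hy
  rw [zero_add] at hb₁
  have hloop : dsp (b₁ ++ b₂) = 0 := by rw [dsp_append, hb₁, hb₂]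
  refine ⟨(b₁ ++ b₂) ++ b₃, ⟨fun a b hab => ?_, fun a b hab hb => ?_, ?_⟩, ?_, ?_⟩
  · rcases List.append_eq_append_iff.1 hab with ⟨c, rfl, h2⟩ | ⟨c, h1, h2⟩
    · rw [dsp_append, hloop, zero_add]
      exact hb₃.1 c b h2
    · rcases List.append_eq_append_iff.1 h1 with ⟨e, rfl, h4⟩ | ⟨e, h4, h5⟩
      · rw [dsp_append, hb₁]
        exact (hs₂ e c h4).1
      · simpa only [zero_add] using (hs₁ a e h4).1
  · rcases List.append_eq_append_iff.1 hab with ⟨c, rfl, h2⟩ | ⟨c, h1, h2⟩
    · rw [dsp_append, hloop, zero_add]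
      exact hb₃.2.1 c b h2 hb
    · rcases List.append_eq_append_iff.1 h1 with ⟨e, rfl, h4⟩ | ⟨e, h4, h5⟩
      · rw [dsp_append, hb₁]
        exact (hs₂ e c h4).2
      · simpa only [zero_add] using (hs₁ a e h4).2
  · rw [dsp_append, hloop, zero_add, hd₃, hy]
  · rw [dsp_append, hloop, zero_add, hd₃]
  · intro j hj0 hjk a ha b hb hab
    have hjkZ : (j : ℤ) < k := by exact_mod_cast hjk
    have hj0Z : (0 : ℤ) < j := by exact_mod_cast hj0
    rcases List.append_eq_append_iff.1 hab with ⟨c, h1, h2⟩ | ⟨c, h1, h2⟩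
    · -- the loop is an initial part of `a`
      by_cases hc : b₂ ++ c = []
      · obtain ⟨hb2, rfl⟩ := List.append_eq_nil_iff.1 hc
        simp only [List.append_nil] at h1
        have := ha.2.2
        rw [h1, hloop, map_zero] at this
        omega
      · have h3 := ha.2.1 b₁ (b₂ ++ c) (by rw [h1]; simp) hc
        rw [hb₁, hy₁] at h3
        omega
    · -- `a` is an initial part of the loop
      have h3 := hb.1 c b₃ h2
      have h4 : h (dsp (b₁ ++ b₂)) = 0 := by rw [hloop]; simp only [map_zero]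
      rw [h1, dsp_append, map_add, ha.2.2] at h4
      omega

/-- Three independent level displacements. -/
lemma exists_indep3 (hd : 4 ≤ d) {h : Site d →+ ℤ} (hsurj : Function.Surjective h) :
    ∃ g₁ g₂ g₃ : Site d, h g₁ = 0 ∧ h g₂ = 0 ∧ h g₃ = 0 ∧
      ∀ a b e a' b' e' : ℕ, a • g₁ + b • g₂ + e • g₃ = a' • g₁ + b' • g₂ + e' • g₃ →
        a = a' ∧ b = b' ∧ e = e' := by
  obtain ⟨⟨i, s⟩, hu⟩ := exists_pos_step hsurj
  set c : Fin d → ℤ := fun j => h (Pi.single j 1) with hc
  have hci : c i ≠ 0 := by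
    intro h0
    cases s with
    | true =>
      have : vec (i, true) = (Pi.single i 1 : Site d) := by simp [vec]
      rw [this] at hu
      simp only [hc] at h0
      omega
    | false =>
      have : vec (i, false) = -(Pi.single i 1 : Site d) := by
        rw [show (i, false) = (i, !true) by rfl, vec_neg]
        simp [vec]
      rw [this, map_neg] at hu
      simp only [hc] at h0
      omega
  obtain ⟨j, k, l, hji, hki, hli, hjk, hjl, hkl⟩ : ∃ j k l : Fin d, j ≠ i ∧ k ≠ i ∧ l ≠ i ∧
      j ≠ k ∧ j ≠ l ∧ k ≠ l := by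
    have hcard : 2 < ((Finset.univ : Finset (Fin d)).erase i).card := by
      rw [Finset.card_erase_of_mem (Finset.mem_univ i)]
      simp only [Finset.card_univ, Fintype.card_fin]
      omega
    obtain ⟨j, hj, k, hk, l, hl, hjk, hjl, hkl⟩ := Finset.two_lt_card.1 hcard
    exact ⟨j, k, l, Finset.ne_of_mem_erase hj, Finset.ne_of_mem_erase hk,
      Finset.ne_of_mem_erase hl, hjk, hjl, hkl⟩
  have hker : ∀ j, h (c i • (Pi.single j 1 : Site d) - c j • (Pi.single i 1 : Site d)) = 0 := by
    intro j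
    rw [map_sub, map_zsmul, map_zsmul]
    simp only [hc, smul_eq_mul]
    ring
  refine ⟨c i • Pi.single j 1 - c j • Pi.single i 1, c i • Pi.single k 1 - c k • Pi.single i 1,
    c i • Pi.single l 1 - c l • Pi.single i 1, hker j, hker k, hker l, ?_⟩
  intro a b e a' b' e' heq
  have h1 := congrFun heq j
  have h2 := congrFun heq k
  have h3 := congrFun heq l
  simp only [Pi.add_apply, Pi.smul_apply, Pi.sub_apply, Pi.single_eq_same,
    Pi.single_eq_of_ne hji, Pi.single_eq_of_ne hjk, Pi.single_eq_of_ne hki,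
    Pi.single_eq_of_ne hjk.symm, Pi.single_eq_of_ne hli, Pi.single_eq_of_ne hjl,
    Pi.single_eq_of_ne hjl.symm, Pi.single_eq_of_ne hkl, Pi.single_eq_of_ne hkl.symm,
    smul_eq_mul, mul_one, mul_zero, sub_zero, sub_self,
    smul_zero, add_zero, zero_add] at h1 h2 h3
  simp only [nsmul_eq_mul] at h1 h2 h3
  refine ⟨?_, ?_, ?_⟩
  · have := mul_right_cancel₀ hci h1
    exact_mod_cast this
  · have := mul_right_cancel₀ hci h2
    exact_mod_cast this
  · have := mul_right_cancel₀ hci h3
    exact_mod_cast this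

end

section

variable (μ : Measure (Row d)) [IsProbabilityMeasure μ] (h : Site d →+ ℤ)

open Classical in
/-- Law of the displacement of an irreducible upward path. -/
noncomputable def psi : Cv (Site d) :=
  ⟨fun y => ∑' p : (Σ j, (upG h).I j), wt μ (p.2 : FreeMonoid (Dir d)).toList *
    (if dsp (p.2 : FreeMonoid (Dir d)).toList = y then 1 else 0)⟩

omit [IsProbabilityMeasure μ] in
lemma mass_psi : (psi μ h).mass = ∑' j, (upG h).f (fun x => wt μ x.toList) j := by
  classical
  simp only [Cv.mass, psi]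
  rw [ENNReal.tsum_comm]
  rw [ENNReal.tsum_sigma' (fun p : (Σ j, (upG h).I j) =>
    ∑' g, wt μ (p.2 : FreeMonoid (Dir d)).toList *
      (if dsp (p.2 : FreeMonoid (Dir d)).toList = g then 1 else 0))]
  refine tsum_congr fun j => ?_
  rw [Grading.f]
  refine tsum_congr fun x => ?_
  rw [ENNReal.tsum_mul_left, tsum_eq_single (dsp (x : FreeMonoid (Dir d)).toList)]
  · simp
  · intro g hg
    rw [if_neg hg.symm]

omit [IsProbabilityMeasure μ] in
/-- Convolution with the law of an irreducible path. -/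
lemma psi_mul_v (T : Cv (Site d)) (z : Site d) : (psi μ h * T).v z =
    ∑' j, ∑' x : (upG h).I j, wt μ (x : FreeMonoid (Dir d)).toList *
      T.v (z - dsp (x : FreeMonoid (Dir d)).toList) := by
  classical
  rw [Cv.mul_v]
  simp only [psi, ← ENNReal.tsum_mul_right]
  rw [ENNReal.tsum_comm]
  rw [ENNReal.tsum_sigma' (fun p : (Σ j, (upG h).I j) =>
    ∑' y, wt μ (p.2 : FreeMonoid (Dir d)).toList *
      (if dsp (p.2 : FreeMonoid (Dir d)).toList = y then 1 else 0) * T.v (z - y))]
  refine tsum_congr fun j => tsum_congr fun x => ?_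
  rw [tsum_eq_single (dsp (x : FreeMonoid (Dir d)).toList)]
  · simp
  · intro g hg
    rw [if_neg hg.symm]
    simp

lemma UD_le {T : Cv (Site d)} (hT : T = 1 + psi μ h * T) :
    ∀ m z, UD μ h m z ≤ T.v z := by
  classical
  intro m
  induction m using Nat.strong_induction_on with
  | _ m ih =>
    intro z
    rcases Nat.eq_zero_or_pos m with rfl | hm
    · have e : UD μ h 0 z ≤ (1 : Cv (Site d)).v z := by
        have hUp : Up h 0 = {([] : List (Dir d))} := by
          ext l
          rw [Up_zero]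
          rfl
        rw [UD, hUp, tsum_singleton ([] : List (Dir d))
          (fun l => wt μ l * (if dsp l = z then 1 else 0))]
        rw [Cv.one_def]
        by_cases hz : z = 0
        · subst hz
          simp
        · rw [dsp_nil, if_neg (Ne.symm hz)]
          simp only [wt_nil, mul_zero, zero_le]
      refine e.trans ?_
      rw [hT, Cv.add_v]
      exact le_self_add
    · have e0 : UD μ h m z = ∑' x : (upG h).G m, wt μ (x : FreeMonoid (Dir d)).toList *
          (if dsp (x : FreeMonoid (Dir d)).toList = z then 1 else 0) :=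
        (upG_tsum h m (fun l => wt μ l * (if dsp l = z then 1 else 0))).symm
      rw [e0, Grading.tsum_mul_eq (upG_mult μ h) hm
        (fun x => if dsp x.toList = z then 1 else 0)]
      have e1 : ∀ j ∈ Finset.Icc 1 m,
          ∑' a : (upG h).I j, wt μ (a : FreeMonoid (Dir d)).toList *
            ∑' b : (upG h).G (m - j), wt μ (b : FreeMonoid (Dir d)).toList *
              (if dsp ((a : FreeMonoid (Dir d)) * b).toList = z then 1 else 0) ≤
          ∑' a : (upG h).I j, wt μ (a : FreeMonoid (Dir d)).toList *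
            T.v (z - dsp (a : FreeMonoid (Dir d)).toList) := by
        intro j hj
        rw [Finset.mem_Icc] at hj
        refine ENNReal.tsum_le_tsum fun a => ?_
        refine mul_le_mul' le_rfl ?_
        refine le_trans (le_of_eq ?_)
          (ih (m - j) (by omega) (z - dsp (a : FreeMonoid (Dir d)).toList))
        rw [UD, ← upG_tsum h (m - j) (fun l => wt μ l *
          (if dsp l = z - dsp (a : FreeMonoid (Dir d)).toList then 1 else 0))]
        refine tsum_congr fun b => ?_
        congr 1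
        refine if_congr ?_ rfl rfl
        rw [FreeMonoid.toList_mul, dsp_append, eq_sub_iff_add_eq, add_comm]
      calc _ ≤ ∑ j ∈ Finset.Icc 1 m,
            ∑' a : (upG h).I j, wt μ (a : FreeMonoid (Dir d)).toList *
              T.v (z - dsp (a : FreeMonoid (Dir d)).toList) := Finset.sum_le_sum e1
        _ ≤ ∑' j, ∑' a : (upG h).I j, wt μ (a : FreeMonoid (Dir d)).toList *
              T.v (z - dsp (a : FreeMonoid (Dir d)).toList) := ENNReal.sum_le_tsum _
        _ = (psi μ h * T).v z := (psi_mul_v μ h T z).symm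
        _ ≤ T.v z := by
            conv_rhs => rw [hT, Cv.add_v]
            exact le_add_self

end

variable (μ : Measure (Row d)) [IsProbabilityMeasure μ]

/-- Existence of a three-dimensional cube dominated by the law of the displacement. -/
lemma exists_cube3 (hd : 4 ≤ d) (hμ : Elliptic μ) {h : Site d →+ ℤ}
    (hsurj : Function.Surjective h) : ∃ (ζ g₁ g₂ g₃ : Site d) (c : ℝ≥0∞), c ≠ 0 ∧
      h g₁ = 0 ∧ h g₂ = 0 ∧ h g₃ = 0 ∧
      (∀ a b e a' b' e' : ℕ, a • g₁ + b • g₂ + e • g₃ = a' • g₁ + b' • g₂ + e' • g₃ →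
        a = a' ∧ b = b' ∧ e = e') ∧
      ∀ z, (Cv.pt ζ c * ((1 + Cv.pt g₁ 1) * (1 + Cv.pt g₂ 1) * (1 + Cv.pt g₃ 1))).v z ≤
        (psi μ h).v z := by
  classical
  obtain ⟨L, hL⟩ := exists_bound h
  obtain ⟨g₁, g₂, g₃, hg₁, hg₂, hg₃, hind⟩ := exists_indep3 hd hsurj
  set k := 2 * L + 1 with hk
  obtain ⟨ζ, hζ⟩ := hsurj k
  have hpos : ∀ g : Site d, h g = 0 → (psi μ h).v (ζ + g) ≠ 0 := by
    intro g hg h0
    obtain ⟨l, hl, hlg, hirr⟩ := exists_irr_to hsurj hL (k := k) (y := ζ + g) (by omega)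
      (by omega) (by rw [map_add, hζ, hg, add_zero])
    have hx : FreeMonoid.ofList l ∈ (upG h).I k := by
      refine ⟨mem_upG.2 hl, by omega, ?_⟩
      intro j hj0 hjk a ha b hb heq
      refine hirr j hj0 hjk _ (mem_upG.1 ha) _ (mem_upG.1 hb) ?_
      rw [← FreeMonoid.toList_mul, ← heq]
      rfl
    simp only [psi] at h0
    rw [ENNReal.tsum_eq_zero] at h0
    have h3 := h0 ⟨k, FreeMonoid.ofList l, hx⟩
    rw [mul_eq_zero] at h3
    rcases h3 with h2 | h2
    · exact wt_ne_zero μ hμ l h2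
    · split_ifs at h2 with h4
      · exact one_ne_zero h2
      · exact h4 hlg
  set S : Finset (Site d) := {0, g₁, g₂, g₃, g₁ + g₂, g₁ + g₃, g₂ + g₃, g₁ + g₂ + g₃} with hS
  have hSh : ∀ g ∈ S, h g = 0 := by
    intro g hg
    simp only [hS, Finset.mem_insert, Finset.mem_singleton] at hg
    rcases hg with rfl | rfl | rfl | rfl | rfl | rfl | rfl | rfl <;>
      simp [hg₁, hg₂, hg₃]
  set c : ℝ≥0∞ := S.inf (fun g => (psi μ h).v (ζ + g)) / 8 with hc
  have hle : ∀ g ∈ S, ∀ z, (Cv.pt (ζ + g) c).v z ≤ (psi μ h).v z / 8 := by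
    intro g hg z
    by_cases hz : z = ζ + g
    · subst hz
      rw [Cv.pt_v_self, hc]
      gcongr
      exact Finset.inf_le (f := fun g => (psi μ h).v (ζ + g)) hg
    · rw [Cv.pt_v_ne hz]
      exact zero_le
  refine ⟨ζ, g₁, g₂, g₃, c, ?_, hg₁, hg₂, hg₃, hind, fun z => ?_⟩
  · rw [hc, ne_eq, ENNReal.div_eq_zero_iff, not_or]
    refine ⟨?_, by simp⟩
    rw [← ne_eq, ← pos_iff_ne_zero, Finset.lt_inf_iff (by simp)]
    intro g hg
    exact pos_iff_ne_zero.2 (hpos g (hSh g hg))
  · have e : Cv.pt ζ c * ((1 + Cv.pt g₁ 1) * (1 + Cv.pt g₂ 1) * (1 + Cv.pt g₃ 1)) =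
        Cv.pt (ζ + 0) c + Cv.pt (ζ + g₁) c + Cv.pt (ζ + g₂) c + Cv.pt (ζ + g₃) c +
        Cv.pt (ζ + (g₁ + g₂)) c + Cv.pt (ζ + (g₁ + g₃)) c + Cv.pt (ζ + (g₂ + g₃)) c +
        Cv.pt (ζ + (g₁ + g₂ + g₃)) c := by
      have e1 : ∀ g : Site d, Cv.pt (ζ + g) c = Cv.pt ζ c * Cv.pt g 1 := by
        intro g
        rw [Cv.pt_mul_pt, mul_one]
      simp only [e1]
      have e2 : ∀ g g' : Site d, (Cv.pt (g + g') 1 : Cv (Site d)) = Cv.pt g 1 * Cv.pt g' 1 := by
        intro g g'
        rw [Cv.pt_mul_pt, mul_one]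
      rw [e2, e2, e2, e2, e2, ← Cv.one_def]
      ring
    rw [e]
    simp only [Cv.add_v]
    calc _ ≤ (psi μ h).v z / 8 + (psi μ h).v z / 8 + (psi μ h).v z / 8 + (psi μ h).v z / 8 +
          (psi μ h).v z / 8 + (psi μ h).v z / 8 + (psi μ h).v z / 8 + (psi μ h).v z / 8 := by
          gcongr <;> exact hle _ (by simp [hS]) z
      _ = (psi μ h).v z := by
          have : (psi μ h).v z / 8 + (psi μ h).v z / 8 + (psi μ h).v z / 8 + (psi μ h).v z / 8 +
              (psi μ h).v z / 8 + (psi μ h).v z / 8 + (psi μ h).v z / 8 + (psi μ h).v z / 8 =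
              8 * ((psi μ h).v z / 8) := by ring
          rw [this]
          exact ENNReal.mul_div_cancel (by norm_num) (by norm_num)

/-- Uniform bound for the law of the displacement of the upward paths. -/
theorem sup_bound (hd : 4 ≤ d) (hμ : Elliptic μ) {h : Site d →+ ℤ}
    (hsurj : Function.Surjective h) {q : ℝ≥0∞} (hq : q ≠ 0) {k₀ : ℕ}
    (hlow : ∀ k, k₀ ≤ k → q ≤ uu μ h k) :
    ∃ s : ℕ → ℝ≥0∞, ∑' m, s m ≠ ∞ ∧ ∀ m z, UD μ h m z ≤ s m := by
  obtain ⟨ζ, g₁, g₂, g₃, c, hc, h1, h2, h3, hind, hdom⟩ := exists_cube3 μ hd hμ hsurj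
  have hU : ∀ k, (upG h).U (fun x => wt μ x.toList) k ≤ 1 := fun k => by
    rw [upG_U]; exact uu_le_one μ h k
  have hlow' : ∀ k, k₀ ≤ k → q ≤ (upG h).U (fun x => wt μ x.toList) k := fun k hk => by
    rw [upG_U]; exact hlow k hk
  have hmass : (psi μ h).mass = 1 := by
    rw [mass_psi]
    exact Grading.tsum_f_eq_one (upG_mult μ h) hU hq hlow'
  obtain ⟨T, s, hT, hs, hTs⟩ := Cv.tt_bound (psi μ h) hmass hc h1 h2 h3 hind hdom
  refine ⟨s, hs, fun m z => ?_⟩
  by_cases hz : h z = m
  · exact (UD_le μ h hT m z).trans (hTs m z hz)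
  · have : UD μ h m z = 0 := by
      rw [UD, ENNReal.tsum_eq_zero]
      intro l
      rw [if_neg, mul_zero]
      rintro rfl
      exact hz l.2.2.2
    rw [this]
    exact zero_le

end Vale.Agent.P147
end
end

section

section

set_option linter.all false

open MeasureTheory Filter Topology
open scoped ENNReal

namespace Vale.Agent.P147

variable {d : ℕ} (μ : Measure (Row d)) [IsProbabilityMeasure μ]

open Classical in
/-- Indicator. -/
noncomputable def av1 (p : Prop) : ℝ≥0∞ := if p then 1 else 0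

lemma av1_of {p : Prop} (hp : p) : av1 p = 1 := if_pos hp

lemma av1_not {p : Prop} (hp : ¬ p) : av1 p = 0 := if_neg hp

lemma av1_le (p : Prop) : av1 p ≤ 1 := by
  unfold av1
  split_ifs
  · exact le_rfl
  · exact zero_le_one

lemma av_card (F : Finset (Site d)) : ∑' z, av1 (z ∈ F) = (F.card : ℝ≥0∞) := by
  rw [tsum_eq_sum (s := F) (fun z hz => av1_not hz)]
  rw [Finset.sum_congr rfl (fun z hz => av1_of hz)]
  simp only [Finset.sum_const, nsmul_eq_mul, mul_one]

/-- The list of an irreducible upward path. -/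
def avl {h : Site d →+ ℤ} (a : Σ j, (upG h).I j) : List (Dir d) := a.2.1.toList

lemma avl_mem {h : Site d →+ ℤ} (a : Σ j, (upG h).I j) : avl a ∈ Up h a.1 :=
  mem_upG.1 a.2.2.1

lemma avl_pos {h : Site d →+ ℤ} (a : Σ j, (upG h).I j) : 0 < a.1 := a.2.2.2.1

lemma h_avl {h : Site d →+ ℤ} (a : Σ j, (upG h).I j) : h (dsp (avl a)) = a.1 :=
  (avl_mem a).2.2

omit [IsProbabilityMeasure μ] in
lemma UD_eq (h : Site d →+ ℤ) (k : ℕ) (z : Site d) :
    UD μ h k z = ∑' l : Up h k, wt μ l * av1 (dsp (l : List (Dir d)) = z) := by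
  unfold UD av1
  refine tsum_congr fun l => ?_
  split_ifs <;> rfl

lemma av_renewal {h : Site d →+ ℤ} {k : ℕ} (hk : 0 < k) (φ : List (Dir d) → ℝ≥0∞) :
    ∑' l : Up h k, wt μ l * φ l = ∑' a : (Σ j, (upG h).I j), av1 (a.1 ≤ k) *
      (wt μ (avl a) * ∑' b : Up h (k - a.1), wt μ b * φ (avl a ++ b)) := by
  rw [← upG_tsum h k (fun l => wt μ l * φ l)]
  have h1 := Grading.tsum_mul_eq (upG_mult μ h) hk (fun x => φ x.toList)
  beta_reduce at h1
  rw [h1, ENNReal.tsum_sigma', tsum_eq_sum (s := Finset.Icc 1 k)]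
  · refine Finset.sum_congr rfl fun j hj => tsum_congr fun a => ?_
    rw [Finset.mem_Icc] at hj
    rw [av1_of hj.2, one_mul]
    have h2 := upG_tsum h (k - j) (fun b => wt μ b * φ (a.1.toList ++ b))
    congr 1
  · intro j hj
    rw [ENNReal.tsum_eq_zero]
    intro a
    have hj0 : 0 < j := a.2.2.1
    rw [Finset.mem_Icc] at hj
    have h3 : ¬ j ≤ k := fun h => hj ⟨hj0, h⟩
    change av1 (j ≤ k) * _ = 0
    rw [av1_not h3, zero_mul]

/-- The Green function of the endpoints. -/
noncomputable def avV (h : Site d →+ ℤ) (w : Site d) : ℝ≥0∞ :=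
  av1 (0 ≤ h w) * UD μ h (h w).toNat w

lemma avV_neg {h : Site d →+ ℤ} {w : Site d} (hw : h w < 0) : avV μ h w = 0 := by
  unfold avV
  rw [av1_not (not_le.2 hw), zero_mul]

lemma avV_ge {h : Site d →+ ℤ} (w : Site d) :
    av1 (w = 0) + ∑' a : (Σ j, (upG h).I j), wt μ (avl a) * avV μ h (w - dsp (avl a))
      ≤ avV μ h w := by
  have hsub : ∀ a : (Σ j, (upG h).I j), h (w - dsp (avl a)) = h w - a.1 := fun a => by
    rw [map_sub, h_avl]
  rcases lt_trichotomy (h w) 0 with hw | hw | hw
  · have h0 : w ≠ 0 := by rintro rfl; simp at hw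
    have h1 : ∑' a : (Σ j, (upG h).I j), wt μ (avl a) * avV μ h (w - dsp (avl a)) = 0 := by
      rw [ENNReal.tsum_eq_zero]
      intro a
      rw [avV_neg μ (by rw [hsub]; omega), mul_zero]
    rw [h1, av1_not h0, add_zero]
    exact zero_le
  · have h1 : ∑' a : (Σ j, (upG h).I j), wt μ (avl a) * avV μ h (w - dsp (avl a)) = 0 := by
      rw [ENNReal.tsum_eq_zero]
      intro a
      have := avl_pos a
      rw [avV_neg μ (by rw [hsub]; omega), mul_zero]
    rw [h1, add_zero]
    unfold avV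
    rw [hw, av1_of le_rfl, one_mul, UD_eq, Int.toNat_zero]
    by_cases h0 : w = 0
    · have h2 := ENNReal.le_tsum (f := fun l : Up h 0 =>
        wt μ l * av1 (dsp (l : List (Dir d)) = w)) ⟨[], (Up_zero h []).2 rfl⟩
      refine le_trans ?_ h2
      simp only [wt_nil, one_mul, dsp_nil]
      rw [av1_of h0, av1_of h0.symm]
    · rw [av1_not h0]
      exact zero_le
  · have h0 : w ≠ 0 := by rintro rfl; simp at hw
    rw [av1_not h0, zero_add]
    obtain ⟨k, hk⟩ : ∃ k : ℕ, h w = k := ⟨(h w).toNat, by omega⟩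
    have hk0 : 0 < k := by omega
    unfold avV
    rw [hk, av1_of (Int.natCast_nonneg k), one_mul, Int.toNat_natCast, UD_eq,
      av_renewal μ hk0 (fun l => av1 (dsp l = w))]
    refine ENNReal.tsum_le_tsum fun a => ?_
    rw [hsub, hk]
    by_cases ha : a.1 ≤ k
    · have e1 : ((k : ℤ) - (a.1 : ℤ)).toNat = k - a.1 := by omega
      rw [av1_of (show (0 : ℤ) ≤ (k : ℤ) - a.1 by omega), av1_of ha, one_mul, one_mul, e1, UD_eq]
      gcongr with b
      rw [dsp_append]
      by_cases hb : dsp (b : List (Dir d)) = w - dsp (avl a)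
      · rw [av1_of hb, av1_of (by rw [hb]; abel)]
      · rw [av1_not hb]
        exact zero_le
    · rw [av1_not (show ¬ (0 : ℤ) ≤ (k : ℤ) - a.1 by omega), zero_mul, mul_zero]
      exact zero_le

/-- Mean number of irreducible paths through a site. -/
noncomputable def avE (h : Site d →+ ℤ) (z : Site d) : ℝ≥0∞ :=
  ∑' a : (Σ j, (upG h).I j), wt μ (avl a) * av1 (z ∈ exits 0 (avl a))

omit [IsProbabilityMeasure μ] in
lemma avE_sum (h : Site d →+ ℤ) : ∑' z, avE μ h z = ∑' j, ∑' x : (upG h).I j,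
      wt μ x.1.toList * ((exits 0 x.1.toList).card : ℝ≥0∞) := by
  unfold avE
  rw [ENNReal.tsum_comm, ENNReal.tsum_sigma']
  refine tsum_congr fun j => tsum_congr fun x => ?_
  rw [ENNReal.tsum_mul_left, av_card]
  rfl

/-- The majorant. -/
noncomputable def avp (h : Site d →+ ℤ) (z : Site d) : ℝ≥0∞ :=
  ∑' s, avE μ h s * avV μ h (z - s)

lemma avp_ge {h : Site d →+ ℤ} (z : Site d) :
    avE μ h z + ∑' a : (Σ j, (upG h).I j), wt μ (avl a) * avp μ h (z - dsp (avl a))
      ≤ avp μ h z := by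
  have e1 : avE μ h z = ∑' s, avE μ h s * av1 (z - s = 0) := by
    rw [tsum_eq_single z]
    · rw [av1_of (sub_self z), mul_one]
    · intro s hs
      rw [av1_not (fun h0 => hs (sub_eq_zero.1 h0).symm), mul_zero]
  have e2 : ∑' a : (Σ j, (upG h).I j), wt μ (avl a) * avp μ h (z - dsp (avl a))
      = ∑' s, avE μ h s * ∑' a : (Σ j, (upG h).I j), wt μ (avl a) *
        avV μ h (z - s - dsp (avl a)) := by
    unfold avp
    simp only [← ENNReal.tsum_mul_left]
    rw [ENNReal.tsum_comm]
    refine tsum_congr fun s => tsum_congr fun a => ?_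
    rw [show z - dsp (avl a) - s = z - s - dsp (avl a) by abel]
    ring
  rw [e2, e1, ← ENNReal.tsum_add]
  unfold avp
  refine ENNReal.tsum_le_tsum fun s => ?_
  rw [← mul_add]
  exact mul_le_mul' le_rfl (avV_ge μ (z - s))

/-- Probability that an upward path of height `m` exits `z`. -/
noncomputable def avP (h : Site d →+ ℤ) (m : ℕ) (z : Site d) : ℝ≥0∞ :=
  ∑' l : Up h m, wt μ l * av1 (z ∈ exits 0 (l : List (Dir d)))

lemma avP_le (h : Site d →+ ℤ) (m : ℕ) : ∀ z, avP μ h m z ≤ avp μ h z := by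
  induction m using Nat.strong_induction_on with
  | _ m ih =>
    intro z
    rcases Nat.eq_zero_or_pos m with rfl | hm
    · have : avP μ h 0 z = 0 := by
        unfold avP
        rw [ENNReal.tsum_eq_zero]
        rintro ⟨l, hl⟩
        rw [Up_zero] at hl
        subst hl
        rw [av1_not (by simp), mul_zero]
      rw [this]
      exact zero_le
    · unfold avP
      rw [av_renewal μ hm (fun l => av1 (z ∈ exits 0 l))]
      refine le_trans ?_ (avp_ge μ z)
      unfold avE
      rw [← ENNReal.tsum_add]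
      refine ENNReal.tsum_le_tsum fun a => ?_
      by_cases ha : a.1 ≤ m
      · rw [av1_of ha, one_mul, ← mul_add]
        refine mul_le_mul' le_rfl ?_
        calc ∑' b : Up h (m - a.1), wt μ b * av1 (z ∈ exits 0 (avl a ++ (b : List (Dir d))))
            ≤ ∑' b : Up h (m - a.1), (wt μ b * av1 (z ∈ exits 0 (avl a))
                + wt μ b * av1 (z - dsp (avl a) ∈ exits 0 (b : List (Dir d)))) := by
              refine ENNReal.tsum_le_tsum fun b => ?_
              rw [← mul_add]
              refine mul_le_mul' le_rfl ?_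
              by_cases hz : z ∈ exits 0 (avl a ++ (b : List (Dir d)))
              · rw [exits_append, Finset.mem_union] at hz
                rcases hz with hz | hz
                · rw [av1_of hz]
                  exact (av1_le _).trans le_self_add
                · have hz' : z - dsp (avl a) ∈ exits 0 (b : List (Dir d)) := by
                    rw [exits_add, Finset.mem_image] at hz
                    obtain ⟨y, hy, rfl⟩ := hz
                    simpa only [add_sub_cancel_right] using hy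
                  rw [av1_of hz']
                  exact (av1_le _).trans le_add_self
              · rw [av1_not hz]
                exact zero_le
          _ = uu μ h (m - a.1) * av1 (z ∈ exits 0 (avl a))
                + avP μ h (m - a.1) (z - dsp (avl a)) := by
              rw [ENNReal.tsum_add, ENNReal.tsum_mul_right]
              rfl
          _ ≤ 1 * av1 (z ∈ exits 0 (avl a)) + avp μ h (z - dsp (avl a)) := by
              refine add_le_add (mul_le_mul' (uu_le_one μ h _) le_rfl) (ih _ ?_ _)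
              have := avl_pos a
              omega
          _ = _ := by rw [one_mul]
      · rw [av1_not ha, zero_mul]
        exact zero_le

/-- total mass of the Green function at one height -/
lemma avV_level (h : Site d →+ ℤ) (i : ℤ) : ∑' w, av1 (h w = i) * avV μ h w ≤ 1 := by
  rcases lt_or_ge i 0 with hi | hi
  · have : ∑' w, av1 (h w = i) * avV μ h w = 0 := by
      rw [ENNReal.tsum_eq_zero]
      intro w
      by_cases hw : h w = i
      · rw [avV_neg μ (by omega), mul_zero]
      · rw [av1_not hw, zero_mul]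
    rw [this]
    exact zero_le
  · obtain ⟨k, rfl⟩ : ∃ k : ℕ, i = k := ⟨i.toNat, by omega⟩
    calc ∑' w, av1 (h w = (k : ℤ)) * avV μ h w
        ≤ ∑' w, ∑' l : Up h k, wt μ l * av1 (dsp (l : List (Dir d)) = w) := by
          refine ENNReal.tsum_le_tsum fun w => ?_
          by_cases hw : h w = k
          · unfold avV
            rw [hw, av1_of rfl, av1_of (Int.natCast_nonneg k), one_mul, one_mul,
              Int.toNat_natCast, UD_eq]
          · rw [av1_not hw, zero_mul]
            exact zero_le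
      _ = ∑' l : Up h k, wt μ l * ∑' w, av1 (dsp (l : List (Dir d)) = w) := by
          rw [ENNReal.tsum_comm]
          exact tsum_congr fun l => ENNReal.tsum_mul_left
      _ = uu μ h k := by
          refine tsum_congr fun l => ?_
          rw [tsum_eq_single (dsp (l : List (Dir d)))]
          · rw [av1_of rfl, mul_one]
          · intro w hw
            exact av1_not hw.symm
      _ ≤ 1 := uu_le_one μ h k

lemma avp_level (h : Site d →+ ℤ) (i : ℤ) :
    ∑' z, av1 (h z = i) * avp μ h z ≤ ∑' z, avE μ h z := by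
  calc ∑' z, av1 (h z = i) * avp μ h z
      = ∑' s, avE μ h s * ∑' z, av1 (h z = i) * avV μ h (z - s) := by
        unfold avp
        simp only [← ENNReal.tsum_mul_left]
        rw [ENNReal.tsum_comm]
        refine tsum_congr fun s => tsum_congr fun z => ?_
        ring
    _ ≤ ∑' s, avE μ h s * 1 := by
        refine ENNReal.tsum_le_tsum fun s => mul_le_mul' le_rfl ?_
        refine le_trans (le_of_eq ?_) (avV_level μ h (i - h s))
        rw [← (Equiv.subRight s).tsum_eq (fun w => av1 (h w = i - h s) * avV μ h w)]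
        refine tsum_congr fun z => ?_
        simp only [Equiv.subRight_apply, map_sub, sub_left_inj]
    _ = ∑' z, avE μ h z := by simp only [mul_one]

/-- Sum of the squares of the majorant. -/
lemma avp_sq (h : Site d →+ ℤ) {s : ℕ → ℝ≥0∞} (hU : ∀ m z, UD μ h m z ≤ s m) :
    ∑' z, avp μ h z * avp μ h z ≤ (∑' z, avE μ h z) * (∑' m, s m) * ∑' z, avE μ h z := by
  set S : ℤ → ℝ≥0∞ := fun i => av1 (0 ≤ i) * s i.toNat with hS
  have hSs : ∑' i, S i = ∑' m, s m := by
    have hinj : Function.Injective (fun n : ℕ => (n : ℤ)) := fun a b hab => by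
      simpa using hab
    rw [← hinj.tsum_eq (f := S)]
    · refine tsum_congr fun n => ?_
      simp only [hS, Int.toNat_natCast]
      rw [av1_of (Int.natCast_nonneg n), one_mul]
    · intro i hi
      rw [Set.mem_range]
      by_contra hcon
      apply hi
      have : ¬ (0 ≤ i) := fun h0 => hcon ⟨i.toNat, by omega⟩
      simp only [hS]
      rw [av1_not this, zero_mul]
  set H : ℤ → ℝ≥0∞ := fun i => ∑' t, avE μ h t * S (i - h t) with hH
  have hHs : ∑' i, H i = (∑' z, avE μ h z) * ∑' m, s m := by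
    rw [hH, ENNReal.tsum_comm]
    simp only [ENNReal.tsum_mul_left]
    rw [← ENNReal.tsum_mul_right]
    refine tsum_congr fun t => ?_
    rw [← hSs, ← (Equiv.subRight (h t)).tsum_eq S]
    rfl
  have hpH : ∀ z, avp μ h z ≤ H (h z) := by
    intro z
    unfold avp
    refine ENNReal.tsum_le_tsum fun t => mul_le_mul' le_rfl ?_
    unfold avV
    rw [map_sub]
    exact mul_le_mul' le_rfl (hU _ _)
  calc ∑' z, avp μ h z * avp μ h z ≤ ∑' z, avp μ h z * H (h z) :=
        ENNReal.tsum_le_tsum fun z => mul_le_mul' le_rfl (hpH z)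
    _ = ∑' z, ∑' i, H i * (av1 (h z = i) * avp μ h z) := by
        refine tsum_congr fun z => ?_
        rw [tsum_eq_single (h z)]
        · rw [av1_of rfl, one_mul, mul_comm]
        · intro i hi
          rw [av1_not hi.symm, zero_mul, mul_zero]
    _ = ∑' i, H i * ∑' z, av1 (h z = i) * avp μ h z := by
        rw [ENNReal.tsum_comm]
        exact tsum_congr fun i => ENNReal.tsum_mul_left
    _ ≤ ∑' i, H i * ∑' z, avE μ h z :=
        ENNReal.tsum_le_tsum fun i => mul_le_mul' le_rfl (avp_level μ h i)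
    _ = _ := by rw [ENNReal.tsum_mul_right, hHs]

lemma av_am (a b : ℝ≥0∞) {l : ℝ≥0∞} (h0 : l ≠ 0) (ht : l ≠ ∞) :
    a * b ≤ l⁻¹ * (a * a) + l * (b * b) := by
  rcases le_total a (l * b) with h | h
  · calc a * b ≤ (l * b) * b := mul_le_mul' h le_rfl
      _ = l * (b * b) := mul_assoc _ _ _
      _ ≤ _ := le_add_self
  · have h1 : b ≤ l⁻¹ * a := by
      calc b = l⁻¹ * (l * b) := by
            rw [← mul_assoc, ENNReal.inv_mul_cancel h0 ht, one_mul]
        _ ≤ l⁻¹ * a := mul_le_mul' le_rfl h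
    calc a * b ≤ a * (l⁻¹ * a) := mul_le_mul' le_rfl h1
      _ = l⁻¹ * (a * a) := by ring
      _ ≤ _ := le_self_add

lemma av_shift (F : Finset (Site d)) {g : Site d} (hg : g ≠ 0) :
    ∃ t : ℕ, 0 < t ∧ ∀ z, z ∈ F → z - t • g ∉ F := by
  classical
  obtain ⟨i, hi⟩ : ∃ i, g i ≠ 0 := by
    by_contra hcon
    push Not at hcon
    exact hg (funext hcon)
  have hinj : Function.Injective (fun t : ℕ => (t + 1) • g) := by
    intro a b hab
    have h1 := congrFun hab i
    simp only [Pi.smul_apply, nsmul_eq_mul] at h1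
    have h2 := mul_right_cancel₀ hi h1
    have h3 : ((a + 1 : ℕ) : ℤ) = ((b + 1 : ℕ) : ℤ) := by exact_mod_cast h2
    omega
  obtain ⟨a, ⟨t, rfl⟩, ha⟩ := (Set.infinite_range_of_injective hinj).exists_notMem_finset
    ((F ×ˢ F).image (fun p => p.1 - p.2))
  refine ⟨t + 1, Nat.succ_pos t, fun z hz hz' => ha ?_⟩
  rw [Finset.mem_image]
  exact ⟨(z, z - (t + 1) • g), Finset.mk_mem_product hz hz', by simp only [nsmul_eq_mul, Nat.cast_add, Nat.cast_one, sub_sub_cancel]⟩

lemma av_small {f : Site d → ℝ≥0∞} (hf : ∑' z, f z * f z ≠ ∞) {g : Site d} (hg : g ≠ 0)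
    {ε : ℝ≥0∞} (hε : ε ≠ 0) : ∃ t : ℕ, 0 < t ∧ ∑' z, f z * f (z - t • g) ≤ ε := by
  classical
  set A := ∑' z, f z * f z with hA
  obtain ⟨l, hl0, hlt, hlA⟩ : ∃ l : ℝ≥0∞, l ≠ 0 ∧ l ≠ ∞ ∧ l * A ≤ ε / 4 := by
    refine ⟨min 1 (ε / 4 / (A + 1)), ?_, ?_, ?_⟩
    · have h1 : ε / 4 ≠ 0 := by
        rw [ENNReal.div_ne_zero]
        exact ⟨hε, by norm_num⟩
      have h2 : ε / 4 / (A + 1) ≠ 0 := by
        rw [ENNReal.div_ne_zero]
        exact ⟨h1, ENNReal.add_ne_top.2 ⟨hf, ENNReal.one_ne_top⟩⟩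
      exact (lt_min one_pos (pos_iff_ne_zero.2 h2)).ne'
    · exact ne_top_of_le_ne_top ENNReal.one_ne_top (min_le_left _ _)
    · calc min 1 (ε / 4 / (A + 1)) * A ≤ (ε / 4 / (A + 1)) * (A + 1) :=
            mul_le_mul' (min_le_right _ _) le_self_add
        _ = ε / 4 := ENNReal.div_mul_cancel (by simp) (ENNReal.add_ne_top.2
            ⟨hf, ENNReal.one_ne_top⟩)
  have hδ : l * (ε / 4) ≠ 0 := by
    refine mul_ne_zero hl0 ?_
    rw [ENNReal.div_ne_zero]
    exact ⟨hε, by norm_num⟩
  obtain ⟨F, hF⟩ : ∃ F : Finset (Site d),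
      ∑' b : {x // x ∉ F}, f b * f b < l * (ε / 4) :=
    ((ENNReal.tendsto_tsum_compl_atTop_zero hf).eventually
      (gt_mem_nhds (pos_iff_ne_zero.2 hδ))).exists
  obtain ⟨t, ht0, ht⟩ := av_shift F hg
  refine ⟨t, ht0, ?_⟩
  have hT : ∑' z, av1 (z ∉ F) * (f z * f z) ≤ l * (ε / 4) := by
    refine le_trans (le_of_eq ?_) hF.le
    have h1 := tsum_subtype {x | x ∉ F} (fun z => f z * f z)
    refine Eq.trans ?_ h1.symm
    refine tsum_congr fun z => ?_
    by_cases hz : z ∈ F
    · rw [av1_not (not_not.2 hz), zero_mul, Set.indicator_of_notMem]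
      simpa using hz
    · rw [av1_of hz, one_mul, Set.indicator_of_mem]
      simpa using hz
  have hsh : ∀ φ : Site d → ℝ≥0∞, ∑' z, φ (z - t • g) = ∑' z, φ z := fun φ =>
    (Equiv.subRight (t • g)).tsum_eq φ
  have hT' : ∑' z, av1 (z - t • g ∉ F) * (f (z - t • g) * f (z - t • g)) ≤ l * (ε / 4) := by
    rw [hsh (fun z => av1 (z ∉ F) * (f z * f z))]
    exact hT
  have hpt : ∀ z, f z * f (z - t • g) ≤
      (l⁻¹ * (av1 (z ∉ F) * (f z * f z)) + l * (f (z - t • g) * f (z - t • g)))
      + (l⁻¹ * (av1 (z - t • g ∉ F) * (f (z - t • g) * f (z - t • g))) + l * (f z * f z)) := by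
    intro z
    by_cases hz : z ∈ F
    · rw [av1_of (ht z hz), one_mul, mul_comm (f z) (f (z - t • g))]
      refine le_trans (av_am _ _ hl0 hlt) le_add_self
    · rw [av1_of hz, one_mul]
      refine le_trans (av_am _ _ hl0 hlt) le_self_add
  have hcan : l⁻¹ * (l * (ε / 4)) = ε / 4 := by
    rw [← mul_assoc, ENNReal.inv_mul_cancel hl0 hlt, one_mul]
  calc ∑' z, f z * f (z - t • g)
      ≤ ∑' z, ((l⁻¹ * (av1 (z ∉ F) * (f z * f z)) + l * (f (z - t • g) * f (z - t • g)))
      + (l⁻¹ * (av1 (z - t • g ∉ F) * (f (z - t • g) * f (z - t • g))) + l * (f z * f z))) :=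
        ENNReal.tsum_le_tsum hpt
    _ = (l⁻¹ * (∑' z, av1 (z ∉ F) * (f z * f z)) + l * A)
      + (l⁻¹ * (∑' z, av1 (z - t • g ∉ F) * (f (z - t • g) * f (z - t • g))) + l * A) := by
        rw [ENNReal.tsum_add, ENNReal.tsum_add, ENNReal.tsum_add, ENNReal.tsum_mul_left,
          ENNReal.tsum_mul_left, ENNReal.tsum_mul_left, ENNReal.tsum_mul_left,
          hsh (fun z => f z * f z)]
    _ ≤ (l⁻¹ * (l * (ε / 4)) + ε / 4) + (l⁻¹ * (l * (ε / 4)) + ε / 4) :=
        add_le_add (add_le_add (mul_le_mul' le_rfl hT) hlA)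
          (add_le_add (mul_le_mul' le_rfl hT') hlA)
    _ = ε := by
        rw [hcan]
        have h4 : (ε / 4 + ε / 4) + (ε / 4 + ε / 4) = 4 * (ε / 4) := by ring
        rw [h4]
        exact ENNReal.mul_div_cancel (by norm_num) (by norm_num)

lemma av_pairs (h : Site d →+ ℤ) (m : ℕ) (y : Site d) :
    uu μ h m * uu μ h m ≤
      (∑' p : Up h m × Up h m, wt μ p.1 * wt μ p.2 *
        av1 (Disjoint (exits 0 (p.1 : List (Dir d))) (exits y (p.2 : List (Dir d)))))
      + ∑' z, avp μ h z * avp μ h (z - y) := by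
  have e0 : uu μ h m * uu μ h m = ∑' p : Up h m × Up h m, wt μ p.1 * wt μ p.2 := by
    rw [ENNReal.tsum_prod']
    unfold uu
    simp only [ENNReal.tsum_mul_left, ENNReal.tsum_mul_right]
  have e1 : ∀ p : Up h m × Up h m, (1 : ℝ≥0∞) ≤
      av1 (Disjoint (exits 0 (p.1 : List (Dir d))) (exits y (p.2 : List (Dir d))))
      + ∑' z, av1 (z ∈ exits 0 (p.1 : List (Dir d))) * av1 (z - y ∈ exits 0 (p.2 : List (Dir d))) := by
    intro p
    by_cases hp : Disjoint (exits 0 (p.1 : List (Dir d))) (exits y (p.2 : List (Dir d)))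
    · rw [av1_of hp]
      exact le_self_add
    · obtain ⟨z, hz1, hz2⟩ := Finset.not_disjoint_iff.1 hp
      have hz3 : z - y ∈ exits 0 (p.2 : List (Dir d)) := by
        have h0 : exits y (p.2 : List (Dir d)) = exits (0 + y) (p.2 : List (Dir d)) := by
          rw [zero_add]
        rw [h0, exits_add, Finset.mem_image] at hz2
        obtain ⟨w, hw, rfl⟩ := hz2
        simpa only [add_sub_cancel_right] using hw
      refine le_trans ?_ le_add_self
      refine le_trans ?_ (ENNReal.le_tsum z)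
      rw [av1_of hz1, av1_of hz3, one_mul]
  calc uu μ h m * uu μ h m
      = ∑' p : Up h m × Up h m, wt μ p.1 * wt μ p.2 * 1 := by simp only [mul_one]; exact e0
    _ ≤ ∑' p : Up h m × Up h m, wt μ p.1 * wt μ p.2 *
      (av1 (Disjoint (exits 0 (p.1 : List (Dir d))) (exits y (p.2 : List (Dir d))))
      + ∑' z, av1 (z ∈ exits 0 (p.1 : List (Dir d)))
        * av1 (z - y ∈ exits 0 (p.2 : List (Dir d)))) :=
        ENNReal.tsum_le_tsum fun p => mul_le_mul' le_rfl (e1 p)
    _ = (∑' p : Up h m × Up h m, wt μ p.1 * wt μ p.2 *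
        av1 (Disjoint (exits 0 (p.1 : List (Dir d))) (exits y (p.2 : List (Dir d)))))
      + ∑' z, avP μ h m z * avP μ h m (z - y) := by
        simp only [mul_add]
        rw [ENNReal.tsum_add]
        congr 1
        simp only [← ENNReal.tsum_mul_left]
        rw [ENNReal.tsum_comm]
        refine tsum_congr fun z => ?_
        rw [ENNReal.tsum_prod']
        unfold avP
        rw [← ENNReal.tsum_mul_right]
        refine tsum_congr fun l => ?_
        rw [← ENNReal.tsum_mul_left]
        refine tsum_congr fun l' => ?_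
        ring
    _ ≤ _ := by
        refine add_le_add le_rfl (ENNReal.tsum_le_tsum fun z => ?_)
        exact mul_le_mul' (avP_le μ h m z) (avP_le μ h m (z - y))

lemma av_lateral (hd : 2 ≤ d) (h : Site d →+ ℤ) : ∃ g : Site d, g ≠ 0 ∧ h g = 0 := by
  set i : Fin d := ⟨0, by omega⟩
  set j : Fin d := ⟨1, by omega⟩
  have hij : i ≠ j := by
    intro h0
    have := congrArg Fin.val h0
    simp [i, j] at this
  by_cases h0 : h (Pi.single i 1) = 0
  · refine ⟨Pi.single i 1, ?_, h0⟩
    intro h1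
    have := congrFun h1 i
    simp at this
  · refine ⟨h (Pi.single j 1) • (Pi.single i 1 : Site d) - h (Pi.single i 1) • Pi.single j 1,
      ?_, ?_⟩
    · intro h1
      have h2 := congrFun h1 j
      simp only [zsmul_eq_mul, Pi.sub_apply, Pi.mul_apply, Pi.intCast_apply, Int.cast_eq, ne_eq, hij.symm, not_false_eq_true, Pi.single_eq_of_ne, mul_zero, Pi.single_eq_same, mul_one, zero_sub, Pi.zero_apply, neg_eq_zero] at h2
      exact h0 h2
    · rw [map_sub, map_zsmul, map_zsmul, smul_eq_mul, smul_eq_mul]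
      ring

open Classical in
/-- Two independent upward paths avoid each other with positive weight if they start far
apart. -/
theorem avoid (hd : 2 ≤ d) {h : Site d →+ ℤ}
    {q : ℝ≥0∞} (hq : q ≠ 0) {k₀ : ℕ} (hlow : ∀ k, k₀ ≤ k → q ≤ uu μ h k)
    (hthin : ∑' j, ∑' x : (upG h).I j,
      wt μ x.1.toList * ((exits 0 x.1.toList).card : ℝ≥0∞) ≠ ∞)
    {s : ℕ → ℝ≥0∞} (hs : ∑' m, s m ≠ ∞) (hU : ∀ m z, UD μ h m z ≤ s m) :
    ∃ (y : Site d) (c : ℝ≥0∞), h y = 0 ∧ y ≠ 0 ∧ c ≠ 0 ∧ ∀ m, k₀ ≤ m →
      c ≤ ∑' p : Up h m × Up h m, wt μ p.1 * wt μ p.2 *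
        (if Disjoint (exits 0 (p.1 : List (Dir d))) (exits y (p.2 : List (Dir d))) then 1 else 0) := by
  obtain ⟨g, hg, hhg⟩ := av_lateral hd h
  have hsq : ∑' z, avp μ h z * avp μ h z ≠ ∞ := by
    refine ne_top_of_le_ne_top ?_ (avp_sq μ h hU)
    rw [avE_sum]
    exact ENNReal.mul_ne_top (ENNReal.mul_ne_top hthin hs) hthin
  have hqt : q ≠ ∞ := ne_top_of_le_ne_top ENNReal.one_ne_top
    ((hlow k₀ le_rfl).trans (uu_le_one μ h k₀))
  have hq2 : q * q / 2 ≠ 0 := by
    rw [ENNReal.div_ne_zero]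
    exact ⟨mul_ne_zero hq hq, by norm_num⟩
  have hq2t : q * q / 2 ≠ ∞ := ENNReal.div_ne_top (ENNReal.mul_ne_top hqt hqt) (by norm_num)
  obtain ⟨t, ht0, ht⟩ := av_small hsq hg hq2
  refine ⟨t • g, q * q / 2, ?_, ?_, hq2, ?_⟩
  · rw [map_nsmul, hhg, smul_zero]
  · intro h0
    rcases smul_eq_zero.1 h0 with h1 | h1
    · omega
    · exact hg h1
  · intro m hm
    have h1 := av_pairs μ h m (t • g)
    have h2 : q * q / 2 + q * q / 2 ≤ (∑' p : Up h m × Up h m, wt μ p.1 * wt μ p.2 *
        av1 (Disjoint (exits 0 (p.1 : List (Dir d))) (exits (t • g) (p.2 : List (Dir d)))))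
        + q * q / 2 := by
      rw [ENNReal.add_halves]
      exact (mul_le_mul' (hlow m hm) (hlow m hm)).trans (h1.trans (add_le_add le_rfl ht))
    rw [ENNReal.add_le_add_iff_right hq2t] at h2
    refine h2.trans (le_of_eq ?_)
    refine tsum_congr fun p => ?_
    congr 1
    unfold av1
    split_ifs <;> rfl

end Vale.Agent.P147
end
end

section

section

open MeasureTheory Filter Topology ProbabilityTheory
open scoped ENNReal

namespace Vale.Agent.P147

variable {d : ℕ}

namespace SecSum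

/-! ### Generalities -/

lemma exists_factor' (S : Finset (Site d)) [Nonempty (Row d)] {F : Env d → ℝ≥0∞}
    (hF : Measurable F) (hS : ∀ ω ω' : Env d, (∀ y ∈ S, ω y = ω' y) → F ω = F ω') :
    ∃ G : ((y : S) → Row d) → ℝ≥0∞, Measurable G ∧
      ∀ ω : Env d, F ω = G (fun y : S => ω y) := by
  classical
  let p0 : Row d := Classical.arbitrary _
  let ext : ((y : S) → Row d) → Env d := fun ρ y => if h : y ∈ S then ρ ⟨y, h⟩ else p0
  refine ⟨fun ρ => F (ext ρ), ?_, ?_⟩
  · refine hF.comp ?_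
    refine measurable_pi_lambda _ fun y => ?_
    by_cases h : y ∈ S
    · simp only [ext, h, dif_pos]
      exact measurable_pi_apply _
    · simp only [ext, h, dif_neg, not_false_eq_true]
      exact measurable_const
  · intro ω
    refine hS _ _ fun y hy => ?_
    simp [ext, hy]

lemma lintegral_mul_of_local (μ : Measure (Row d)) [IsProbabilityMeasure μ]
    {S T : Finset (Site d)} (hST : Disjoint S T)
    {F G : Env d → ℝ≥0∞} (hF : Measurable F) (hG : Measurable G)
    (hFS : ∀ ω ω' : Env d, (∀ y ∈ S, ω y = ω' y) → F ω = F ω')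
    (hGT : ∀ ω ω' : Env d, (∀ y ∈ T, ω y = ω' y) → G ω = G ω') :
    ∫⁻ ω, F ω * G ω ∂(envLaw μ) = (∫⁻ ω, F ω ∂(envLaw μ)) * ∫⁻ ω, G ω ∂(envLaw μ) := by
  have : Nonempty (Row d) := nonempty_of_isProbabilityMeasure μ
  obtain ⟨F', hF', hFa⟩ := exists_factor' S hF hFS
  obtain ⟨G', hG', hGb⟩ := exists_factor' T hG hGT
  have hind : iIndepFun (fun (i : Site d) (ω : Env d) => ω i) (envLaw μ) :=
    iIndepFun_infinitePi (P := fun _ : Site d => μ) (X := fun _ p => p) (fun _ => measurable_id)
  have h2 := iIndepFun.indepFun_finset S T hST hind (fun i => measurable_pi_apply i)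
  have h3 := h2.comp hF' hG'
  have h4 := lintegral_mul_eq_lintegral_mul_lintegral_of_indepFun hF hG (by
      have e1 : F = F' ∘ (fun ω (i : S) => ω i) := by
        funext ω; exact hFa ω
      have e2 : G = G' ∘ (fun ω (i : T) => ω i) := by
        funext ω; exact hGb ω
      rw [e1, e2]
      exact h3)
  exact h4

lemma tsum_qw_le_one {S : Set (List (Dir d))} (hS : Free S) (ω : Env d) (x : Site d) :
    ∑' l : S, qw ω x (l : List (Dir d)) ≤ 1 := by
  simp only [← quenched_cyl]
  rw [← measure_iUnion]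
  · exact prob_le_one
  · intro a b hab
    exact cyl_disjoint hS a.2 b.2 (fun h => hab (Subtype.ext h))
  · intro a
    exact measurableSet_cyl _ _

/-- Cut a path at its first position in `S`. -/
lemma first_hit (S : Finset (Site d)) (l : List (Dir d)) (x : Site d) (hl : x + dsp l ∈ S) :
    ∃ π ρ, l = π ++ ρ ∧ x + dsp π ∈ S ∧ Disjoint (exits x π) S := by
  induction l generalizing x with
  | nil => exact ⟨[], [], rfl, hl, by simp⟩
  | cons u l ih =>
    by_cases hx : x ∈ S
    · exact ⟨[], u :: l, rfl, by simpa using hx, by simp⟩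
    · obtain ⟨π, ρ, h1, h2, h3⟩ := ih (x + vec u) (by rw [add_assoc]; simpa using hl)
      refine ⟨u :: π, ρ, by rw [h1]; rfl, by rw [dsp_cons, ← add_assoc]; exact h2, ?_⟩
      rw [exits_cons, Finset.disjoint_insert_left]
      exact ⟨hx, h3⟩

/-- Paths that end at a fresh site, with at most `R` exit sites. -/
def PR (d R : ℕ) : Set (List (Dir d)) := {l | dsp l ∉ exits 0 l ∧ (exits 0 l).card ≤ R}

lemma free_PE (r : ℕ) : Free {l : List (Dir d) | dsp l ∉ exits 0 l ∧ (exits 0 l).card = r} := by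
  rintro a ⟨ha1, ha2⟩ b ⟨_, hb2⟩
  by_contra hb
  have h1 : insert (dsp a) (exits 0 a) ⊆ exits 0 (a ++ b) := by
    intro y hy
    rw [Finset.mem_insert] at hy
    rcases hy with rfl | hy
    · exact mem_exits.2 ⟨a, b, rfl, hb, by simp⟩
    · rw [exits_append]
      exact Finset.mem_union_left _ hy
  have h2 := Finset.card_le_card h1
  rw [Finset.card_insert_of_notMem ha1] at h2
  omega

lemma tsum_PR (μ : Measure (Row d)) [IsProbabilityMeasure μ] (R : ℕ) :
    ∑' l : PR d R, wt μ (l : List (Dir d)) ≤ R + 1 := by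
  have e : PR d R = ⋃ r ∈ Finset.range (R + 1),
      {l : List (Dir d) | dsp l ∉ exits 0 l ∧ (exits 0 l).card = r} := by
    ext l
    simp only [PR, Set.mem_iUnion, Finset.mem_range, Set.mem_ofPred_eq, exists_prop]
    constructor
    · rintro ⟨h1, h2⟩
      exact ⟨_, by omega, h1, rfl⟩
    · rintro ⟨r, h1, h2, h3⟩
      exact ⟨h2, by omega⟩
  rw [e]
  calc _ ≤ ∑ r ∈ Finset.range (R + 1), ∑' l : {l : List (Dir d) | dsp l ∉ exits 0 l ∧
        (exits 0 l).card = r}, wt μ (l : List (Dir d)) :=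
        ENNReal.tsum_biUnion_le (fun l => wt μ l) (Finset.range (R + 1)) _
    _ ≤ ∑ r ∈ Finset.range (R + 1), 1 :=
        Finset.sum_le_sum fun r _ => tsum_wt_le_one μ (free_PE r)
    _ = R + 1 := by simp only [Finset.sum_const, Finset.card_range, nsmul_eq_mul, Nat.cast_add, Nat.cast_one, mul_one]

lemma mean_lv_le (μ : Measure (Row d)) [IsProbabilityMeasure μ] {h : Site d →+ ℤ} {b : ℝ≥0∞}
    (hb : ∑' j, ∑' x : (upG h).I j,
      wt μ x.1.toList * ((exits 0 x.1.toList).card : ℝ≥0∞) = b) (N : ℕ) (i : ℤ) :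
    ∑' l : Up h N, wt μ l * (lv h 0 (l : List (Dir d)) i : ℝ≥0∞) ≤ b := by
  by_cases hi : 0 ≤ i ∧ i < N
  · obtain ⟨hi0, hiN⟩ := hi
    lift i to ℕ using hi0
    rw [← upG_tsum h N (fun l => wt μ l * (lv h 0 l (i : ℤ) : ℝ≥0∞)), ← hb]
    have hU : ∀ k, (upG h).U (fun x => wt μ x.toList) k ≤ 1 := fun k => by
      rw [upG_U]; exact uu_le_one μ h k
    refine (Grading.V_le (upG_mult μ h) hU (@upG_lev d h) (R := N) (i := i) (by omega)).trans ?_
    refine ENNReal.tsum_le_tsum fun j => ENNReal.tsum_le_tsum fun x => ?_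
    gcongr
    have hx : x.1.toList ∈ Up h j := mem_upG.1 x.2.1
    have := sum_lv h hx 0
    simp only [map_zero, zero_add] at this
    exact le_of_eq (by exact_mod_cast this)
  · rw [ENNReal.tsum_eq_zero.2]
    · exact zero_le
    · intro l
      have : lv h 0 (l : List (Dir d)) i = 0 := by
        rw [lv, Finset.card_eq_zero, Finset.filter_eq_empty_iff]
        intro y hy hyi
        have := mem_exits_height l.2 hy
        rw [map_zero] at this
        apply hi
        omega
      rw [this]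
      simp

/-! ### The weight of a composed pair -/

lemma up_ne_nil {h : Site d →+ ℤ} {m : ℕ} (hm : 0 < m) {l : List (Dir d)} (hl : l ∈ Up h m) :
    l ≠ [] := by
  rintro rfl
  have := hl.2.2
  simp only [dsp_nil, map_zero] at this
  omega

lemma weight_eq (μ : Measure (Row d)) [IsProbabilityMeasure μ] {h : Site d →+ ℤ} {k m₀ m : ℕ}
    {l l' α α' β β' : List (Dir d)} {y : Site d} (hl : l ∈ Up h k) (hl' : l' ∈ Up h k)
    (hα : α ∈ Up h m₀) (hα' : α' ∈ Up h m₀) (hβ : β ∈ Up h m) (hβ' : β' ∈ Up h m)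
    (hd : dsp α' = dsp α + y) (hdis : Disjoint (exits 0 β) (exits y β')) :
    (∫⁻ ω, qw ω (-dsp l) l * qw ω (-dsp l') l' ∂(envLaw μ)) *
      ((∫⁻ ω, qw ω 0 α * qw ω 0 α' ∂(envLaw μ)) * (wt μ β * wt μ β')) =
    ∫⁻ ω, qw ω 0 (l ++ (α ++ β)) * qw ω (dsp l - dsp l') (l' ++ (α' ++ β')) ∂(envLaw μ) := by
  have hdis' : Disjoint (exits (dsp α) β) (exits (dsp α') β') := by
    have e1 : exits (dsp α) β = (exits 0 β).image (· + dsp α) := by
      rw [← exits_add, zero_add]
    have e2 : exits (dsp α') β' = (exits y β').image (· + dsp α) := by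
      rw [← exits_add, hd, add_comm]
    rw [e1, e2]
    exact (Finset.disjoint_image (add_left_injective (dsp α))).2 hdis
  have hm2 : ∀ (x x' : Site d) (a a' : List (Dir d)),
      Measurable (fun ω : Env d => qw ω x a * qw ω x' a') := fun x x' a a' =>
    (measurable_qw x a).mul (measurable_qw x' a')
  have hloc : ∀ (x x' : Site d) (a a' : List (Dir d)) (ω ω' : Env d),
      (∀ z ∈ exits x a ∪ exits x' a', ω z = ω' z) →
      qw ω x a * qw ω x' a' = qw ω' x a * qw ω' x' a' := by
    intro x x' a a' ω ω' hz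
    rw [qw_congr (l := a) (x := x) fun z hz' => hz z (Finset.mem_union_left _ hz'),
      qw_congr (l := a') (x := x') fun z hz' => hz z (Finset.mem_union_right _ hz')]
  have hshift := (measurePreserving_shift μ (-dsp l)).lintegral_comp
    (hm2 0 (dsp l - dsp l') (l ++ (α ++ β)) (l' ++ (α' ++ β')))
  rw [← hshift]
  have e0 : ∀ ω : Env d, qw (shift (-dsp l) ω) 0 (l ++ (α ++ β)) *
      qw (shift (-dsp l) ω) (dsp l - dsp l') (l' ++ (α' ++ β')) =
      (qw ω (-dsp l) l * qw ω (-dsp l') l') * ((qw ω 0 α * qw ω 0 α') *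
        (qw ω (dsp α) β * qw ω (dsp α') β')) := by
    intro ω
    rw [qw_shift, qw_shift, zero_add, show dsp l - dsp l' + -dsp l = -dsp l' by abel,
      qw_append, qw_append, qw_append, qw_append, neg_add_cancel, neg_add_cancel, zero_add,
      zero_add]
    ring
  simp only [e0]
  have hdis2 : Disjoint (exits 0 α ∪ exits 0 α') (exits (dsp α) β ∪ exits (dsp α') β') := by
    rw [Finset.disjoint_left]
    intro z hz hz'
    have h1 : 0 ≤ h z ∧ h z < m₀ := by
      rcases Finset.mem_union.1 hz with hz | hz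
      · have := mem_exits_height hα hz
        rw [map_zero] at this; omega
      · have := mem_exits_height hα' hz
        rw [map_zero] at this; omega
    have h2 : m₀ ≤ h z := by
      rcases Finset.mem_union.1 hz' with hz | hz
      · have := mem_exits_height hβ hz
        rw [hα.2.2] at this; omega
      · have := mem_exits_height hβ' hz
        rw [hα'.2.2] at this; omega
    omega
  have hdis1 : Disjoint (exits (-dsp l) l ∪ exits (-dsp l') l')
      ((exits 0 α ∪ exits 0 α') ∪ (exits (dsp α) β ∪ exits (dsp α') β')) := by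
    rw [Finset.disjoint_left]
    intro z hz hz'
    have h1 : h z < 0 := by
      rcases Finset.mem_union.1 hz with hz | hz
      · have := mem_exits_height hl hz
        rw [map_neg, hl.2.2] at this; omega
      · have := mem_exits_height hl' hz
        rw [map_neg, hl'.2.2] at this; omega
    have h2 : 0 ≤ h z := by
      rcases Finset.mem_union.1 hz' with hz | hz
      · rcases Finset.mem_union.1 hz with hz | hz
        · have := mem_exits_height hα hz
          rw [map_zero] at this; omega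
        · have := mem_exits_height hα' hz
          rw [map_zero] at this; omega
      · rcases Finset.mem_union.1 hz with hz | hz
        · have := mem_exits_height hβ hz
          rw [hα.2.2] at this; omega
        · have := mem_exits_height hβ' hz
          rw [hα'.2.2] at this; omega
    omega
  have s1 : ∫⁻ ω, (qw ω (-dsp l) l * qw ω (-dsp l') l') * ((qw ω 0 α * qw ω 0 α') *
      (qw ω (dsp α) β * qw ω (dsp α') β')) ∂(envLaw μ) =
      (∫⁻ ω, qw ω (-dsp l) l * qw ω (-dsp l') l' ∂(envLaw μ)) *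
        ∫⁻ ω, (qw ω 0 α * qw ω 0 α') * (qw ω (dsp α) β * qw ω (dsp α') β') ∂(envLaw μ) :=
    lintegral_mul_of_local μ hdis1 (hm2 _ _ _ _) ((hm2 _ _ _ _).mul (hm2 _ _ _ _))
      (hloc _ _ _ _) (fun ω ω' hz => by
        rw [hloc 0 0 α α' ω ω' fun z hz' => hz z (Finset.mem_union_left _ hz'),
          hloc (dsp α) (dsp α') β β' ω ω' fun z hz' => hz z (Finset.mem_union_right _ hz')])
  have s2 : ∫⁻ ω, (qw ω 0 α * qw ω 0 α') * (qw ω (dsp α) β * qw ω (dsp α') β') ∂(envLaw μ) =
      (∫⁻ ω, qw ω 0 α * qw ω 0 α' ∂(envLaw μ)) *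
        ∫⁻ ω, qw ω (dsp α) β * qw ω (dsp α') β' ∂(envLaw μ) :=
    lintegral_mul_of_local μ hdis2 (hm2 _ _ _ _) (hm2 _ _ _ _) (hloc _ _ _ _) (hloc _ _ _ _)
  rw [s1, s2, lintegral_mul_of_disjoint μ _ _ _ _ hdis']

/-! ### The combinatorics of the last common tip -/

lemma inj_ne {h : Site d →+ ℤ} {k k₂ m₀ m : ℕ} (hm₀ : 0 < m₀)
    {l l' α α' β β' l₂ l₂' β₂ β₂' : List (Dir d)} {y : Site d}
    (hl : l ∈ Up h k) (hl' : l' ∈ Up h k) (hα : α ∈ Up h m₀) (hα' : α' ∈ Up h m₀)
    (hβ : β ∈ Up h m) (hβ' : β' ∈ Up h m) (hd : dsp α' = dsp α + y)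
    (hl₂ : l₂ ∈ Up h k₂) (hl₂' : l₂' ∈ Up h k₂) (hk : k + m₀ ≤ k₂)
    (h1 : l ++ (α ++ β) = l₂ ++ (α ++ β₂)) (h2 : l' ++ (α' ++ β') = l₂' ++ (α' ++ β₂'))
    (h3 : dsp l - dsp l' = dsp l₂ - dsp l₂') : ¬ Disjoint (exits 0 β) (exits y β') := by
  obtain ⟨c, _, hc1, hc2⟩ := Up_nest (Up_append hl hα) hβ hl₂
    (by rw [List.append_assoc]; exact h1) hk
  obtain ⟨c', _, hc1', hc2'⟩ := Up_nest (Up_append hl' hα') hβ' hl₂'
    (by rw [List.append_assoc]; exact h2) hk
  have key : dsp c = y + dsp c' := by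
    rw [hc1, hc1'] at h3
    simp only [dsp_append, hd] at h3
    have h4 : dsp l + dsp α + dsp c - (dsp l' + (dsp α + y) + dsp c') =
        dsp l - dsp l' + (dsp c - (y + dsp c')) := by abel
    rw [h4] at h3
    have h5 : dsp c - (y + dsp c') = 0 := by
      have := h3.symm
      exact add_left_cancel (this.trans (add_zero _).symm)
    exact sub_eq_zero.1 h5
  intro hdis
  rw [Finset.disjoint_left] at hdis
  refine hdis (a := dsp c) ?_ ?_
  · rw [hc2]
    exact mem_exits.2 ⟨c, α ++ β₂, rfl, by simp [up_ne_nil hm₀ hα], by simp⟩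
  · rw [hc2', key]
    exact mem_exits.2 ⟨c', α' ++ β₂', rfl, by simp [up_ne_nil hm₀ hα'], rfl⟩

lemma inj_eq {h : Site d →+ ℤ} {k m : ℕ} {l l₂ α β β₂ : List (Dir d)}
    (hl : l ∈ Up h k) (hl₂ : l₂ ∈ Up h k)
    (hβ : α ++ β ∈ Up h m) (h1 : l ++ (α ++ β) = l₂ ++ (α ++ β₂)) : l = l₂ ∧ β = β₂ := by
  obtain ⟨c, hc, hc1, hc2⟩ := Up_nest hl hβ hl₂ h1 le_rfl
  rw [Nat.sub_self, Up_zero] at hc
  subst hc
  rw [List.append_nil] at hc1
  rw [List.nil_append] at hc2
  exact ⟨hc1.symm, List.append_cancel_left hc2⟩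

/-! ### The target sum -/

/-- Index type of the target sum: the path `γ`, the initial piece `π` of the other path, the
contact site `v`, and the rest `ρ` of the other path. -/
abbrev Tg (h : Site d →+ ℤ) (N R : ℕ) : Type :=
  Σ (_ : Up h N) (π : PR d R) (_ : Site d), {ρ : List (Dir d) // (π : List (Dir d)) ++ ρ ∈ Up h N}

open Classical in
/-- Summand of the target sum. -/
noncomputable def tw (μ : Measure (Row d)) {h : Site d →+ ℤ} {N R : ℕ} (t : Tg h N R) : ℝ≥0∞ :=
  if t.2.2.1 ∈ exits 0 t.1.1 ∧ h t.2.2.1 = h (dsp t.2.1.1) ∧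
      Disjoint (exits 0 t.1.1) (exits (t.2.2.1 - dsp t.2.1.1) t.2.1.1) then
    ∫⁻ ω, qw ω 0 t.1.1 * qw ω (t.2.2.1 - dsp t.2.1.1) (t.2.1.1 ++ t.2.2.2.1) ∂(envLaw μ)
  else 0

lemma free_ext (h : Site d →+ ℤ) (N : ℕ) (π : List (Dir d)) :
    Free {ρ : List (Dir d) | π ++ ρ ∈ Up h N} := by
  intro a ha b hb
  refine Up_free h N (π ++ a) ha b ?_
  rw [List.append_assoc]
  exact hb

open Classical in
lemma tsum_rho (μ : Measure (Row d)) [IsProbabilityMeasure μ] {h : Site d →+ ℤ} {N R : ℕ}
    (γ : Up h N) (π : PR d R) (v : Site d) :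
    ∑' ρ : {ρ : List (Dir d) // (π : List (Dir d)) ++ ρ ∈ Up h N}, tw μ ⟨γ, π, v, ρ⟩ ≤
      if v ∈ (exits 0 γ.1).filter (fun z => h z = h (dsp π.1)) then wt μ γ.1 * wt μ π.1 else 0 := by
  simp only [tw]
  by_cases hc : v ∈ exits 0 γ.1 ∧ h v = h (dsp π.1) ∧
      Disjoint (exits 0 γ.1) (exits (v - dsp π.1) π.1)
  · simp only [if_pos hc]
    rw [if_pos (Finset.mem_filter.2 ⟨hc.1, hc.2.1⟩)]
    rw [← lintegral_tsum (f := fun (ρ : {ρ : List (Dir d) // (π : List (Dir d)) ++ ρ ∈ Up h N})
      (ω : Env d) => qw ω 0 γ.1 * qw ω (v - dsp π.1) (π.1 ++ ρ.1))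
      fun ρ => ((measurable_qw _ _).mul (measurable_qw _ _)).aemeasurable]
    rw [← lintegral_mul_of_disjoint μ 0 (v - dsp π.1) γ.1 π.1 hc.2.2]
    refine lintegral_mono fun ω => ?_
    simp only [qw_append, sub_add_cancel]
    calc ∑' ρ : {ρ : List (Dir d) // (π : List (Dir d)) ++ ρ ∈ Up h N},
          qw ω 0 γ.1 * (qw ω (v - dsp π.1) π.1 * qw ω v ρ.1)
        = qw ω 0 γ.1 * qw ω (v - dsp π.1) π.1 *
            ∑' ρ : {ρ : List (Dir d) // (π : List (Dir d)) ++ ρ ∈ Up h N}, qw ω v ρ.1 := by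
          rw [← ENNReal.tsum_mul_left]
          exact tsum_congr fun ρ => by ring
      _ ≤ qw ω 0 γ.1 * qw ω (v - dsp π.1) π.1 * 1 := by
          gcongr
          exact tsum_qw_le_one (free_ext h N π.1) ω v
      _ = _ := mul_one _
  · simp only [if_neg hc, tsum_zero]
    exact zero_le

lemma tsum_tw (μ : Measure (Row d)) [IsProbabilityMeasure μ] {h : Site d →+ ℤ} {b : ℝ≥0∞}
    (hb : ∑' j, ∑' x : (upG h).I j,
      wt μ x.1.toList * ((exits 0 x.1.toList).card : ℝ≥0∞) = b) (N R : ℕ) :
    ∑' t : Tg h N R, tw μ t ≤ b * (R + 1) := by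
  classical
  calc ∑' t : Tg h N R, tw μ t
      = ∑' γ : Up h N, ∑' π : PR d R, ∑' v : Site d,
          ∑' ρ : {ρ : List (Dir d) // (π : List (Dir d)) ++ ρ ∈ Up h N}, tw μ ⟨γ, π, v, ρ⟩ := by
        rw [ENNReal.tsum_sigma']
        refine tsum_congr fun γ => ?_
        rw [ENNReal.tsum_sigma']
        refine tsum_congr fun π => ?_
        rw [ENNReal.tsum_sigma']
    _ ≤ ∑' γ : Up h N, ∑' π : PR d R,
          wt μ π.1 * (wt μ γ.1 * (lv h 0 γ.1 (h (dsp π.1)) : ℝ≥0∞)) := by
        refine ENNReal.tsum_le_tsum fun γ => ENNReal.tsum_le_tsum fun π => ?_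
        calc _ ≤ ∑' v : Site d, if v ∈ (exits 0 γ.1).filter (fun z => h z = h (dsp π.1)) then
              wt μ γ.1 * wt μ π.1 else 0 :=
              ENNReal.tsum_le_tsum fun v => tsum_rho μ γ π v
          _ = ∑ v ∈ (exits 0 γ.1).filter (fun z => h z = h (dsp π.1)),
              wt μ γ.1 * wt μ π.1 := by
              rw [tsum_eq_sum (s := (exits 0 γ.1).filter (fun z => h z = h (dsp π.1)))
                (fun v hv => if_neg hv)]
              exact Finset.sum_congr rfl fun v hv => if_pos hv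
          _ = _ := by
              rw [Finset.sum_const, nsmul_eq_mul, lv]
              ring
    _ = ∑' π : PR d R, wt μ π.1 *
          ∑' γ : Up h N, wt μ γ.1 * (lv h 0 γ.1 (h (dsp π.1)) : ℝ≥0∞) := by
        rw [ENNReal.tsum_comm]
        refine tsum_congr fun π => ?_
        rw [ENNReal.tsum_mul_left]
    _ ≤ ∑' π : PR d R, wt μ π.1 * b := by
        refine ENNReal.tsum_le_tsum fun π => ?_
        gcongr
        exact mean_lv_le μ hb N _
    _ = (∑' π : PR d R, wt μ π.1) * b := by rw [ENNReal.tsum_mul_right]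
    _ ≤ (R + 1) * b := by
        gcongr
        exact tsum_PR μ R
    _ = b * (R + 1) := mul_comm _ _

/-! ### The source sum -/

/-- Upward paths with at most `R` exit sites. -/
abbrev UR (h : Site d →+ ℤ) (k R : ℕ) : Type :=
  {l : List (Dir d) // l ∈ Up h k ∧ (exits 0 l).card ≤ R}

/-- Pairs of upward paths that avoid each other, the second one started at `y`. -/
abbrev DD (h : Site d →+ ℤ) (y : Site d) (m : ℕ) : Type :=
  {p : Up h m × Up h m // Disjoint (exits 0 (p.1 : List (Dir d))) (exits y (p.2 : List (Dir d)))}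

/-- Index type of the source sum. -/
abbrev Sr (h : Site d →+ ℤ) (y : Site d) (M J R N : ℕ) : Type :=
  Σ (j : Fin J), (UR h (M * j) R × UR h (M * j) R) × DD h y (N - M * j - M)

/-- Summand of the source sum. -/
noncomputable def sw (μ : Measure (Row d)) {h : Site d →+ ℤ} {y : Site d} {M J R N : ℕ}
    (c₀ : ℝ≥0∞) (s : Sr h y M J R N) : ℝ≥0∞ :=
  (∫⁻ ω, qw ω (-dsp s.2.1.1.1) s.2.1.1.1 * qw ω (-dsp s.2.1.2.1) s.2.1.2.1 ∂(envLaw μ)) *
    (c₀ * (wt μ s.2.2.1.1 * wt μ s.2.2.1.2))

lemma lintegral_sq (μ : Measure (Row d)) [IsProbabilityMeasure μ] {h : Site d →+ ℤ} {k R : ℕ} :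
    ∫⁻ ω, (∑' l : UR h k R, qw ω (-dsp l.1) l.1) ^ 2 ∂(envLaw μ) =
      ∑' p : UR h k R × UR h k R,
        ∫⁻ ω, qw ω (-dsp p.1.1) p.1.1 * qw ω (-dsp p.2.1) p.2.1 ∂(envLaw μ) := by
  rw [← lintegral_tsum (f := fun (p : UR h k R × UR h k R) (ω : Env d) =>
    qw ω (-dsp p.1.1) p.1.1 * qw ω (-dsp p.2.1) p.2.1)
    fun p => ((measurable_qw _ _).mul (measurable_qw _ _)).aemeasurable]
  refine lintegral_congr fun ω => ?_
  rw [ENNReal.tsum_prod', sq, ← ENNReal.tsum_mul_right]
  exact tsum_congr fun l => ENNReal.tsum_mul_left.symm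

open Classical in
lemma tsum_DD (μ : Measure (Row d)) {h : Site d →+ ℤ} {y : Site d} {m : ℕ} :
    ∑' p : Up h m × Up h m, wt μ p.1 * wt μ p.2 *
        (if Disjoint (exits 0 (p.1 : List (Dir d))) (exits y (p.2 : List (Dir d))) then 1 else 0) =
      ∑' q : DD h y m, wt μ q.1.1 * wt μ q.1.2 := by
  have := tsum_subtype {p : Up h m × Up h m | Disjoint (exits 0 (p.1 : List (Dir d)))
    (exits y (p.2 : List (Dir d)))} (fun p => wt μ p.1 * wt μ p.2)
  refine Eq.trans ?_ this.symm
  refine tsum_congr fun p => ?_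
  rw [Set.indicator_apply]
  simp only [Set.mem_ofPred_eq]
  split_ifs <;> simp

open Classical in
lemma source_le (μ : Measure (Row d)) [IsProbabilityMeasure μ] {h : Site d →+ ℤ} {y : Site d}
    {c c₀ : ℝ≥0∞} {k₀ : ℕ}
    (hav : ∀ m, k₀ ≤ m → c ≤ ∑' p : Up h m × Up h m, wt μ p.1 * wt μ p.2 *
        (if Disjoint (exits 0 (p.1 : List (Dir d))) (exits y (p.2 : List (Dir d))) then 1 else 0))
    (M J R : ℕ) :
    (∑ j ∈ Finset.range J, ∫⁻ ω, (∑' l : UR h (M * j) R, qw ω (-dsp l.1) l.1) ^ 2 ∂(envLaw μ)) *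
      (c₀ * c) ≤ ∑' s : Sr h y M J R (M * J + k₀), sw μ c₀ s := by
  rw [Finset.sum_range, ENNReal.tsum_sigma', tsum_fintype, Finset.sum_mul]
  refine Finset.sum_le_sum fun j _ => ?_
  have hj : k₀ ≤ M * J + k₀ - M * j - M := by
    have h1 : M * (j : ℕ) + M ≤ M * J := by
      rw [← Nat.mul_succ]
      exact Nat.mul_le_mul_left M j.2
    omega
  have h1 := hav _ hj
  rw [tsum_DD] at h1
  rw [lintegral_sq, ← ENNReal.tsum_mul_right]
  refine le_trans ?_ (le_of_eq (ENNReal.tsum_prod'
    (f := fun b : (UR h (M * j) R × UR h (M * j) R) × DD h y (M * J + k₀ - M * j - M) =>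
      sw μ c₀ (⟨j, b⟩ : Sr h y M J R (M * J + k₀)))).symm)
  refine ENNReal.tsum_le_tsum fun p => ?_
  simp only [sw]
  rw [ENNReal.tsum_mul_left, ENNReal.tsum_mul_left]
  gcongr

lemma ae_qw_ne_zero (μ : Measure (Row d)) [IsProbabilityMeasure μ] (hμ : Elliptic μ) :
    ∀ᵐ ω ∂(envLaw μ), ∀ (x : Site d) (l : List (Dir d)), qw ω x l ≠ 0 := by
  have hae : ∀ᵐ ω ∂(envLaw μ), ∀ x : Site d, ∀ u : Dir d, 0 < (ω x).1 u := by
    rw [ae_all_iff]
    intro x
    have := (measurePreserving_eval_infinitePi (fun _ : Site d => μ) x).quasiMeasurePreserving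
    exact this.ae hμ
  filter_upwards [hae] with ω h1 x l
  induction l generalizing x with
  | nil => simp
  | cons u l ih =>
    rw [qw_cons]
    exact mul_ne_zero (by simpa only [ne_eq, ENNReal.ofReal_eq_zero, not_le] using h1 x u) (ih _)

lemma pair_ne_zero (μ : Measure (Row d)) [IsProbabilityMeasure μ] (hμ : Elliptic μ)
    (x x' : Site d) (l l' : List (Dir d)) :
    ∫⁻ ω, qw ω x l * qw ω x' l' ∂(envLaw μ) ≠ 0 := by
  intro h0
  have hm : Measurable (fun ω : Env d => qw ω x l * qw ω x' l') :=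
    (measurable_qw x l).mul (measurable_qw x' l')
  rw [lintegral_eq_zero_iff hm] at h0
  have : ∀ᵐ ω ∂(envLaw μ), False := by
    filter_upwards [ae_qw_ne_zero μ hμ, h0] with ω h1 h2
    exact mul_ne_zero (h1 x l) (h1 x' l') h2
  simp only [Filter.eventually_false_iff_eq_bot, ae_eq_bot] at this
  exact IsProbabilityMeasure.ne_zero (envLaw μ) this

/-- The image of a point of the source. -/
lemma exists_image (μ : Measure (Row d)) [IsProbabilityMeasure μ] {h : Site d →+ ℤ} {y : Site d}
    {M J R k₀ : ℕ} (hM : 0 < M) {α α' : List (Dir d)} (hα : α ∈ Up h M) (hα' : α' ∈ Up h M)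
    (hd : dsp α' = dsp α + y) (s : Sr h y M J R (M * J + k₀)) :
    ∃ t : Tg h (M * J + k₀) R,
      t.1.1 = s.2.1.1.1 ++ (α ++ s.2.2.1.1.1) ∧
      t.2.1.1 ++ t.2.2.2.1 = s.2.1.2.1 ++ (α' ++ s.2.2.1.2.1) ∧
      t.2.2.1 - dsp t.2.1.1 = dsp s.2.1.1.1 - dsp s.2.1.2.1 ∧
      sw μ (∫⁻ ω, qw ω 0 α * qw ω 0 α' ∂(envLaw μ)) s = tw μ t := by
  obtain ⟨j, ⟨⟨l, hl, hlR⟩, ⟨l', hl', hlR'⟩⟩, ⟨⟨⟨β, hβ⟩, ⟨β', hβ'⟩⟩, hdis⟩⟩ := s
  simp only at hdis ⊢
  have hj : M * (j : ℕ) + M ≤ M * J := by
    rw [← Nat.mul_succ]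
    exact Nat.mul_le_mul_left M j.2
  have hN : M * (j : ℕ) + (M + (M * J + k₀ - M * j - M)) = M * J + k₀ := by omega
  have hγ : l ++ (α ++ β) ∈ Up h (M * J + k₀) := by
    have := Up_append hl (Up_append hα hβ)
    rwa [hN] at this
  have hγ' : l' ++ (α' ++ β') ∈ Up h (M * J + k₀) := by
    have := Up_append hl' (Up_append hα' hβ')
    rwa [hN] at this
  have htip : dsp l ∈ exits 0 (l ++ (α ++ β)) :=
    mem_exits.2 ⟨l, α ++ β, rfl, by simp [up_ne_nil hM hα], by simp⟩
  obtain ⟨π, ρ, h1, h2, h3⟩ := first_hit (exits 0 (l ++ (α ++ β))) l' (dsp l - dsp l')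
    (by rw [sub_add_cancel]; exact htip)
  have hπ : π ∈ PR d R := by
    constructor
    · intro h4
      have h5 : dsp l - dsp l' + dsp π ∈ exits (dsp l - dsp l') π := by
        have := exits_add 0 (dsp l - dsp l') π
        rw [zero_add] at this
        rw [this]
        exact Finset.mem_image.2 ⟨dsp π, h4, add_comm _ _⟩
      exact Finset.disjoint_left.1 h3 h5 h2
    · refine le_trans (Finset.card_le_card ?_) hlR'
      rw [h1, exits_append]
      exact Finset.subset_union_left
  have hρ : π ++ (ρ ++ (α' ++ β')) ∈ Up h (M * J + k₀) := by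
    rw [← List.append_assoc, ← h1]
    exact hγ'
  refine ⟨⟨⟨_, hγ⟩, ⟨π, hπ⟩, dsp l - dsp l' + dsp π, ⟨ρ ++ (α' ++ β'), hρ⟩⟩, rfl, ?_, ?_, ?_⟩
  · simp only
    rw [h1, List.append_assoc]
  · simp only
    rw [add_sub_cancel_right]
  · simp only [sw, tw]
    rw [weight_eq μ hl hl' hα hα' hβ hβ' hd hdis]
    rw [if_pos]
    · rw [add_sub_cancel_right, ← List.append_assoc π, ← h1]
    · refine ⟨h2, ?_, ?_⟩
      · rw [map_add, map_sub, hl.2.2, hl'.2.2]; simp
      · rw [add_sub_cancel_right]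
        exact h3.symm

lemma source_le_target (μ : Measure (Row d)) [IsProbabilityMeasure μ] {h : Site d →+ ℤ}
    {y : Site d} {M J R k₀ : ℕ} (hM : 0 < M) {α α' : List (Dir d)} (hα : α ∈ Up h M)
    (hα' : α' ∈ Up h M) (hd : dsp α' = dsp α + y) :
    ∑' s : Sr h y M J R (M * J + k₀), sw μ (∫⁻ ω, qw ω 0 α * qw ω 0 α' ∂(envLaw μ)) s ≤
      ∑' t : Tg h (M * J + k₀) R, tw μ t := by
  choose Φ h1 h2 h3 h4 using exists_image (R := R) (J := J) (k₀ := k₀) μ hM hα hα' hd
  have hinj : Function.Injective Φ := by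
    intro s s' heq
    have e1 := (h1 s).symm.trans ((congrArg (fun t => t.1.1) heq).trans (h1 s'))
    have e2 := (h2 s).symm.trans ((congrArg (fun t => t.2.1.1 ++ t.2.2.2.1) heq).trans (h2 s'))
    have e3 := (h3 s).symm.trans ((congrArg (fun t => t.2.2.1 - dsp t.2.1.1) heq).trans (h3 s'))
    clear h1 h2 h3 h4 heq
    obtain ⟨j, ⟨⟨l, hl, hlR⟩, ⟨l', hl', hlR'⟩⟩, ⟨⟨⟨β, hβ⟩, ⟨β', hβ'⟩⟩, hdis⟩⟩ := s
    obtain ⟨j₂, ⟨⟨l₂, hl₂, hlR₂⟩, ⟨l₂', hl₂', hlR₂'⟩⟩, ⟨⟨⟨β₂, hβ₂⟩, ⟨β₂', hβ₂'⟩⟩, hdis₂⟩⟩ := s'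
    simp only at hdis hdis₂ e1 e2 e3
    rcases lt_trichotomy j j₂ with hlt | rfl | hlt
    · exfalso
      refine inj_ne hM hl hl' hα hα' hβ hβ' hd hl₂ hl₂' ?_ e1 e2 e3 hdis
      rw [← Nat.mul_succ]
      exact Nat.mul_le_mul_left M hlt
    · obtain ⟨rfl, rfl⟩ := inj_eq hl hl₂ (Up_append hα hβ) e1
      obtain ⟨rfl, rfl⟩ := inj_eq hl' hl₂' (Up_append hα' hβ') e2
      rfl
    · exfalso
      refine inj_ne hM hl₂ hl₂' hα hα' hβ₂ hβ₂' hd hl hl' ?_ e1.symm e2.symm e3.symm hdis₂
      rw [← Nat.mul_succ]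
      exact Nat.mul_le_mul_left M hlt
  calc _ = ∑' s : Sr h y M J R (M * J + k₀), tw μ (Φ s) := tsum_congr h4
    _ ≤ _ := ENNReal.tsum_comp_le_tsum_of_injective hinj (tw μ)

end SecSum

open SecSum

open Classical in
/-- Cesàro bound of the second moment of the truncated sums, along multiples of `M`. -/
theorem second_moment_sum (μ : Measure (Row d)) [IsProbabilityMeasure μ] (hμ : Elliptic μ)
    {h : Site d →+ ℤ}
    (hsurj : Function.Surjective h) {q : ℝ≥0∞} (hq : q ≠ 0) {k₀ : ℕ}
    (hlow : ∀ k, k₀ ≤ k → q ≤ uu μ h k)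
    {b : ℝ≥0∞} (hb : ∑' j, ∑' x : (upG h).I j,
      wt μ x.1.toList * ((exits 0 x.1.toList).card : ℝ≥0∞) = b) (hbt : b ≠ ∞)
    {y : Site d} {c : ℝ≥0∞} (hy : h y = 0) (hy0 : y ≠ 0) (hc : c ≠ 0)
    (hav : ∀ m, k₀ ≤ m → c ≤ ∑' p : Up h m × Up h m, wt μ p.1 * wt μ p.2 *
        (if Disjoint (exits 0 (p.1 : List (Dir d))) (exits y (p.2 : List (Dir d))) then 1 else 0)) :
    ∃ (M : ℕ) (C : ℝ≥0∞), 0 < M ∧ C ≠ ∞ ∧ ∀ (J R : ℕ),
      ∑ j ∈ Finset.range J, ∫⁻ ω, (∑' l : {l : List (Dir d) // l ∈ Up h (M * j) ∧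
        (exits 0 l).card ≤ R}, qw ω (-dsp l.1) l.1) ^ 2 ∂(envLaw μ) ≤ C * (R + 1) := by
  obtain ⟨L, hL⟩ := exists_bound h
  obtain ⟨m₀, hm₀⟩ : ∃ m₀ : ℕ, m₀ = 2 * L + 1 := ⟨_, rfl⟩
  obtain ⟨y₁, hy₁⟩ := hsurj (m₀ : ℤ)
  obtain ⟨α, hα, hαd⟩ := exists_up hsurj hL (k := m₀) (by omega) hy₁
  obtain ⟨α', hα', hαd'⟩ := exists_up hsurj hL (k := m₀) (y := y₁ + y) (by omega)
    (by rw [map_add, hy₁, hy, add_zero])
  have hc₀ := pair_ne_zero μ hμ 0 0 α α'
  set c₀ := ∫⁻ ω, qw ω 0 α * qw ω 0 α' ∂(envLaw μ) with hc₀def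
  refine ⟨m₀, b / (c₀ * c), by omega, ENNReal.div_ne_top hbt (mul_ne_zero hc₀ hc),
    fun J R => ?_⟩
  have h1 := source_le μ hav m₀ J R (c₀ := c₀)
  have h2 := source_le_target μ (R := R) (J := J) (k₀ := k₀) (by omega : 0 < m₀) hα hα'
    (y := y) (by rw [hαd', hαd])
  have h3 := (h1.trans h2).trans (tsum_tw μ hb (m₀ * J + k₀) R)
  have h4 : b * ((R : ℝ≥0∞) + 1) ≠ ∞ := ENNReal.mul_ne_top hbt (by finiteness)
  have h5 := (ENNReal.le_div_iff_mul_le (Or.inl (mul_ne_zero hc₀ hc)) (Or.inr h4)).2 h3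
  refine h5.trans (le_of_eq ?_)
  rw [div_eq_mul_inv, div_eq_mul_inv]
  ring

end Vale.Agent.P147
end
end

section

section

open MeasureTheory Filter Topology
open scoped ENNReal

namespace Vale.Agent.P147

variable {d : ℕ} (μ : Measure (Row d)) [IsProbabilityMeasure μ]

/-- Mean number of exit sites of the upward paths of height `k`. -/
lemma mean_exits_le {h : Site d →+ ℤ} {b : ℝ≥0∞}
    (hb : ∑' j, ∑' x : (upG h).I j,
      wt μ x.1.toList * ((exits 0 x.1.toList).card : ℝ≥0∞) = b) (k : ℕ) :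
    ∑' l : Up h k, wt μ l * ((exits 0 (l : List (Dir d))).card : ℝ≥0∞) ≤ k * b := by
  have hcard : ∀ (j : ℕ) (l : List (Dir d)), l ∈ Up h j →
      ((exits 0 l).card : ℝ≥0∞) = ∑ i ∈ Finset.range j, (lv h 0 l i : ℝ≥0∞) := by
    intro j l hl
    have := sum_lv h hl 0
    simp only [map_zero, zero_add] at this
    rw [← this]
    push_cast
    rfl
  rw [← upG_tsum h k (fun l => wt μ l * ((exits 0 l).card : ℝ≥0∞))]
  have e1 : ∑' x : (upG h).G k, wt μ x.1.toList * ((exits 0 x.1.toList).card : ℝ≥0∞) =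
      ∑ i ∈ Finset.range k, (upG h).V (fun x => wt μ x.toList)
        (fun x i => (lv h 0 x.toList i : ℝ≥0∞)) k i := by
    simp only [Grading.V]
    rw [← Summable.tsum_finsetSum fun _ _ => ENNReal.summable]
    refine tsum_congr fun x => ?_
    rw [hcard k _ (mem_upG.1 x.2), Finset.mul_sum]
  rw [e1]
  calc ∑ i ∈ Finset.range k, (upG h).V (fun x => wt μ x.toList)
        (fun x i => (lv h 0 x.toList i : ℝ≥0∞)) k i ≤ ∑ i ∈ Finset.range k, b := by
        refine Finset.sum_le_sum fun i hi => ?_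
        rw [Finset.mem_range] at hi
        refine (Grading.V_le (upG_mult μ h) (fun k => ?_) (@upG_lev d h) hi).trans ?_
        · rw [upG_U]; exact uu_le_one μ h k
        · rw [← hb]
          refine ENNReal.tsum_le_tsum fun j => ENNReal.tsum_le_tsum fun x => ?_
          gcongr
          exact le_of_eq (hcard j _ (mem_upG.1 x.2.1)).symm
    _ = k * b := by simp

/-- Truncation. -/
lemma uu_le_trunc {h : Site d →+ ℤ} {b : ℝ≥0∞}
    (hb : ∑' j, ∑' x : (upG h).I j,
      wt μ x.1.toList * ((exits 0 x.1.toList).card : ℝ≥0∞) = b) (k R : ℕ) :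
    ((R : ℝ≥0∞) + 1) * uu μ h k ≤
      ((R : ℝ≥0∞) + 1) * (∑' l : {l : List (Dir d) // l ∈ Up h k ∧ (exits 0 l).card ≤ R},
        wt μ l.1) + k * b := by
  classical
  have e2 : ∑' l : {l : List (Dir d) // l ∈ Up h k ∧ (exits 0 l).card ≤ R}, wt μ l.1 =
      ∑' l : Up h k, wt μ l * (if (exits 0 (l : List (Dir d))).card ≤ R then 1 else 0) := by
    rw [tsum_subtype (Up h k)
      (fun l => wt μ l * (if (exits 0 l).card ≤ R then 1 else 0))]
    refine (tsum_subtype {l : List (Dir d) | l ∈ Up h k ∧ (exits 0 l).card ≤ R}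
      (fun l => wt μ l)).trans ?_
    refine tsum_congr fun l => ?_
    by_cases h1 : l ∈ Up h k <;> by_cases h2 : (exits 0 l).card ≤ R <;>
      simp [Set.indicator, h1, h2]
  rw [e2]
  calc ((R : ℝ≥0∞) + 1) * uu μ h k
      = ∑' l : Up h k, ((R : ℝ≥0∞) + 1) * wt μ l := by rw [uu, ENNReal.tsum_mul_left]
    _ ≤ ∑' l : Up h k, (((R : ℝ≥0∞) + 1) *
          (wt μ l * (if (exits 0 (l : List (Dir d))).card ≤ R then 1 else 0)) +
          wt μ l * ((exits 0 (l : List (Dir d))).card : ℝ≥0∞)) := by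
        refine ENNReal.tsum_le_tsum fun l => ?_
        split_ifs with h1
        · rw [mul_one]; exact le_self_add
        · rw [mul_zero, mul_zero, zero_add, mul_comm]
          gcongr
          push Not at h1
          exact_mod_cast h1
    _ = ((R : ℝ≥0∞) + 1) * (∑' l : Up h k,
          wt μ l * (if (exits 0 (l : List (Dir d))).card ≤ R then 1 else 0)) +
          ∑' l : Up h k, wt μ l * ((exits 0 (l : List (Dir d))).card : ℝ≥0∞) := by
        rw [ENNReal.tsum_add, ENNReal.tsum_mul_left]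
    _ ≤ _ := by
        gcongr
        exact mean_exits_le μ hb k

/-- Truncated sums with bounded second moment and non negligible mean. -/
theorem second_moment (hμ : Elliptic μ) {h : Site d →+ ℤ}
    (hsurj : Function.Surjective h) {q : ℝ≥0∞} (hq : q ≠ 0) {k₀ : ℕ}
    (hlow : ∀ k, k₀ ≤ k → q ≤ uu μ h k)
    {b : ℝ≥0∞} (hb : ∑' j, ∑' x : (upG h).I j,
      wt μ x.1.toList * ((exits 0 x.1.toList).card : ℝ≥0∞) = b) (hbt : b ≠ ∞)
    {M : ℕ} {C : ℝ≥0∞} (hM : 0 < M) (hC : C ≠ ∞) (hsum : ∀ (J R : ℕ),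
      ∑ j ∈ Finset.range J, ∫⁻ ω, (∑' l : {l : List (Dir d) // l ∈ Up h (M * j) ∧
        (exits 0 l).card ≤ R}, qw ω (-dsp l.1) l.1) ^ 2 ∂(envLaw μ) ≤ C * (R + 1)) :
    ∃ (q' C' : ℝ≥0∞), q' ≠ 0 ∧ C' ≠ ∞ ∧ ∀ k₁ : ℕ, ∃ k, k₁ ≤ k ∧ ∃ G : Set (List (Dir d)),
      G ⊆ Up h k ∧ q' ≤ ∑' l : G, wt μ l ∧
      ∫⁻ ω, (∑' l : G, qw ω (-dsp (l : List (Dir d))) l) ^ 2 ∂(envLaw μ) ≤ C' := by
  have hq1 : q ≤ 1 := (hlow k₀ le_rfl).trans (uu_le_one μ h k₀)
  have hqt : q ≠ ∞ := ne_top_of_le_ne_top ENNReal.one_ne_top hq1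
  -- the constant
  obtain ⟨B, hB⟩ : ∃ B : ℕ, 4 * M * b / q < B :=
    ENNReal.exists_nat_gt (ENNReal.div_ne_top (ENNReal.mul_ne_top (by finiteness) hbt) hq)
  have hB0 : 0 < B := by
    rcases Nat.eq_zero_or_pos B with h0 | h0
    · rw [h0] at hB; simp only [CharP.cast_eq_zero, not_lt_zero] at hB
    · exact h0
  have hBq : 4 * M * b ≤ B * q := by
    rw [← ENNReal.div_le_iff hq hqt]; exact hB.le
  refine ⟨q / 2, C * B + 1, by simp [hq], by finiteness, fun k₁ => ?_⟩
  set N := k₀ + k₁ + 1 with hN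
  set R := N * B - 1 with hR
  have hR1 : R + 1 = N * B := by
    have : 0 < N * B := Nat.mul_pos (by omega) hB0
    omega
  have hR1' : (R : ℝ≥0∞) + 1 = N * B := by exact_mod_cast hR1
  -- choice of the index
  obtain ⟨j, hj, hjC⟩ : ∃ j ∈ Finset.Ico N (2 * N),
      ∫⁻ ω, (∑' l : {l : List (Dir d) // l ∈ Up h (M * j) ∧
        (exits 0 l).card ≤ R}, qw ω (-dsp l.1) l.1) ^ 2 ∂(envLaw μ) ≤ C * B + 1 := by
    by_contra hcon
    push Not at hcon
    have h1 := hsum (2 * N) R
    have h2 : (N : ℝ≥0∞) * (C * B + 1) ≤ C * (R + 1) := by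
      refine le_trans ?_ h1
      calc (N : ℝ≥0∞) * (C * B + 1) = ∑ j ∈ Finset.Ico N (2 * N), (C * B + 1) := by
            rw [Finset.sum_const, Nat.card_Ico, nsmul_eq_mul]
            congr 2
            omega
        _ ≤ ∑ j ∈ Finset.Ico N (2 * N),
            ∫⁻ ω, (∑' l : {l : List (Dir d) // l ∈ Up h (M * j) ∧
              (exits 0 l).card ≤ R}, qw ω (-dsp l.1) l.1) ^ 2 ∂(envLaw μ) :=
            Finset.sum_le_sum fun j hj => (hcon j hj).le
        _ ≤ _ := by
            refine Finset.sum_le_sum_of_subset ?_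
            intro j hj
            rw [Finset.mem_Ico] at hj
            rw [Finset.mem_range]
            exact hj.2
    rw [hR1', mul_add, mul_one] at h2
    have h3 : (N : ℝ≥0∞) * (C * B) = C * (N * B) := by ring
    rw [h3] at h2
    have h4 : C * ((N : ℝ≥0∞) * B) ≠ ∞ := by finiteness
    have h5 : (N : ℝ≥0∞) ≤ 0 := by
      have := ENNReal.le_of_add_le_add_left h4 (h2.trans_eq (add_zero _).symm)
      exact this
    have h6 : (N : ℝ≥0∞) = 0 := le_antisymm h5 zero_le
    have h7 : N = 0 := by exact_mod_cast h6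
    omega
  rw [Finset.mem_Ico] at hj
  have hMj : j ≤ M * j := Nat.le_mul_of_pos_left j hM
  refine ⟨M * j, by omega, {l | l ∈ Up h (M * j) ∧ (exits 0 l).card ≤ R}, ?_, ?_, ?_⟩
  · intro l hl; exact hl.1
  · -- the mean
    have h1 := uu_le_trunc μ hb (M * j) R
    have h2 := hlow (M * j) (by omega)
    set T := ∑' l : {l : List (Dir d) // l ∈ Up h (M * j) ∧ (exits 0 l).card ≤ R}, wt μ l.1
      with hT
    change q / 2 ≤ T
    have h3 : ((M * j : ℕ) : ℝ≥0∞) * b ≤ ((R : ℝ≥0∞) + 1) * (q / 2) := by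
      rw [hR1']
      calc ((M * j : ℕ) : ℝ≥0∞) * b ≤ ((M * (2 * N) : ℕ) : ℝ≥0∞) * b := by
            gcongr
            omega
        _ = N * (4 * M * b) / 2 := by
            push_cast
            rw [show (N : ℝ≥0∞) * (4 * M * b) = (M * (2 * N) * b) * 2 by ring,
              ENNReal.mul_div_cancel_right (by simp) (by simp)]
        _ ≤ N * (B * q) / 2 := by (clear * - hBq; gcongr)
        _ = N * B * (q / 2) := by rw [← mul_assoc, mul_div_assoc]
    have h4 : ((R : ℝ≥0∞) + 1) * q ≤ ((R : ℝ≥0∞) + 1) * (T + q / 2) := by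
      calc ((R : ℝ≥0∞) + 1) * q ≤ ((R : ℝ≥0∞) + 1) * uu μ h (M * j) := by (clear * - h2; gcongr)
        _ ≤ _ := h1
        _ ≤ ((R : ℝ≥0∞) + 1) * T + ((R : ℝ≥0∞) + 1) * (q / 2) := by (clear * - h3; gcongr)
        _ = _ := by rw [mul_add]
    have h5 : q ≤ T + q / 2 :=
      (ENNReal.mul_le_mul_iff_right (by simp only [ne_eq, add_eq_zero, Nat.cast_eq_zero, one_ne_zero, and_false, not_false_eq_true]) (by finiteness)).1 h4
    have h6 : q / 2 + q / 2 ≤ T + q / 2 := by rw [ENNReal.add_halves]; exact h5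
    exact (ENNReal.add_le_add_iff_right (ENNReal.div_ne_top hqt (by simp))).1 h6
  · exact hjC

end Vale.Agent.P147
end
end

section

section

open MeasureTheory Filter Topology
open scoped ENNReal

namespace Vale.Agent.P147

variable {d : ℕ} (μ : Measure (Row d)) [IsProbabilityMeasure μ]

private lemma intHom_close' {v : Fin d → ℝ} {D B : ℝ} {c : Fin d → ℤ}
    (hc : ∀ i, |D * v i - c i| ≤ B) (x : Site d) :
    |D * inner x v - (intHom c x : ℝ)| ≤ B * (l1 x : ℝ) := by
  have e : D * inner x v - (intHom c x : ℝ) = ∑ i, (x i : ℝ) * (D * v i - c i) := by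
    simp only [intHom, inner, AddMonoidHom.coe_mk, ZeroHom.coe_mk]
    push_cast
    rw [Finset.mul_sum, ← Finset.sum_sub_distrib]
    refine Finset.sum_congr rfl fun i _ => ?_
    ring
  rw [e]
  calc |∑ i, (x i : ℝ) * (D * v i - c i)|
      ≤ ∑ i, |(x i : ℝ) * (D * v i - c i)| := Finset.abs_sum_le_sum_abs _ _
    _ ≤ ∑ i, ((x i).natAbs : ℝ) * B := by
        refine Finset.sum_le_sum fun i _ => ?_
        rw [abs_mul]
        refine mul_le_mul ?_ (hc i) (abs_nonneg _) (by (clear * -; positivity))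
        rw [Nat.cast_natAbs, Int.cast_abs]
    _ = B * (l1 x : ℝ) := by
        rw [← Finset.sum_mul, l1]
        push_cast
        ring

/-- Integer functionals close to `D v` are comparable with `inner · v` on the thin event. -/
private lemma key_ineq {v : Fin d → ℝ} {m N : ℕ} {c : Fin d → ℤ}
    (hc : ∀ i, |(2 * ((d : ℝ) + 1) * ((m : ℝ) + 1)) * v i - c i| ≤ (d : ℝ) + 1)
    {X : ℕ → Site d} (hX : X ∈ TE v m N) (hg : X ∈ Good 0) {n : ℕ} (hn : N ≤ n) :
    0 ≤ inner (X n) v ∧ inner (X n) v ≤ (intHom c (X n) : ℝ) ∧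
      ((visited X n).card : ℝ) ≤ (intHom c (X n) : ℝ) := by
  have h1 := hX.2 n hn
  have hm1 : (1 : ℝ) ≤ (m : ℝ) + 1 := by
    have : (0 : ℝ) ≤ m := by positivity
    linarith only []
  have hd1 : (1 : ℝ) ≤ (d : ℝ) + 1 := by
    have : (0 : ℝ) ≤ d := by positivity
    linarith only []
  have hin : 0 ≤ inner (X n) v := by
    by_contra hneg
    push Not at hneg
    have : ((m : ℝ) + 1) * inner (X n) v < 0 := mul_neg_of_pos_of_neg (by linarith only []) hneg
    have h3 : (0 : ℝ) ≤ ((visited X n).card : ℝ) := by (clear * -; positivity)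
    linarith only [h1, this]
  have h3 := intHom_close' hc (X n)
  have h4 : (l1 (X n) : ℝ) ≤ ((visited X n).card : ℝ) := by
    exact_mod_cast l1_le_visited hg n
  have h5 := (abs_le.1 h3).2
  have h6 : ((d : ℝ) + 1) * (l1 (X n) : ℝ) ≤
      ((d : ℝ) + 1) * (((m : ℝ) + 1) * inner (X n) v) :=
    mul_le_mul_of_nonneg_left (h4.trans h1) (by linarith only [])
  have h7 : ((d : ℝ) + 1) * (((m : ℝ) + 1) * inner (X n) v) ≤ (intHom c (X n) : ℝ) := by
    linarith
  have h8 : 0 ≤ ((m : ℝ) + 1) * inner (X n) v := mul_nonneg (by linarith only []) hin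
  have h9 : ((m : ℝ) + 1) * inner (X n) v ≤
      ((d : ℝ) + 1) * (((m : ℝ) + 1) * inner (X n) v) := le_mul_of_one_le_left h8 hd1
  have h10 : inner (X n) v ≤ ((m : ℝ) + 1) * inner (X n) v := le_mul_of_one_le_left hin hm1
  exact ⟨hin, h10.trans (h9.trans h7), h1.trans (h9.trans h7)⟩

/-- A surjective functional proportional to an integer functional close to `D v`. -/
private lemma close_lin {v : Fin d → ℝ} {m N : ℕ} (hpos : annealed μ 0 (TE v m N) ≠ 0)
    {c : Fin d → ℤ}
    (hc : ∀ i, |(2 * ((d : ℝ) + 1) * ((m : ℝ) + 1)) * v i - c i| ≤ (d : ℝ) + 1) :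
    ∃ (h : Site d →+ ℤ) (g : ℕ), Function.Surjective h ∧ 0 < g ∧ (∀ x, intHom c x = g * h x) ∧
      Lin μ h ∧ annealed μ 0 (Esc h) ≠ 0 := by
  -- the functional is not zero
  have hne : ∃ x, intHom c x ≠ 0 := by
    by_contra hz
    push Not at hz
    apply hpos
    refine le_antisymm ((annealed_inter_good μ 0 _).trans ?_) zero_le
    have hempty : TE v m N ∩ Good 0 = ∅ := by
      rw [Set.eq_empty_iff_forall_notMem]
      rintro X ⟨hX, hgood⟩
      obtain ⟨_, _, k3⟩ := key_ineq hc hX hgood (le_refl N)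
      rw [hz] at k3
      have h1 : X N ∈ visited X N := by
        simp only [visited, Finset.mem_image, Finset.mem_range]
        exact ⟨N, by omega, rfl⟩
      have h2 : 0 < (visited X N).card := Finset.card_pos.2 ⟨_, h1⟩
      have h3 : (0 : ℝ) < ((visited X N).card : ℝ) := by exact_mod_cast h2
      simp only [Int.cast_zero, Nat.cast_nonpos, Finset.card_eq_zero] at k3
      have : (visited X N).card = 0 := by
        rw [k3]; simp
      omega
    rw [hempty]
    simp only [annealed, measure_empty, lintegral_const, measure_univ, mul_one, Std.le_refl]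
  obtain ⟨h, g, hsurj, hg, hmul⟩ := exists_surj hne
  have hgr : (0 : ℝ) < g := by exact_mod_cast hg
  have hsub : TE v m N ∩ Good 0 ⊆ HE h g N := by
    rintro X ⟨hX, hgood⟩
    constructor
    · intro K
      obtain ⟨M, hM⟩ := hX.1 (g * K)
      refine ⟨max M N, fun n hn => ?_⟩
      obtain ⟨_, k2, _⟩ := key_ineq hc hX hgood ((le_max_right _ _).trans hn)
      have h1 := hM n ((le_max_left _ _).trans hn)
      rw [hmul] at k2
      push_cast at h1 k2
      have h3 := le_of_mul_le_mul_left (h1.trans k2) hgr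
      exact_mod_cast h3
    · intro n hn
      obtain ⟨_, _, k3⟩ := key_ineq hc hX hgood hn
      rw [hmul] at k3
      push_cast at k3
      exact_mod_cast k3
  have hHE : annealed μ 0 (HE h g N) ≠ 0 := fun h0 => hpos
    (le_antisymm (((annealed_inter_good μ 0 _).trans (annealed_mono μ 0 hsub)).trans h0.le)
      zero_le)
  have hEsc : HE h g N ⊆ Esc h := by
    rintro X ⟨hX, _⟩
    refine tendsto_atTop_atTop.2 fun K => ?_
    obtain ⟨M, hM⟩ := hX K.toNat
    exact ⟨M, fun n hn => (Int.self_le_toNat K).trans (hM n hn)⟩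
  have hne2 : annealed μ 0 (Esc h) ≠ 0 := fun h0 => hHE
    (le_antisymm ((annealed_mono μ 0 hEsc).trans h0.le) zero_le)
  exact ⟨h, g, hsurj, hg, hmul, lin_of_event μ hHE, hne2⟩

/-- Thin escape in a real direction gives thin escape for some integer functional. -/
theorem exists_lin {v : Fin d → ℝ} (hpos : annealed μ 0 (ThinEscape v) ≠ 0) :
    ∃ h : Site d →+ ℤ, Function.Surjective h ∧ Lin μ h ∧ annealed μ 0 (Esc h) ≠ 0 := by
  obtain ⟨m, N, hTE⟩ := exists_TE μ hpos
  obtain ⟨h, _, hsurj, _, _, hl, hne⟩ := close_lin μ hTE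
    (c := fun i => ⌊(2 * ((d : ℝ) + 1) * ((m : ℝ) + 1)) * v i⌋) (fun i => by
      have h1 := Int.floor_le ((2 * ((d : ℝ) + 1) * ((m : ℝ) + 1)) * v i)
      have h2 := Int.lt_floor_add_one ((2 * ((d : ℝ) + 1) * ((m : ℝ) + 1)) * v i)
      have h3 : (0 : ℝ) ≤ d := by positivity
      rw [abs_le]
      constructor <;> linarith)
  exact ⟨h, hsurj, hl, hne⟩

/-- Almost sure escape along every integer functional close to `D v`. -/
private lemma esc_close {v : Fin d → ℝ} {m N : ℕ} (hpos : annealed μ 0 (TE v m N) ≠ 0)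
    (H : ∀ h : Site d →+ ℤ, Function.Surjective h → Lin μ h → annealed μ 0 (Esc h) ≠ 0 →
      annealed μ 0 (Esc h)ᶜ = 0) {c : Fin d → ℤ}
    (hc : ∀ i, |(2 * ((d : ℝ) + 1) * ((m : ℝ) + 1)) * v i - c i| ≤ (d : ℝ) + 1) :
    annealed μ 0 (Esc (intHom c))ᶜ = 0 := by
  obtain ⟨h, g, hsurj, hg, hmul, hlin, hne2⟩ := close_lin μ hpos hc
  have hfin := H h hsurj hlin hne2
  refine le_antisymm ((annealed_mono μ 0 (Set.compl_subset_compl.2 ?_)).trans hfin.le) zero_le
  intro X hX
  have h1 : Tendsto (fun n => h (X n)) atTop atTop := hX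
  change Tendsto (fun n => intHom c (X n)) atTop atTop
  refine tendsto_atTop_mono' atTop ?_ h1
  filter_upwards [h1.eventually_ge_atTop 0] with n hn
  rw [hmul]
  have hg1 : (1 : ℤ) ≤ (g : ℤ) := by exact_mod_cast hg
  exact le_mul_of_one_le_left hn hg1

/-- Reduction of thin escape in a real direction to finitely many integer functionals. -/
theorem real_reduction {v : Fin d → ℝ} (hpos : annealed μ 0 (ThinEscape v) ≠ 0)
    (H : ∀ h : Site d →+ ℤ, Function.Surjective h → Lin μ h → annealed μ 0 (Esc h) ≠ 0 →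
      annealed μ 0 (Esc h)ᶜ = 0) :
    annealed μ 0 (Escape v)ᶜ = 0 := by
  classical
  obtain ⟨m, N, hTE⟩ := exists_TE μ hpos
  set D : ℝ := 2 * ((d : ℝ) + 1) * ((m : ℝ) + 1) with hD
  have hDpos : 0 < D := by (clear * -; positivity)
  set f : Fin d → ℤ := fun i => ⌊D * v i⌋ with hf
  set φ : Fin d → ℝ := fun i => Int.fract (D * v i) with hφ
  have hφ0 : ∀ i, 0 ≤ φ i := fun i => Int.fract_nonneg _
  have hφ1 : ∀ i, φ i ≤ 1 := fun i => (Int.fract_lt_one _).le
  have hfφ : ∀ i, D * v i = f i + φ i := fun i => (Int.floor_add_fract _).symm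
  set cc : Option (Fin d) → Fin d → ℤ := fun o => match o with
    | none => f
    | some i => fun j => f j + (if j = i then (d : ℤ) + 1 else 0) with hcc
  have hd0 : (0 : ℝ) ≤ d := by (clear * -; positivity)
  have hclose : ∀ o i, |D * v i - cc o i| ≤ (d : ℝ) + 1 := by
    intro o j
    rw [hfφ]
    have h0 := hφ0 j
    have h1 := hφ1 j
    rw [abs_le]
    cases o with
    | none =>
      simp only [hcc]
      constructor <;> linarith only [h0, h1]
    | some i =>
      simp only [hcc]
      by_cases hij : j = i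
      · rw [if_pos hij]
        push_cast
        constructor <;> linarith only [h0, h1]
      · rw [if_neg hij]
        push_cast
        constructor <;> linarith
  have hesc : ∀ o, annealed μ 0 (Esc (intHom (cc o)))ᶜ = 0 := fun o =>
    esc_close μ hTE H (hclose o)
  have hsub : (Escape v)ᶜ ⊆ ⋃ o, (Esc (intHom (cc o)))ᶜ := by
    rw [← Set.compl_iInter]
    refine Set.compl_subset_compl.2 ?_
    intro X hX
    rw [Set.mem_iInter] at hX
    change Tendsto (fun n => inner (X n) v) atTop atTop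
    have hlin : ∀ x : Site d, D * inner x v =
        (1 - ∑ i, φ i / ((d : ℝ) + 1)) * (intHom (cc none) x : ℝ) +
          ∑ i, φ i / ((d : ℝ) + 1) * (intHom (cc (some i)) x : ℝ) := by
      intro x
      have e0 : (intHom (cc none) x : ℝ) = ∑ j, (x j : ℝ) * f j := by
        simp only [intHom, hcc, AddMonoidHom.coe_mk, ZeroHom.coe_mk, Int.cast_sum, Int.cast_mul]
      have e1 : ∀ i, (intHom (cc (some i)) x : ℝ) =
          (∑ j, (x j : ℝ) * f j) + (x i : ℝ) * ((d : ℝ) + 1) := by
        intro i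
        simp only [intHom, hcc, AddMonoidHom.coe_mk, ZeroHom.coe_mk]
        push_cast
        simp only [mul_add, Finset.sum_add_distrib]
        congr 1
        simp only [mul_ite, mul_zero, Finset.sum_ite_eq', Finset.mem_univ, ↓reduceIte, mul_one]
        ring
      simp only [e0, e1]
      have hd1 : ((d : ℝ) + 1) ≠ 0 := by (clear * -; positivity)
      have e2 : ∑ i, φ i / ((d : ℝ) + 1) * ((∑ j, (x j : ℝ) * f j) + (x i : ℝ) * ((d : ℝ) + 1)) =
          (∑ i, φ i / ((d : ℝ) + 1)) * (∑ j, (x j : ℝ) * f j) + ∑ i, (x i : ℝ) * φ i := by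
        rw [Finset.sum_mul, ← Finset.sum_add_distrib]
        refine Finset.sum_congr rfl fun i _ => ?_
        (clear * - hd1; field_simp)
      rw [e2]
      have e3 : D * inner x v = (∑ j, (x j : ℝ) * f j) + ∑ i, (x i : ℝ) * φ i := by
        rw [inner, Finset.mul_sum, ← Finset.sum_add_distrib]
        refine Finset.sum_congr rfl fun i _ => ?_
        have := hfφ i
        linear_combination (x i : ℝ) * this
      rw [e3]
      ring
    have hl0 : 0 ≤ 1 - ∑ i, φ i / ((d : ℝ) + 1) := by
      have : ∑ i, φ i / ((d : ℝ) + 1) ≤ ∑ _i : Fin d, 1 / ((d : ℝ) + 1) :=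
        Finset.sum_le_sum fun i _ => div_le_div_of_nonneg_right (hφ1 i) (by (clear * -; positivity))
      have h2 : ∑ _i : Fin d, 1 / ((d : ℝ) + 1) ≤ 1 := by
        rw [Finset.sum_const, Finset.card_univ, Fintype.card_fin, nsmul_eq_mul, mul_one_div,
          div_le_one (by (clear * -; positivity))]
        linarith only []
      linarith
    have hmin : ∀ (K : ℝ) (x : Site d), (∀ o, K ≤ (intHom (cc o) x : ℝ)) → K ≤ D * inner x v := by
      intro K x hK
      rw [hlin x]
      calc K = (1 - ∑ i, φ i / ((d : ℝ) + 1)) * K + ∑ i, φ i / ((d : ℝ) + 1) * K := by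
            rw [← Finset.sum_mul]; ring
        _ ≤ _ := by
            refine add_le_add (mul_le_mul_of_nonneg_left (hK none) hl0) ?_
            refine Finset.sum_le_sum fun i _ => ?_
            exact mul_le_mul_of_nonneg_left (hK (some i)) (div_nonneg (hφ0 i) (by (clear * -; positivity)))
    rw [tendsto_atTop]
    intro b
    have hev : ∀ o, ∀ᶠ n in atTop, ⌈D * b⌉ ≤ intHom (cc o) (X n) := fun o =>
      (show Tendsto (fun n => intHom (cc o) (X n)) atTop atTop from hX o).eventually_ge_atTop _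
    filter_upwards [eventually_all.2 hev] with n hn
    have h1 := hmin (D * b) (X n) fun o => by
      have h2 : (⌈D * b⌉ : ℝ) ≤ (intHom (cc o) (X n) : ℝ) := by exact_mod_cast hn o
      exact (Int.le_ceil _).trans h2
    exact le_of_mul_le_mul_left h1 hDpos
  refine le_antisymm ?_ zero_le
  calc annealed μ 0 (Escape v)ᶜ ≤ annealed μ 0 (⋃ o, (Esc (intHom (cc o)))ᶜ) :=
        annealed_mono μ 0 hsub
    _ ≤ ∑' o, annealed μ 0 (Esc (intHom (cc o)))ᶜ :=
        annealed_iUnion_le μ 0 fun o => (measurableSet_esc _).compl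
    _ = 0 := by simp only [hesc, tsum_fintype, Finset.sum_const_zero]

end Vale.Agent.P147
end
end

section

section

open MeasureTheory Filter Topology
open scoped ENNReal

namespace Vale.Agent.P147

variable {d : ℕ} (μ : Measure (Row d)) [IsProbabilityMeasure μ]

/-- Two vectors that are not opposite have positive inner product with some vector. -/
lemma exists_common_real {w₁ w₂ : Fin d → ℝ} (h1 : w₁ ≠ 0) (h2 : w₂ ≠ 0)
    (hop : ∀ c : ℝ, 0 < c → w₂ ≠ -(c • w₁)) :
    ∃ v : Fin d → ℝ, 0 < ∑ i, w₁ i * v i ∧ 0 < ∑ i, w₂ i * v i := by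
  set A := ∑ i, w₁ i * w₁ i with hA
  set B := ∑ i, w₂ i * w₂ i with hB
  set C := ∑ i, w₁ i * w₂ i with hC
  have pos : ∀ w : Fin d → ℝ, w ≠ 0 → 0 < ∑ i, w i * w i := by
    intro w hw
    obtain ⟨i, hi⟩ := Function.ne_iff.1 hw
    exact Finset.sum_pos' (fun i _ => mul_self_nonneg _)
      ⟨i, Finset.mem_univ i, mul_self_pos.2 hi⟩
  have hA0 : 0 < A := pos w₁ h1
  have hB0 : 0 < B := pos w₂ h2
  have e1 : ∀ t : ℝ, ∑ i, w₁ i * (t * w₁ i + w₂ i) = t * A + C := by
    intro t
    rw [hA, hC, Finset.mul_sum, ← Finset.sum_add_distrib]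
    exact Finset.sum_congr rfl fun i _ => by ring
  have e2 : ∀ t : ℝ, ∑ i, w₂ i * (t * w₁ i + w₂ i) = t * C + B := by
    intro t
    rw [hB, hC, Finset.mul_sum, ← Finset.sum_add_distrib]
    exact Finset.sum_congr rfl fun i _ => by ring
  rcases le_or_gt 0 C with hC0 | hC0
  · refine ⟨fun i => 1 * w₁ i + w₂ i, ?_, ?_⟩
    · rw [e1]; linarith
    · rw [e2]; linarith
  · have hne : (fun i => A * w₂ i - C * w₁ i) ≠ 0 := by
      intro h0
      refine hop (-C / A) (by apply div_pos <;> linarith) ?_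
      funext i
      have h3 := congrFun h0 i
      simp only [Pi.zero_apply] at h3
      simp only [Pi.neg_apply, Pi.smul_apply, smul_eq_mul]
      field_simp
      linarith only [h3]
    have h4 := pos _ hne
    have e3 : ∑ i, (A * w₂ i - C * w₁ i) * (A * w₂ i - C * w₁ i) = A * (A * B - C * C) := by
      have e5 : ∀ a b : ℝ, ∑ i, (a * w₂ i - b * w₁ i) * (a * w₂ i - b * w₁ i) =
          a * a * (∑ i, w₂ i * w₂ i) - 2 * a * b * (∑ i, w₁ i * w₂ i) +
            b * b * ∑ i, w₁ i * w₁ i := by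
        intro a b
        rw [Finset.mul_sum, Finset.mul_sum, Finset.mul_sum, ← Finset.sum_sub_distrib,
          ← Finset.sum_add_distrib]
        exact Finset.sum_congr rfl fun i _ => by ring
      rw [e5 A C, ← hA, ← hB, ← hC]
      ring
    rw [e3] at h4
    have h5 : 0 < A * B - C * C := by
      by_contra h6
      push Not at h6
      nlinarith only [h4, hA0, h6]
    have h7 : -C / A < B / -C := by
      rw [div_lt_div_iff₀ hA0 (by linarith)]
      linarith only [h5]
    obtain ⟨t, ht1, ht2⟩ := exists_between h7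
    refine ⟨fun i => t * w₁ i + w₂ i, ?_, ?_⟩
    · rw [e1]
      rw [div_lt_iff₀ hA0] at ht1
      linarith only [ht1]
    · rw [e2]
      rw [lt_div_iff₀ (by linarith only [hC0])] at ht2
      linarith only [ht2]

/-- Rounding. -/
lemma exists_common_int {w₁ w₂ v : Fin d → ℝ} (h1 : 0 < ∑ i, w₁ i * v i)
    (h2 : 0 < ∑ i, w₂ i * v i) :
    ∃ c : Fin d → ℤ, 0 < ∑ i, w₁ i * (c i : ℝ) ∧ 0 < ∑ i, w₂ i * (c i : ℝ) := by
  have key : ∀ (w : Fin d → ℝ) (D : ℝ), D * (∑ i, w i * v i) - (∑ i, |w i|) / 2 ≤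
      ∑ i, w i * ((round (D * v i) : ℤ) : ℝ) := by
    intro w D
    rw [Finset.mul_sum, Finset.sum_div, ← Finset.sum_sub_distrib]
    refine Finset.sum_le_sum fun i _ => ?_
    have h3 := abs_sub_round (D * v i)
    have h4 : w i * (D * v i - (round (D * v i) : ℤ)) ≤ |w i| * (1 / 2) := by
      refine (le_abs_self _).trans ?_
      rw [abs_mul]
      exact mul_le_mul_of_nonneg_left h3 (abs_nonneg _)
    linarith only [h4]
  obtain ⟨D, hD1, hD2⟩ : ∃ D : ℝ, (∑ i, |w₁ i|) / 2 < D * (∑ i, w₁ i * v i) ∧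
      (∑ i, |w₂ i|) / 2 < D * (∑ i, w₂ i * v i) := by
    refine ⟨max ((∑ i, |w₁ i|) / 2 / (∑ i, w₁ i * v i)) ((∑ i, |w₂ i|) / 2 / (∑ i, w₂ i * v i)) + 1,
      ?_, ?_⟩
    · rw [← div_lt_iff₀ h1]
      exact (le_max_left _ _).trans_lt (lt_add_one _)
    · rw [← div_lt_iff₀ h2]
      exact (le_max_right _ _).trans_lt (lt_add_one _)
  exact ⟨fun i => round (D * v i), by linarith only [hD1, key w₁ D], by linarith only [hD2, key w₂ D]⟩

lemma speed_esc {w : Fin d → ℝ} {c : Fin d → ℤ} (hc : 0 < ∑ i, w i * (c i : ℝ))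
    {h : Site d →+ ℤ} {g : ℕ} (hg : 0 < g) (hh : ∀ x, intHom c x = g * h x) :
    Speed w ⊆ Esc h := by
  intro X hX
  have h1 : Tendsto (fun n => inner (X n) (fun i => (c i : ℝ))) atTop atTop :=
    (speed_subset (v := fun i => (c i : ℝ)) hc hX).1
  have e : ∀ x : Site d, inner x (fun i => (c i : ℝ)) = (g : ℝ) * (h x : ℝ) := by
    intro x
    have h2 := hh x
    have h3 : ((intHom c x : ℤ) : ℝ) = ((g * h x : ℤ) : ℝ) := by rw [h2]
    push_cast at h3
    rw [← h3, inner, intHom]
    simp only [AddMonoidHom.coe_mk, ZeroHom.coe_mk, Int.cast_sum, Int.cast_mul]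
  simp only [e] at h1
  have hg' : (0 : ℝ) < g := by exact_mod_cast hg
  rw [tendsto_const_mul_atTop_of_pos hg'] at h1
  exact tendsto_intCast_atTop_iff.1 h1

/-- Two vectors that are not opposite have positive inner product with some surjective integer
functional. -/
theorem exists_common_functional {w₁ w₂ : Fin d → ℝ} (h1 : w₁ ≠ 0) (h2 : w₂ ≠ 0)
    (hop : ∀ c : ℝ, 0 < c → w₂ ≠ -(c • w₁)) :
    ∃ h : Site d →+ ℤ, Function.Surjective h ∧ Speed w₁ ⊆ Esc h ∧ Speed w₂ ⊆ Esc h := by
  obtain ⟨v, hv1, hv2⟩ := exists_common_real h1 h2 hop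
  obtain ⟨c, hc1, hc2⟩ := exists_common_int hv1 hv2
  have hne : ∃ x, intHom c x ≠ 0 := by
    by_contra hz
    push Not at hz
    have h0 : ∀ i, c i = 0 := by
      intro i
      have h3 := hz (Pi.single i 1)
      simpa only [intHom, AddMonoidHom.coe_mk, ZeroHom.coe_mk, Pi.single_apply, ite_mul, one_mul, zero_mul,     Finset.sum_ite_eq', Finset.mem_univ, ↓reduceIte] using h3
    simp only [h0, Int.cast_zero, mul_zero, Finset.sum_const_zero, lt_self_iff_false] at hc1
  obtain ⟨h, g, hsurj, hg, hmul⟩ := exists_surj hne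
  exact ⟨h, hsurj, speed_esc hc1 hg hmul, speed_esc hc2 hg hmul⟩

end Vale.Agent.P147
end
end

section

section

open MeasureTheory Filter Topology
open scoped ENNReal

namespace Vale.Agent.P147

variable {d : ℕ} (μ : Measure (Row d)) [IsProbabilityMeasure μ]

lemma annealed_compl {A : Set (ℕ → Site d)} (hA : MeasurableSet A) :
    annealed μ 0 A + annealed μ 0 Aᶜ = 1 := by
  rw [← annM_apply μ 0 hA, ← annM_apply μ 0 hA.compl, measure_add_measure_compl hA]
  simp

/-- The one-sided theorem for integer functionals. -/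
theorem one_sided (hd : 4 ≤ d) (hμ : Elliptic μ) {h : Site d →+ ℤ}
    (hsurj : Function.Surjective h) (hl : Lin μ h) : annealed μ 0 (Esc (-h)) = 0 := by
  classical
  by_contra hpos
  obtain ⟨c₁, hc₁, L₁, s₁, hI₁⟩ := hl.weak
  obtain ⟨J₁, hJ₁⟩ := uu_ne_zero μ hμ hsurj
  obtain ⟨q, hq, k₀, hlow⟩ := uu_low μ hc₁ hI₁ hJ₁
  have hthin := thin_up μ hl hq hlow
  obtain ⟨s, hs, hU⟩ := sup_bound μ hd hμ hsurj hq hlow
  obtain ⟨y, c, hy, hy0, hc, hav⟩ := avoid μ (by omega) hq hlow hthin hs hU
  obtain ⟨M, C, hM, hC, hsum⟩ := second_moment_sum μ hμ hsurj hq hlow rfl hthin hy hy0 hc hav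
  obtain ⟨q', C', hq', hC', hsm⟩ := second_moment μ hμ hsurj hq hlow rfl hthin hM hC hsum
  exact contra μ hq' hC' hsm (upS_ae_pos μ hμ (neg_surj hsurj) hpos) (turning_sum μ h)

/-- Thin escape with positive probability implies escape with probability one. -/
theorem esc_one (hd : 4 ≤ d) (hμ : Elliptic μ) {h : Site d →+ ℤ}
    (hsurj : Function.Surjective h) (hl : Lin μ h) (hpos : annealed μ 0 (Esc h) ≠ 0) :
    annealed μ 0 (Esc h)ᶜ = 0 := by
  have h1 := one_sided μ hd hμ hsurj hl
  have h2 := sign_union μ hμ hsurj hpos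
  have hm := measurableSet_esc h
  have hm' := measurableSet_esc (-h)
  refine le_antisymm ?_ zero_le
  rw [← annM_apply μ 0 hm.compl]
  rw [← annM_apply μ 0 hm'] at h1
  rw [← annM_apply μ 0 (hm.union hm').compl] at h2
  calc annM μ 0 (Esc h)ᶜ ≤ annM μ 0 ((Esc h ∪ Esc (-h))ᶜ ∪ Esc (-h)) := by
        refine measure_mono fun X hX => ?_
        by_cases h3 : X ∈ Esc (-h)
        · exact Or.inr h3
        · exact Or.inl (fun h4 => h4.elim hX h3)
    _ ≤ annM μ 0 (Esc h ∪ Esc (-h))ᶜ + annM μ 0 (Esc (-h)) := measure_union_le _ _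
    _ = 0 := by rw [h1, h2, add_zero]

theorem thin_one (hd : 4 ≤ d) (hμ : Elliptic μ) {v : Fin d → ℝ}
    (hpos : annealed μ 0 (ThinEscape v) ≠ 0) : annealed μ 0 (Escape v)ᶜ = 0 :=
  real_reduction μ hpos fun _ hsurj hl hp => esc_one μ hd hμ hsurj hl hp

lemma measurableSet_speed (w : Fin d → ℝ) : MeasurableSet (Speed w) := by
  refine measurableSet_tendsto (nhds w) fun n => ?_
  refine measurable_pi_lambda _ fun i => ?_
  have h1 : Measurable (fun X : ℕ → Site d => (X n i : ℝ)) :=
    (measurable_of_countable (fun x : Site d => (x i : ℝ))).comp (measurable_pi_apply n)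
  exact h1.div_const _

lemma sinv_speed (w : Fin d → ℝ) : SInv (Speed w) := by
  intro X
  simp only [Speed, Set.mem_ofPred_eq, tendsto_pi_nhds]
  refine forall_congr' fun i => ?_
  have h1 : Tendsto (fun n : ℕ => ((n : ℝ) + 1) / n) atTop (𝓝 1) := by
    have h2 : Tendsto (fun n : ℕ => 1 + 1 / (n : ℝ)) atTop (𝓝 (1 + 0)) :=
      tendsto_const_nhds.add tendsto_one_div_atTop_nhds_zero_nat
    rw [add_zero] at h2
    refine h2.congr' ?_
    filter_upwards [eventually_ge_atTop 1] with n hn
    have : (n : ℝ) ≠ 0 := by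
      have : (0 : ℝ) < n := by exact_mod_cast hn
      exact this.ne'
    field_simp
  have h1' : Tendsto (fun n : ℕ => (n : ℝ) / (n + 1)) atTop (𝓝 1) := by
    have := h1.inv₀ one_ne_zero
    rw [inv_one] at this
    exact this.congr fun n => inv_div _ _
  have key : Tendsto (fun n : ℕ => (X (n + 1) i : ℝ) / ((n + 1 : ℕ) : ℝ)) atTop (𝓝 (w i)) ↔
      Tendsto (fun n : ℕ => (X n i : ℝ) / (n : ℝ)) atTop (𝓝 (w i)) :=
    tendsto_add_atTop_iff_nat (f := fun n : ℕ => (X n i : ℝ) / (n : ℝ)) 1
  rw [← key]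
  constructor
  · intro hX
    have := hX.mul h1'
    rw [mul_one] at this
    refine this.congr' ?_
    filter_upwards [eventually_ge_atTop 1] with n hn
    have hn0 : (n : ℝ) ≠ 0 := by
      have : (0 : ℝ) < n := by exact_mod_cast hn
      exact this.ne'
    have hn1 : (n : ℝ) + 1 ≠ 0 := by positivity
    simp only [tl]
    push_cast
    (clear * - hn0 hn1; field_simp)
  · intro hX
    have := hX.mul h1
    rw [mul_one] at this
    refine this.congr' ?_
    filter_upwards [eventually_ge_atTop 1] with n hn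
    have hn0 : (n : ℝ) ≠ 0 := by
      have : (0 : ℝ) < n := by exact_mod_cast hn
      exact this.ne'
    have hn1 : (n : ℝ) + 1 ≠ 0 := by positivity
    simp only [tl]
    push_cast
    field_simp

lemma tinv_speed (w : Fin d → ℝ) : TInv (Speed w) := by
  have key : ∀ (z : Site d) (X : ℕ → Site d), X ∈ Speed w → tr z X ∈ Speed w := by
    intro z X hX
    simp only [Speed, Set.mem_ofPred_eq, tendsto_pi_nhds] at hX ⊢
    intro i
    have h1 : Tendsto (fun n : ℕ => (z i : ℝ) / n) atTop (𝓝 0) :=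
      tendsto_const_div_atTop_nhds_zero_nat _
    have h2 := (hX i).add h1
    rw [add_zero] at h2
    refine h2.congr fun n => ?_
    simp only [tr, Pi.add_apply]
    push_cast
    ring
  intro z X
  refine ⟨fun hX => ?_, key z X⟩
  have := key (-z) _ hX
  have e : tr (-z) (tr z X) = X := by
    funext n; simp [tr]
  rwa [e] at this

lemma speed_zero_one_aux {h : Site d →+ ℤ} {w : Fin d → ℝ} (hw : Speed w ⊆ Esc h)
    (hpos : annealed μ 0 (Speed w) ≠ 0) : annealed μ 0 (Esc h \ Speed w) = 0 := by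
  rcases zero_one_given μ h (measurableSet_speed w) (tinv_speed w) (sinv_speed w) with h1 | h1
  · rw [Set.inter_eq_right.2 hw] at h1
    exact absurd h1 hpos
  · exact h1

/-- At most one nonzero velocity. -/
theorem one_velocity (hd : 3 ≤ d) (hμ : Elliptic μ) {w₁ w₂ : Fin d → ℝ} (h1 : w₁ ≠ 0)
    (h2 : w₂ ≠ 0) (hne : w₁ ≠ w₂) :
    annealed μ 0 (Speed w₁) = 0 ∨ annealed μ 0 (Speed w₂) = 0 := by
  by_cases hop : ∃ c : ℝ, 0 < c ∧ w₂ = -(c • w₁)
  · obtain ⟨c, hc, rfl⟩ := hop
    exact opposite_speeds μ hd hμ h1 hc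
  · push Not at hop
    obtain ⟨h, hsurj, hs1, hs2⟩ := exists_common_functional h1 h2 hop
    by_contra hcon
    push Not at hcon
    have h3 := speed_zero_one_aux μ hs1 hcon.1
    apply hcon.2
    refine le_antisymm (le_trans (annealed_mono μ 0 ?_) h3.le) zero_le
    intro X hX
    refine ⟨hs2 hX, fun hX1 => hne ?_⟩
    exact tendsto_nhds_unique hX1 hX

/-- An integer functional and the corresponding real direction. -/
lemma exists_functional_thin {w : Fin d → ℝ} (hw : w ≠ 0) :
    ∃ (h : Site d →+ ℤ) (v : Fin d → ℝ), Function.Surjective h ∧ Speed w ⊆ Esc h ∧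
      Speed w ⊆ ThinEscape v ∧ Escape v ⊆ Esc h := by
  classical
  obtain ⟨i, hi⟩ : ∃ i, w i ≠ 0 := by
    by_contra hcon
    push Not at hcon
    exact hw (funext hcon)
  set c : Fin d → ℤ := Pi.single i (if 0 < w i then 1 else -1) with hc
  set v : Fin d → ℝ := fun j => (c j : ℝ) with hv
  have hpos : 0 < ∑ j, w j * v j := by
    rw [Finset.sum_eq_single i]
    · simp only [hv, hc, Pi.single_eq_same]
      split_ifs with h1
      · simpa using h1
      · push Not at h1
        have : w i < 0 := lt_of_le_of_ne h1 hi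
        push_cast
        linarith
    · intro j _ hj
      simp only [hv, hc, Int.reduceNeg, Pi.single_eq_of_ne hj, Int.cast_zero, mul_zero]
    · simp only [Finset.mem_univ, not_true_eq_false, mul_eq_zero, IsEmpty.forall_iff]
  have hinner : ∀ x : Site d, inner x v = (intHom c x : ℝ) := by
    intro x
    simp only [inner, intHom, AddMonoidHom.coe_mk, ZeroHom.coe_mk, hv]
    push_cast
    rfl
  have hne : ∃ x, intHom c x ≠ 0 := by
    refine ⟨Pi.single i 1, ?_⟩
    simp only [intHom, AddMonoidHom.coe_mk, ZeroHom.coe_mk]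
    rw [Finset.sum_eq_single i]
    · simp only [Pi.single_eq_same, hc, one_mul]
      split_ifs <;> norm_num
    · intro j _ hj
      simp [Pi.single_eq_of_ne hj]
    · simp only [Finset.mem_univ, not_true_eq_false, Pi.single_eq_same, one_mul, IsEmpty.forall_iff]
  obtain ⟨h, g, hsurj, hg, hmul⟩ := exists_surj hne
  have hgr : (0 : ℝ) < g := by exact_mod_cast hg
  have hEsc : Escape v ⊆ Esc h := by
    intro X hX
    simp only [Escape, Set.mem_ofPred_eq, hinner, hmul] at hX
    simp only [Esc, Set.mem_ofPred_eq]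
    have h1 : Tendsto (fun n => ((h (X n) : ℤ) : ℝ)) atTop atTop := by
      have h2 : Tendsto (fun n => (g : ℝ)⁻¹ * (((g : ℤ) * h (X n) : ℤ) : ℝ)) atTop atTop :=
        Tendsto.const_mul_atTop (inv_pos.2 hgr) hX
      refine h2.congr fun n => ?_
      push_cast
      (clear * - hg; field_simp)
    exact tendsto_intCast_atTop_iff.1 h1
  exact ⟨h, v, hsurj, fun X hX => hEsc ((speed_subset hpos hX).1), speed_subset hpos, hEsc⟩

/-- Law of large numbers: a nonzero velocity with positive probability is the velocity almost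
surely. -/
theorem speed_one (hd : 4 ≤ d) (hμ : Elliptic μ) {w : Fin d → ℝ} (hw : w ≠ 0)
    (hpos : annealed μ 0 (Speed w) ≠ 0) : annealed μ 0 (Speed w)ᶜ = 0 := by
  obtain ⟨h, v, hsurj, hs1, hs2, hs3⟩ := exists_functional_thin hw
  have h3 := speed_zero_one_aux μ hs1 hpos
  have hp : annealed μ 0 (ThinEscape v) ≠ 0 := fun h0 => hpos
    (le_antisymm ((annealed_mono μ 0 hs2).trans h0.le) zero_le)
  have h4 := thin_one μ hd hμ hp
  have hm := measurableSet_speed w
  have hm' := measurableSet_esc h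
  have h5 : annealed μ 0 (Esc h)ᶜ = 0 :=
    le_antisymm ((annealed_mono μ 0 (Set.compl_subset_compl.2 hs3)).trans h4.le) zero_le
  rw [← annM_apply μ 0 hm.compl]
  rw [← annM_apply μ 0 hm'.compl] at h5
  rw [← annM_apply μ 0 (hm'.diff hm)] at h3
  refine le_antisymm ?_ zero_le
  calc annM μ 0 (Speed w)ᶜ ≤ annM μ 0 ((Esc h \ Speed w) ∪ (Esc h)ᶜ) := by
        refine measure_mono fun X hX => ?_
        by_cases h6 : X ∈ Esc h
        · exact Or.inl ⟨h6, hX⟩
        · exact Or.inr h6
    _ ≤ _ := measure_union_le _ _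
    _ = 0 := by rw [h3, h5, add_zero]

/-! ### The zero-one law for all directions -/

lemma measurableSet_escape (v : Fin d → ℝ) : MeasurableSet (Escape v : Set (ℕ → Site d)) := by
  have : (Escape v : Set (ℕ → Site d)) =
      ⋂ K : ℕ, ⋃ M : ℕ, ⋂ n : ℕ, {X | M ≤ n → (K : ℝ) ≤ inner (X n) v} := by
    ext X
    simp only [Escape, Set.mem_ofPred_eq, Set.mem_iInter, Set.mem_iUnion]
    constructor
    · intro hX K
      obtain ⟨M, hM⟩ := (tendsto_atTop_atTop.1 hX) K
      exact ⟨M, hM⟩
    · intro hX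
      refine tendsto_atTop_atTop.2 fun b => ?_
      obtain ⟨K, hK⟩ := exists_nat_ge b
      obtain ⟨M, hM⟩ := hX K
      exact ⟨M, fun n hn => hK.trans (hM n hn)⟩
  rw [this]
  refine MeasurableSet.iInter fun K => MeasurableSet.iUnion fun M => MeasurableSet.iInter
      fun n => ?_
  refine measurableSet_local n _ fun X Y hXY hX hn => ?_
  rw [← hXY n le_rfl]; exact hX hn

lemma inner_add_left (x y : Site d) (v : Fin d → ℝ) : inner (x + y) v = inner x v + inner y v := by
  simp only [inner, Pi.add_apply]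
  push_cast
  rw [← Finset.sum_add_distrib]
  exact Finset.sum_congr rfl fun i _ => by ring

lemma sinv_escape (v : Fin d → ℝ) : SInv (Escape v : Set (ℕ → Site d)) := by
  intro X
  exact tendsto_add_atTop_iff_nat (f := fun n => inner (X n) v) 1

lemma tinv_escape (v : Fin d → ℝ) : TInv (Escape v : Set (ℕ → Site d)) := by
  have key : ∀ (z : Site d) (X : ℕ → Site d), X ∈ Escape v → tr z X ∈ Escape v := by
    intro z X hX
    have h1 := tendsto_atTop_add_const_right atTop (inner z v)
      (show Tendsto (fun n => inner (X n) v) atTop atTop from hX)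
    refine h1.congr fun n => ?_
    rw [tr, inner_add_left]
  intro z X
  refine ⟨fun hX => ?_, key z X⟩
  have := key (-z) _ hX
  have e : tr (-z) (tr z X) = X := by
    funext n; simp [tr]
  rwa [e] at this

/-- Invariant events are trivial if the walk escapes almost surely along some functional. -/
lemma invariant_zero_one {h : Site d →+ ℤ} (h1 : annealed μ 0 (Esc h)ᶜ = 0)
    {B : Set (ℕ → Site d)} (hB : MeasurableSet B) (hT : TInv B) (hS : SInv B) :
    annealed μ 0 B = 0 ∨ annealed μ 0 B = 1 := by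
  have hm := measurableSet_esc h
  rw [← annM_apply μ 0 hm.compl] at h1
  rcases zero_one_given μ h hB hT hS with h2 | h2
  · left
    rw [← annM_apply μ 0 (hm.inter hB)] at h2
    rw [← annM_apply μ 0 hB]
    refine le_antisymm ?_ zero_le
    calc annM μ 0 B ≤ annM μ 0 ((Esc h ∩ B) ∪ (Esc h)ᶜ) := by
          refine measure_mono fun X hX => ?_
          by_cases h3 : X ∈ Esc h
          · exact Or.inl ⟨h3, hX⟩
          · exact Or.inr h3
      _ ≤ _ := measure_union_le _ _
      _ = 0 := by rw [h1, h2, add_zero]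
  · right
    rw [← annM_apply μ 0 (hm.diff hB)] at h2
    rw [← annM_apply μ 0 hB]
    have h3 : annM μ 0 Bᶜ = 0 := by
      refine le_antisymm ?_ zero_le
      calc annM μ 0 Bᶜ ≤ annM μ 0 ((Esc h \ B) ∪ (Esc h)ᶜ) := by
            refine measure_mono fun X hX => ?_
            by_cases h3 : X ∈ Esc h
            · exact Or.inl ⟨h3, hX⟩
            · exact Or.inr h3
        _ ≤ _ := measure_union_le _ _
        _ = 0 := by rw [h1, h2, add_zero]
    exact (prob_compl_eq_zero_iff hB).1 h3

/-- **One-sided theorem.** If the walk escapes at linear rate in some direction with positive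
probability, then the directional zero-one law holds for all directions. -/
theorem zero_one_of_thin (hd : 4 ≤ d) (hμ : Elliptic μ) {v : Fin d → ℝ}
    (hpos : annealed μ 0 (ThinEscape v) ≠ 0) :
    annealed μ 0 (Escape v) = 1 ∧
      ∀ l : Fin d → ℝ, annealed μ 0 (Escape l) = 0 ∨ annealed μ 0 (Escape l) = 1 := by
  constructor
  · have h1 := thin_one μ hd hμ hpos
    have hm := measurableSet_escape v
    rw [← annM_apply μ 0 hm.compl] at h1
    rw [← annM_apply μ 0 hm]
    exact (prob_compl_eq_zero_iff hm).1 h1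
  · intro l
    obtain ⟨h, hsurj, hlin, hne⟩ := exists_lin μ hpos
    exact invariant_zero_one μ (esc_one μ hd hμ hsurj hlin hne) (measurableSet_escape l)
      (tinv_escape l) (sinv_escape l)

theorem speed_eq_one (hd : 4 ≤ d) (hμ : Elliptic μ) {w : Fin d → ℝ} (hw : w ≠ 0)
    (hpos : annealed μ 0 (Speed w) ≠ 0) : annealed μ 0 (Speed w) = 1 := by
  have h1 := speed_one μ hd hμ hw hpos
  have hm := measurableSet_speed w
  rw [← annM_apply μ 0 hm.compl] at h1
  rw [← annM_apply μ 0 hm]
  exact (prob_compl_eq_zero_iff hm).1 h1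

end Vale.Agent.P147
end
end
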